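import Mathlib
import Vale.Agent.P321.UB.U2

/-!
Exponential sums which are small on a tenth of a grid: the two constants estimate, the Cauchy
estimate for the moments, and the first coefficient.
-/

open Complex Finset MeasureTheory
open scoped Real

noncomputable section

namespace Vale.Agent.P321D

open Vale.Agent.P321.UB

/-- The exponential sum. -/
def GS (n : ℕ) (a : ℕ → ℂ) (s : ℂ) : ℂ := ∑ l ∈ range n, a l * cexp (-(s * l))

theorem GS_le (n : ℕ) (a : ℕ → ℂ) {s : ℂ} (hs : 0 ≤ s.re) :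
    ‖GS n a s‖ ≤ ∑ l ∈ range n, ‖a l‖ := by
  refine (norm_sum_le _ _).trans (sum_le_sum fun l _ => ?_)
  rw [norm_mul, norm_exp]
  refine mul_le_of_le_one_right (norm_nonneg _) (Real.exp_le_one_iff.2 ?_)
  simp only [neg_re, mul_re, natCast_re, natCast_im, mul_zero, sub_zero]
  exact neg_nonpos.2 (mul_nonneg hs (Nat.cast_nonneg l))

theorem GS_lip (n : ℕ) (a : ℕ → ℂ) (x y : ℝ) : ‖GS (n + 1) a (-(x * I)) - GS (n + 1) a (-(y * I))‖ ≤
    |x - y| * n * ∑ l ∈ range (n + 1), ‖a l‖ := by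
  rw [GS, GS, ← sum_sub_distrib, mul_sum]
  refine (norm_sum_le _ _).trans (sum_le_sum fun l hl => ?_)
  rw [← mul_sub, norm_mul, mul_comm]
  refine mul_le_mul_of_nonneg_right ((norm_exp_sub_exp_le (by simp) (by simp)).trans ?_)
    (norm_nonneg _)
  have e : -(-(x * I) * (l : ℂ)) - -(-(y * I) * (l : ℂ)) = ((x - y : ℝ) : ℂ) * I * l := by
    push_cast; ring
  rw [e, norm_mul, norm_mul, norm_I, mul_one, norm_real, Real.norm_eq_abs, norm_natCast]
  exact mul_le_mul_of_nonneg_left (by exact_mod_cast Nat.lt_succ_iff.1 (mem_range.1 hl))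
    (abs_nonneg _)

/-- The two constants estimate for a polynomial which is small on some arcs. -/
theorem tc (p : Polynomial ℂ) {u : ℂ} (hu : ‖u‖ < 1) {M η φ k0 : ℝ} {E : Finset ℕ} (M1 : 1 ≤ M)
    (η0 : 0 < η) (η1 : η ≤ 1) (φ0 : 0 < φ) (hE : ∀ x ∈ E, φ * (x + 1) ≤ 2 * π)
    (hM : ∀ t, ‖p.eval (circleMap 0 1 t)‖ ≤ M)
    (hη : ∀ x ∈ E, ∀ t ∈ Set.Ioc (φ * x) (φ * (x + 1)), ‖p.eval (circleMap 0 1 t)‖ ≤ η)
    (hk : ∀ x ∈ E, ∀ t ∈ Set.Icc (φ * x) (φ * (x + 1)), k0 ≤ PK u (circleMap 0 1 t)) :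
    ‖p.eval u‖ ≤ η ^ (E.card * φ * k0 / (2 * π)) * M := by
  by_cases h0 : p.eval u = 0
  · rw [h0, norm_zero]; positivity
  have hc := continuous_PK_circleMap hu
  set F : ℝ → ℝ := fun t => PK u (circleMap 0 1 t) with hF
  let c : ℕ → Set ℝ := fun x => Set.Ioc (φ * x) (φ * (x + 1))
  have hi : IntervalIntegrable F volume 0 (2 * π) := hc.intervalIntegrable _ _
  have hj : ∀ x, IntervalIntegrable ((c x).indicator F) volume 0 (2 * π) := fun x =>
    ⟨hi.1.indicator measurableSet_Ioc, hi.2.indicator measurableSet_Ioc⟩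
  have hs : IntervalIntegrable (fun t => ∑ x ∈ E, (c x).indicator F t) volume 0 (2 * π) := by
    simpa only [← Finset.sum_apply] using IntervalIntegrable.sum E fun x _ => hj x
  have e : ∀ t, F t * (Real.log M + Real.log η * ∑ x ∈ E, (c x).indicator (fun _ => (1 : ℝ)) t) =
      Real.log M * F t + Real.log η * ∑ x ∈ E, (c x).indicator F t := fun t => by
    rw [mul_add, mul_comm (F t), mul_left_comm, mul_sum]
    congr 2
    exact sum_congr rfl fun x _ => by by_cases h : t ∈ c x <;> simp [h]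
  have lM := Real.log_nonneg M1
  have lη := Real.log_nonpos η0.le η1
  have key := log_norm_eval_le (r := 1) (v := fun t => Real.log M + Real.log η *
      ∑ x ∈ E, (c x).indicator (fun _ => (1 : ℝ)) t) hu p h0
    (((hi.const_mul _).add (hs.const_mul _)).congr fun t _ => (e t).symm) fun t ht => by
      by_cases h : ∃ x ∈ E, t ∈ c x
      · obtain ⟨x, hx, h⟩ := h
        rw [sum_eq_single_of_mem x hx fun y _ hy => Set.indicator_of_notMem (fun h' => hy (by
          have c1 : (x : ℝ) < y + 1 := lt_of_mul_lt_mul_left (h.1.trans_le h'.2) φ0.le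
          have c2 : (y : ℝ) < x + 1 := lt_of_mul_lt_mul_left (h'.1.trans_le h.2) φ0.le
          have c1' : x < y + 1 := by exact_mod_cast c1
          have c2' : y < x + 1 := by exact_mod_cast c2
          omega)) _, Set.indicator_of_mem h]
        linarith [Real.log_le_log (norm_pos_iff.2 ht) (hη x hx t h)]
      · rw [sum_eq_zero fun x hx => Set.indicator_of_notMem (fun h' => h ⟨x, hx, h'⟩) _]
        linarith [Real.log_le_log (norm_pos_iff.2 ht) (hM t)]
  have lo : ∀ x ∈ E, φ * k0 ≤ ∫ t in (0)..(2 * π), (c x).indicator F t := fun x hx => by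
    have a : φ * x ≤ φ * (x + 1) := by nlinarith
    rw [intervalIntegral.integral_of_le (by positivity), setIntegral_indicator measurableSet_Ioc,
      Set.inter_eq_right.2 (Set.Ioc_subset_Ioc (by positivity) (hE x hx)),
      ← intervalIntegral.integral_of_le a]
    refine le_trans (le_of_eq ?_) (intervalIntegral.integral_mono_on a
      (intervalIntegrable_const (c := k0)) (hc.intervalIntegrable _ _) (hk x hx))
    rw [intervalIntegral.integral_const, smul_eq_mul]
    ring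
  rw [intervalIntegral.integral_congr fun t _ => e t, intervalIntegral.integral_add (hi.const_mul _) (hs.const_mul _),
    intervalIntegral.integral_const_mul, intervalIntegral.integral_const_mul, integral_PK hu,
    intervalIntegral.integral_finsetSum fun x _ => hj x] at key
  have s := sum_le_sum lo
  rw [sum_const, nsmul_eq_mul] at s
  have s' := mul_le_mul_of_nonpos_left s lη
  have pp := Real.pi_pos
  rw [← Real.exp_log (norm_pos_iff.2 h0), Real.rpow_def_of_pos η0,
    ← Real.exp_log (by linarith : 0 < M), ← Real.exp_add]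
  refine Real.exp_le_exp.2 (key.trans ?_)
  rw [inv_mul_le_iff₀ (by positivity)]
  refine (add_le_add le_rfl s').trans (le_of_eq ?_)
  field_simp
  ring

theorem GS_iter (n : ℕ) (a : ℕ → ℂ) (k : ℕ) (s : ℂ) :
    iteratedDeriv k (GS n a) s = ∑ l ∈ range n, a l * ((-l) ^ k * cexp (-(s * l))) := by
  have e : GS n a = fun s => ∑ l ∈ range n, a l * cexp (-l * s) := funext fun s =>
    sum_congr rfl fun l _ => by rw [neg_mul, mul_comm s]
  rw [e, iteratedDeriv_fun_sum fun l _ => by fun_prop]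
  refine sum_congr rfl fun l _ => ?_
  rw [iteratedDeriv_const_mul_field, iteratedDeriv_cexp_const_mul]
  simp only [neg_mul, mul_comm s]

/-- The Cauchy estimate for the moments. -/
theorem mom {n : ℕ} {a : ℕ → ℂ} {r η : ℝ} {s : ℂ} (r0 : 0 < r)
    (h : ∀ z, ‖z - s‖ = r → ‖GS n a z‖ ≤ η) (k : ℕ) :
    ‖∑ l ∈ range n, a l * ((l : ℂ) ^ k * cexp (-(s * l)))‖ ≤ k.factorial * η / r ^ k := by
  have d : Differentiable ℂ (GS n a) := by unfold GS; fun_prop
  have := norm_iteratedDeriv_le_of_forall_mem_sphere_norm_le (c := s) k r0 d.diffContOnCl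
    fun z hz => h z (mem_sphere_iff_norm.1 hz)
  have e : ∑ l ∈ range n, a l * ((-l) ^ k * cexp (-(s * l))) =
      (-1) ^ k * ∑ l ∈ range n, a l * ((l : ℂ) ^ k * cexp (-(s * l))) := by
    rw [mul_sum]
    exact sum_congr rfl fun l _ => by rw [neg_pow]; ring
  rwa [GS_iter, e, norm_mul, norm_pow, norm_neg, norm_one, one_pow, one_mul] at this

section grid
variable {a : ℕ → ℂ} {M η η' φ : ℝ} {L' X : ℕ} {E : Finset ℕ}
  (hM : ∑ l ∈ range (L' + 1), ‖a l‖ ≤ M) (M1 : 1 ≤ M) (φ0 : 0 < φ) (X1 : 1 ≤ X)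
  (σ1 : X * φ ≤ 1) (hE : ∀ x ∈ E, x ≤ X)
  (hη : ∀ x ∈ E, ‖∑ l ∈ range (L' + 1), a l * cexp (I * (φ * x * l))‖ ≤ η)
  (η0 : 0 < η') (ηη : η + φ * L' * M ≤ η') (η1 : η' ≤ 1)
include hM M1 φ0 X1 σ1 hE hη η0 ηη η1

/-- The two constants estimate from the grid. -/
theorem tc_grid {u : ℂ} (hu : ‖u‖ < 1) {k0 : ℝ}
    (hk : ∀ t ∈ Set.Icc 0 (2 * (X * φ)), k0 ≤ PK u (circleMap 0 1 t)) :
    ‖∑ l ∈ range (L' + 1), a l * u ^ l‖ ≤ η' ^ (E.card * φ * k0 / (2 * π)) * M := by
  set p : Polynomial ℂ := ∑ l ∈ range (L' + 1), Polynomial.C (a l) * Polynomial.X ^ l with hp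
  have ev : ∀ z, p.eval z = ∑ l ∈ range (L' + 1), a l * z ^ l := fun z => by
    simp [hp, Polynomial.eval_finsetSum]
  have ec : ∀ t : ℝ, p.eval (circleMap 0 1 t) = GS (L' + 1) a (-(t * I)) := fun t => by
    rw [ev, GS]
    refine sum_congr rfl fun l _ => ?_
    rw [circleMap_zero, ofReal_one, one_mul, ← exp_nat_mul]
    congr 2
    ring
  have X1' : (1 : ℝ) ≤ X := by exact_mod_cast X1
  have b : ∀ x ∈ E, φ * (x + 1) ≤ 2 * (X * φ) := fun x hx => by
    have : (x : ℝ) ≤ X := by exact_mod_cast hE x hx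
    nlinarith
  rw [← ev]
  refine tc p hu M1 η0 η1 φ0 (fun x hx => by linarith [b x hx, Real.pi_gt_three])
    (fun t => by rw [ec]; exact (GS_le _ _ (by simp)).trans hM) (fun x hx t ht => ?_)
    fun x hx t ht => hk t ⟨le_trans (by positivity) ht.1, ht.2.trans (b x hx)⟩
  have a1 := GS_lip L' a t (φ * x)
  have a2 : |t - φ * x| ≤ φ := abs_le.2 ⟨by linarith [ht.1], by linarith [ht.2]⟩
  have a3 : |t - φ * x| * L' * ∑ l ∈ range (L' + 1), ‖a l‖ ≤ φ * L' * M :=
    mul_le_mul (mul_le_mul_of_nonneg_right a2 (Nat.cast_nonneg _)) hM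
      (sum_nonneg fun _ _ => norm_nonneg _) (by positivity)
  have a4 := norm_le_insert' (GS (L' + 1) a (-(t * I))) (GS (L' + 1) a (-((φ * x : ℝ) * I)))
  have a5 : GS (L' + 1) a (-((φ * x : ℝ) * I)) =
      ∑ l ∈ range (L' + 1), a l * cexp (I * (φ * x * l)) :=
    sum_congr rfl fun l _ => by congr 2; push_cast; ring
  rw [ec]
  rw [a5] at a4 a1
  linarith [hη x hx]

/-- The first coefficient. -/
theorem base (e : E = range (X + 1)) : ‖a 0‖ ≤ η' ^ (X * φ / 7) * M := by
  have := tc_grid hM M1 φ0 X1 σ1 hE hη η0 ηη η1 (u := 0) (by simp) (k0 := 1) fun t _ => by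
    simp [PK]
  rw [sum_eq_single_of_mem 0 (by simp) fun l _ hl => by simp [hl], pow_zero, mul_one] at this
  refine this.trans (mul_le_mul_of_nonneg_right (Real.rpow_le_rpow_of_exponent_ge η0 η1 ?_)
    (by linarith))
  rw [e, card_range, mul_one, Nat.cast_succ]
  exact div_le_div₀ (by positivity) (by nlinarith) (by positivity) (by linarith [Real.pi_lt_d2])

/-- The estimate in the region. -/
theorem region (hc : X ≤ 10 * E.card) {s : ℂ} (s1 : |s.re - X * φ| ≤ X * φ / 2)
    (s2 : |s.im| ≤ 3 * (X * φ) / 2) : ‖GS (L' + 1) a s‖ ≤ η' ^ (1 / 4000 : ℝ) * M := by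
  have X1' : (1 : ℝ) ≤ X := by exact_mod_cast X1
  set σ := X * φ with hσ
  have σ0 : 0 < σ := by positivity
  obtain ⟨r1, r2⟩ := abs_le.1 s1
  obtain ⟨i1, i2⟩ := abs_le.1 s2
  have nu : ‖cexp (-s)‖ = Real.exp (-s.re) := by rw [norm_exp, neg_re]
  have hu : ‖cexp (-s)‖ < 1 := by rw [nu, Real.exp_lt_one_iff]; linarith
  have := tc_grid hM M1 φ0 X1 σ1 hE hη η0 ηη η1 hu (k0 := 1 / (50 * σ)) fun t ht => by
    have hz : circleMap 0 1 t = cexp (t * I) := by rw [circleMap_zero, ofReal_one, one_mul]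
    have nz : ‖cexp (t * I)‖ = 1 := norm_exp_ofReal_mul_I t
    have d1 : ‖cexp (t * I) - cexp (-s)‖ ^ 2 ≤ 15 * σ ^ 2 := by
      refine (pow_le_pow_left₀ (norm_nonneg _)
        (norm_exp_sub_exp_le (by simp) (by rw [neg_re]; linarith)) 2).trans ?_
      rw [Complex.sq_norm, normSq_apply]
      simp only [sub_re, mul_re, ofReal_re, I_re, mul_zero, ofReal_im, I_im, mul_one, sub_self,
        neg_re, sub_im, mul_im, add_zero, neg_im]
      nlinarith [ht.1, ht.2]
    have d0 : 0 < ‖cexp (t * I) - cexp (-s)‖ ^ 2 := pow_pos (norm_pos_iff.2 (sub_ne_zero.2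
      fun h => by rw [← h, nz] at hu; exact lt_irrefl _ hu)) 2
    have n1 : σ / 2 ≤ 1 - Real.exp (-s.re) ^ 2 := by
      have a : Real.exp (-s.re) ^ 2 ≤ Real.exp (-σ) := by
        rw [← Real.exp_nat_mul]; exact Real.exp_le_exp.2 (by push_cast; linarith)
      have b : Real.exp (-σ) * (σ + 1) ≤ 1 := by
        rw [Real.exp_neg, inv_mul_le_iff₀ (Real.exp_pos _), mul_one]; exact Real.add_one_le_exp σ
      nlinarith [Real.exp_pos (-σ)]
    rw [hz, PK, nz, nu, one_pow, div_le_div_iff₀ (by positivity) d0]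
    nlinarith
  have e : GS (L' + 1) a s = ∑ l ∈ range (L' + 1), a l * cexp (-s) ^ l :=
    sum_congr rfl fun l _ => by rw [← exp_nat_mul]; congr 2; ring
  rw [e]
  refine this.trans (mul_le_mul_of_nonneg_right (Real.rpow_le_rpow_of_exponent_ge η0 η1 ?_)
    (by linarith))
  have c : (X : ℝ) ≤ 10 * E.card := by exact_mod_cast hc
  have c' : σ ≤ 10 * (E.card * φ) := by nlinarith
  rw [le_div_iff₀ (by positivity), mul_one_div, le_div_iff₀ (by positivity)]
  nlinarith [Real.pi_lt_d2]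

end grid

end Vale.Agent.P321D
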