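import Vale.Agent.P321D.Top
import Vale.Agent.P321D.Tc

/-!
# P321 decoder: reading the bit
-/

namespace Vale.Agent.P321D.Top

open Complex Finset

theorem norm_wgt0 (T : ℕ) (as : List ℤ) (e l : ℤ) : ‖wgt T as 0 e l‖ ≤ 1 := by
  rw [wgt, norm_mul, norm_wv, Complex.norm_real, Real.norm_of_nonneg (Gw_nonneg T as l)]
  simpa using Gw_le T as l

theorem sfx_succ {x : List Bool} {i : ℕ} (h0 : 1 ≤ i) (h : i ≤ x.length) :
    ∃ c, sfx x i = c :: sfx x (i - 1) :=
  ⟨x[x.length - i], by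
    rw [sfx, sfx, List.drop_eq_getElem_cons (by omega), show x.length - i + 1 = x.length - (i - 1) by
      omega]⟩

theorem rowG_eq (P T : ℕ) (as : List ℤ) (m e : ℤ) (W n : ℕ) (y : List Bool) :
    rowG P T as m e W n y =
      (rng P (min W (n - (y.length + 1)) + 1)).map fun l : ℕ => wgtG P T as m e (l : ℤ) := by
  rw [rowG]
  generalize rng P _ = l
  induction l with
  | nil => rfl
  | cons a l ih => exact congrArg (_ :: ·) ih

/-- **BASE.** -/
theorem base_ok (hW : WIN) : BASE := by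
  intro P n a b m π x i1 V h hP hx i0 i2 hV H
  have R := h.room hP
  have hJ := h.J_pos
  have l1 : (sfx x (i1 - 1)).length + 1 = i1 := by rw [sfx_len (by omega)]; omega
  obtain ⟨L, hL⟩ : ∃ L, L = min (π.W 0) (n - i1) := ⟨_, rfl⟩
  have Ln : L + 1 ≤ n := by omega
  obtain ⟨s, hs⟩ : ∃ s, s = Nat.size n := ⟨_, rfl⟩
  have ns : n < 2 ^ s := hs ▸ Nat.lt_size_self n
  have D0 : 4096 * (s + 1) ≤ π.D 0 := hs ▸ h.D_ge' (Nat.zero_le _)
  have D1 : π.D 1 = 2 ^ 40 * π.D 0 := h.D_succ 0 hJ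
  have D2 : π.D 1 ≤ π.D π.J := h.D_mono hJ le_rfl
  obtain ⟨X, hX⟩ := h.X_even
  have X1 : 1 ≤ X := by have := h.X_pos 0 hJ; omega
  have uX : π.u 0 * X = 4 * (π.N 0 * π.a 0) := by
    have := h.uX 0 hJ
    rw [hX] at this
    linarith
  have Na := h.Na_le hJ
  have q0 : qs0 P π = (List.range (X + 1)).map fun x => (tau0, ((π.u 0 * x : ℕ) : ℤ)) := by
    rw [qs0, hX, Nat.mul_div_cancel_left _ two_pos, rng_eq (by have := h.X_lt_P hP hJ; omega)]
  have pT : ∀ e : ℤ, e.natAbs ≤ π.1 → ∀ l ≤ L, (e * (l : ℕ)).natAbs ≤ P := fun e he l hl => by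
    rw [Int.natAbs_mul, Int.natAbs_natCast]
    exact (Nat.mul_le_mul he (by omega)).trans R.Tn_le
  have row : ∀ e : ℤ, e.natAbs ≤ π.1 →
      (rowG P π.1 (angs P π 0) 0 e (π.W 0) n (sfx x (i1 - 1))).length = L + 1 ∧ ∀ l ∈ range (L + 1),
      G.val ((rowG P π.1 (angs P π 0) 0 e (π.W 0) n (sfx x (i1 - 1))).getD l (G.int 0)) =
        wgt π.1 (angs P π 0) 0 e l := fun e he => by
    rw [rowG_eq, l1, ← hL, rng_eq (by have := R.n_le; omega)]
    refine ⟨by simp, fun l hl => ?_⟩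
    have hl' := Nat.lt_succ_iff.1 (mem_range.1 hl)
    rw [← ent, ent_map_range _ (mem_range.1 hl)]
    exact hW.1 _ _ _ _ _ _ h.T_two (fun c hc => pT c (h.angs_mem hP (Nat.zero_le _) c hc) l hl')
      (by simp) (pT e he l hl')
  have qm : ∀ c ∈ qs0 P π, c.1 = tau0 ∧ c.2.natAbs ≤ π.1 := fun c hc => by
    obtain ⟨y, hy, rfl⟩ := List.mem_map.1 (q0 ▸ hc)
    have := Nat.mul_le_mul_left (π.u 0) (Nat.lt_succ_iff.1 (List.mem_range.1 hy))
    exact ⟨rfl, by simp only [Int.natAbs_natCast]; omega⟩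
  obtain ⟨f, hf⟩ : ∃ f : ℕ → ℂ, ∀ l, f l = sev π.1 tau0 (sfx x (i1 + l)) := ⟨_, fun _ => rfl⟩
  have nR : (n : ℝ) ≤ 2 ^ s := by exact_mod_cast ns.le
  have n1 : (1 : ℝ) ≤ n := by exact_mod_cast i0.trans i2
  have LR : ((L + 1 : ℕ) : ℝ) ≤ n := by exact_mod_cast Ln
  have f2 : ∑ l ∈ range (L + 1), ‖f l‖ ^ 2 ≤ n ^ 3 := by
    refine (sum_le_card_nsmul _ _ ((n : ℝ) ^ 2) fun l _ => ?_).trans ?_
    · rw [hf, sev_tau0, Complex.norm_natCast]
      have : (List.filter (fun c => c) (sfx x (i1 + l))).length ≤ n :=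
        (List.length_filter_le _ _).trans (by simp only [sfx, List.length_drop]; omega)
      gcongr
    · rw [card_range, nsmul_eq_mul, pow_succ' _ 2]
      gcongr
  have n3 : (n : ℝ) ^ 3 ≤ 2 ^ (3 * s) := by
    rw [mul_comm, pow_mul]
    gcongr
  have n4 : (n : ℝ) ≤ n ^ 3 := le_self_pow₀ n1 (by norm_num)
  have n5 : (2 : ℝ) ^ (3 * s) ≤ 4 ^ (2 * π.D 0) :=
    (pow_le_pow_right₀ one_le_two (by omega)).trans (pow_le_pow_left₀ (by norm_num) (by norm_num) _)
  have c1 : (L + 1) * (40 * (π.D 1 + 2 * π.D 0 + 10)) ≤ P := by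
    have k1 : π.D π.J < 2 ^ π.D π.J := Nat.lt_two_pow_self
    have k2 : 2 ^ 7 ≤ 2 ^ π.D π.J := Nat.pow_le_pow_right two_pos (by omega)
    refine le_trans ?_ (R.pow_le (k := π.D π.J + (π.D π.J + π.D π.J)) (by omega))
    rw [pow_add, pow_add]
    refine Nat.mul_le_mul (by have := R.n_lt; omega) (le_trans ?_ (Nat.mul_le_mul k2 k1.le))
    omega
  obtain ⟨-, k2, k3⟩ := kacz_ok P (π.D 0) (2 * π.D 0) (π.D 1) (L + 1) s
    (((qs0 P π).zip V).map fun e =>
      (rowG P π.1 (angs P π 0) 0 e.1.2 (π.W 0) n (sfx x (i1 - 1)), e.2)) f (by omega) (by omega)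
    (R.pow_le (by omega)) c1 (by linarith) fun e he => by
      obtain ⟨d, hd, rfl⟩ := List.mem_map.1 he
      obtain ⟨d1, d2⟩ := qm d.1 (List.of_mem_zip hd).1
      obtain ⟨r1, r2⟩ := row d.1.2 d2
      refine ⟨r1, ?_, ?_⟩
      · refine (sum_le_card_nsmul _ _ 1 fun l hl => ?_).trans ?_
        · rw [r2 l hl]
          exact pow_le_one₀ (norm_nonneg _) (norm_wgt0 _ _ _ _)
        · rw [card_range, nsmul_eq_mul]
          linarith
      · have k := H d hd
        rw [TT, Tf, hx, ← hL, h.r_zero, d1, norm_sub_rev] at k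
        rw [sum_congr rfl fun l hl => by rw [r2 l hl, hf, mul_comm]]
        simpa using k
  rw [bitOf, l1, ← hL]
  generalize kacz P (π.D 0) (2 * π.D 0) (π.D 1) (L + 1) _ = F at k2 k3 ⊢
  have T0 : (0 : ℝ) < π.1 := by exact_mod_cast (by have := h.T_two; omega : 0 < π.1)
  have a1 := ang_le π.1
  have a2 := le_ang (T := π.1) (by have := h.T_two; omega)
  have u0 : (0 : ℝ) < π.u 0 := by exact_mod_cast h.u_pos hJ
  have uX' : (X : ℝ) * (π.u 0 * ang π.1) = 4 * (π.N 0 * π.a 0) * ang π.1 := by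
    rw [← mul_assoc, mul_comm (X : ℝ)]
    exact_mod_cast congrArg (fun k : ℕ => (k : ℝ) * ang π.1) uX
  have key := base (a := fun l => Gw π.1 (angs P π 0) l * (f l - ent F l)) (M := 2 ^ (3 * s))
    (η := 4 * (1 / 2) ^ π.D 0) (η' := (1 / 2) ^ (π.D 0 - 3)) (φ := π.u 0 * ang π.1) (L' := L)
    (X := X) (E := range (X + 1)) ?_ (one_le_pow₀ one_le_two)
    (mul_pos u0 (lt_of_lt_of_le (by positivity) a2)) X1 ?_
    (fun y hy => Nat.lt_succ_iff.1 (mem_range.1 hy)) (fun y hy => ?_) (by positivity) ?_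
    (pow_le_one₀ (by norm_num) (by norm_num)) rfl
  · have e1 : ((1 / 2 : ℝ) ^ (π.D 0 - 3)) ^ (X * (π.u 0 * ang π.1) / 7) ≤ (1 / 2) ^ (3 * s + 2) := by
      rw [← Real.rpow_natCast, ← Real.rpow_natCast, ← Real.rpow_mul (by norm_num)]
      refine Real.rpow_le_rpow_of_exponent_ge (by norm_num) (by norm_num) ?_
      have b1 : (112 * π.W 0 * (3 * s + 2 : ℕ) : ℝ) ≤ (π.D 0 - 3 : ℕ) * π.N 0 := by
        exact_mod_cast hs ▸ h.base
      have b2 : (64 * π.a 0 * π.W 0 : ℝ) = π.1 := by exact_mod_cast h.aW 0 hJ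
      have b3 := (div_le_iff₀ T0).1 a2
      have b0 : 0 ≤ ang π.1 := le_trans (by positivity) a2
      have b4 := (show ((3 * s + 2 : ℕ) : ℝ) * (ang π.1 * π.1) = _ by rw [← b2]; ring).trans_le
        (mul_le_mul_of_nonneg_left b1 (by positivity : 0 ≤ 4 * π.a 0 * ang π.1 / 7))
      rw [uX']
      linarith [le_mul_of_one_le_right (Nat.cast_nonneg (α := ℝ) (3 * s + 2)) b3]
    have e2 : ‖f 0 - ent F 0‖ ≤ 1 / 4 := by
      simp only [Nat.cast_zero, Gw_zero, ofReal_one, one_mul] at key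
      refine key.trans ((mul_le_mul_of_nonneg_right e1 (by positivity)).trans_eq ?_)
      rw [pow_add, mul_right_comm, ← mul_pow]
      norm_num
    obtain ⟨c, hc⟩ := sfx_succ i0 (hx ▸ i2)
    rw [hf, add_zero, sev_tau0, hc] at e2
    rw [hc]
    congr 1
    have v1 : ‖G.val (G.frac 1 2)‖ = 1 / 2 := by simp [G.val_frac]
    cases c
    · rw [G.nle_false_iff, v1, G.val_sub, ent_headD, G.val_int, norm_sub_rev]
      exact lt_of_le_of_lt (by simpa using e2) (by norm_num : (1 / 4 : ℝ) < 1 / 2)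
    · rw [G.nle_iff, v1, G.val_sub, ent_headD, G.val_int]
      have := norm_sub_norm_le (1 : ℂ) (ent F 0 - (List.filter (fun c => c) (sfx x (i1 - 1))).length)
      rw [norm_one, sub_sub_eq_add_sub, add_comm] at this
      simp only [List.filter_cons_of_pos, List.length_cons, Nat.cast_add, Nat.cast_one] at e2
      push_cast
      linarith
  · refine (sum_le_sum (g := fun l => 1 / 2 + ‖ent F l - f l‖ ^ 2 / 2) fun l _ => ?_).trans ?_
    · rw [norm_mul, Complex.norm_real, Real.norm_of_nonneg (Gw_nonneg _ _ _), norm_sub_rev]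
      refine (mul_le_of_le_one_left (norm_nonneg _) (Gw_le _ _ _)).trans ?_
      linarith [sq_nonneg (‖ent F l - f l‖ - 1)]
    · rw [sum_add_distrib, ← sum_div, ← sum_div, sum_const, card_range, nsmul_eq_mul, mul_one]
      have : ∑ l ∈ range (L + 1), ‖ent F l - f l‖ ^ 2 ≤ n ^ 3 := k2.trans f2
      linarith
  · have b1 : (64 * (π.N 0 * π.a 0) : ℝ) ≤ π.1 := by exact_mod_cast Na
    have b2 := (le_div_iff₀ T0).1 a1
    have b3 := mul_le_mul_of_nonneg_right b1 (le_trans (by positivity) a2)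
    rw [uX']
    linarith
  · obtain ⟨d, hd, e⟩ := List.mem_map.1 ((List.map_fst_zip hV.ge).symm ▸ q0.symm ▸
      List.mem_map_of_mem (List.mem_range.2 (mem_range.1 hy)) :
        (tau0, ((π.u 0 * y : ℕ) : ℤ)) ∈ ((qs0 P π).zip V).map Prod.fst)
    refine le_of_eq_of_le ?_ (k3 _ (List.mem_map_of_mem hd))
    refine congrArg _ (sum_congr rfl fun l hl => ?_)
    rw [(row d.1.2 (qm d.1 (List.of_mem_zip hd).1).2).2 l hl, e, wgt, wv, ent]
    push_cast
    ring_nf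
  · have b1 : (π.u 0 : ℝ) * 2 ^ (2 ^ 37 * π.D 0) = π.1 := by exact_mod_cast h.uT 0 hJ
    have b2 := (le_div_iff₀ T0).1 a1
    have b3 : (L : ℝ) ≤ 2 ^ s := by push_cast at LR; linarith
    have b4 : (2 : ℝ) ^ π.D 0 * (2 ^ s * 2 ^ (3 * s)) ≤ 2 ^ (2 ^ 37 * π.D 0) := by
      rw [← pow_add, ← pow_add]
      exact pow_le_pow_right₀ one_le_two (by omega)
    have b0 : 0 ≤ π.u 0 * ang π.1 := mul_nonneg u0.le (le_trans (by positivity) a2)
    have b5 := mul_le_mul_of_nonneg_left b4 b0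
    have b6 : π.u 0 * ang π.1 * L * 2 ^ (3 * s) ≤ π.u 0 * ang π.1 * 2 ^ s * 2 ^ (3 * s) := by gcongr
    have b7 : (1 / 2 : ℝ) ^ (π.D 0 - 3) = 8 * (1 / 2) ^ π.D 0 := by
      rw [show π.D 0 = π.D 0 - 3 + 3 by omega, pow_add]
      simp only [Nat.add_sub_cancel]
      ring
    have b8 : π.u 0 * ang π.1 * 2 ^ s * 2 ^ (3 * s) ≤ 4 * (1 / 2) ^ π.D 0 := by
      rw [one_div, inv_pow, ← div_eq_mul_inv, le_div_iff₀ (by positivity)]
      rw [← b1] at b2
      linarith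
    linarith

end Vale.Agent.P321D.Top
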