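import Vale.Agent.P321D.Comb

/-!
# P321 decoder: products of symbolic tests
-/

namespace Vale.Agent.P321D

namespace Ch

open Complex Finset Vale.Agent.Lib.PolyTime Vale.Agent.P315.H155 Vale.Agent.P321.H778

/-- The nodes `Z` put in front of `τ`. -/
noncomputable def pre : List Node → (List Bool → ℂ) → List Bool → ℂ
  | [], τ => τ
  | v :: Z, τ => nd v.1 v.2 (pre Z τ)

theorem pre_lin (Z : List Node) (a : ℂ) (τ σ : List Bool → ℂ) :
    pre Z (fun u => a * τ u + σ u) = fun y => a * pre Z τ y + pre Z σ y := by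
  induction Z with
  | nil => rfl
  | cons v Z ih =>
    funext y
    rw [pre, ih, nd_lin]
    rfl

theorem pre_snoc (Z : List Node) (v : Node) (τ : List Bool → ℂ) :
    pre (Z ++ [v]) τ = pre Z (nd v.1 v.2 τ) := by
  induction Z with
  | nil => rfl
  | cons w Z ih => rw [List.cons_append, pre, ih, pre]

theorem O_append (Z W : List Node) : O (Z ++ W) = pre Z (O W) := by
  induction Z with
  | nil => rfl
  | cons w Z ih => rw [List.cons_append, O, ih, pre]

/-- The value of a partial product. -/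
noncomputable def ve (T : ℕ) (y : List Bool) (e : Ent) : ℂ :=
  wv T e.1 * pre (nC T e.2.1) (fun u => O (nC T e.2.2.1) u * O (nC T e.2.2.2) u) y

theorem expand_nil (c : Wt) (d r : List SNode) : expand (c, d, [], r) = [(c, d, [], r)] := rfl

theorem expand_nil' (c : Wt) (d r : List SNode) : expand (c, d, r, []) = [(c, d, r, [])] := by
  simp [expand]

theorem expand_cons (c : Wt) (d r r' : List SNode) (v v' : SNode) :
    expand (c, d, v :: r, v' :: r') =
      [(wadd c v.1, d ++ [(wadd v.1 v'.1, v'.2)], v :: r, r'),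
        (wadd c v'.1, d ++ [(wadd v.1 v'.1, v.2)], r, v' :: r'),
        (c, d ++ [(wadd v.1 v'.1, v.2 || v'.2)], r, r')] := rfl

theorem nC_append (T : ℕ) (Z W : List SNode) : nC T (Z ++ W) = nC T Z ++ nC T W :=
  List.map_append

theorem ve_expand (T : ℕ) (y : List Bool) (e : Ent) :
    ((expand e).map (ve T y)).sum = ve T y e := by
  obtain ⟨c, d, _ | ⟨v, r⟩, _ | ⟨v', r'⟩⟩ := e
  · simp [expand_nil]
  · simp [expand_nil]
  · simp [expand_nil']
  · have h : (fun u => O (nC T (v :: r)) u * O (nC T (v' :: r')) u) = fun u =>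
        wv T v.1 * nd (wv T v.1 * wv T v'.1) v'.2
          (fun u => O (nC T (v :: r)) u * O (nC T r') u) u +
        (wv T v'.1 * nd (wv T v.1 * wv T v'.1) v.2
          (fun u => O (nC T r) u * O (nC T (v' :: r')) u) u +
        nd (wv T v.1 * wv T v'.1) (v.2 || v'.2) (fun u => O (nC T r) u * O (nC T r') u) u) :=
      funext fun u => nd_mul _ _ _ _ _ _ u
    have e1 : ∀ (w : Wt) (b : Bool) (τ : List Bool → ℂ),
        pre (nC T (d ++ [(w, b)])) τ = pre (nC T d) (nd (wv T w) b τ) := fun w b τ => by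
      rw [nC_append]
      exact pre_snoc _ _ _
    rw [expand_cons]
    simp only [List.map_cons, List.map_nil, List.sum_cons, List.sum_nil, ve, e1, wv_wadd]
    rw [h, pre_lin, pre_lin]
    ring

theorem ve_step (T : ℕ) (y : List Bool) (S : List Ent) :
    ((S.flatMap expand).map (ve T y)).sum = (S.map (ve T y)).sum := by
  induction S with
  | nil => rfl
  | cons e S ih =>
    rw [List.flatMap_cons, List.map_append, List.sum_append, ih, ve_expand, List.map_cons,
      List.sum_cons]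

theorem len_step (S : List Ent) : (S.flatMap expand).length ≤ 3 * S.length := by
  induction S with
  | nil => exact le_rfl
  | cons e S ih =>
    have : (expand e).length ≤ 3 := by
      unfold expand
      split_ifs <;> simp
    rw [List.flatMap_cons, List.length_append, List.length_cons]
    omega

/-- The invariant of partial products after `t` steps. -/
def EI (T c1 c2 mm s K u t : ℕ) (e : Ent) : Prop :=
  CI T (u + t * s) e.1 ∧ (∀ v ∈ e.2.1, NI T c1 c2 mm (s + s) v.1) ∧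
    (∀ v ∈ e.2.2.1, NI T c1 c2 mm s v.1) ∧ (∀ v ∈ e.2.2.2, NI T c1 c2 mm s v.1) ∧
    e.2.1.length + e.2.2.1.length + e.2.2.2.length ≤ K ∧
    (e.2.2.1 = [] ∨ e.2.2.2 = [] ∨ e.2.2.1.length + e.2.2.2.length + t ≤ K)

variable {P T c1 c2 mm s k K u t len : ℕ}

theorem EI.expand {e : Ent} (h : EI T c1 c2 mm s K u t e) (hm : mm ≤ T) :
    ∀ e' ∈ expand e, EI T c1 c2 mm s K u (t + 1) e' := by
  have hu : u + t * s ≤ u + (t + 1) * s := by rw [add_mul]; omega
  have hu' : u + t * s + s = u + (t + 1) * s := by ring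
  obtain ⟨c, d, _ | ⟨v, r⟩, _ | ⟨v', r'⟩⟩ := e <;> obtain ⟨h1, h2, h3, h4, h5, h6⟩ := h <;>
    intro e' he
  · obtain rfl := List.mem_singleton.1 he
    exact ⟨h1.mono hu, h2, h3, h4, h5, Or.inl rfl⟩
  · obtain rfl := List.mem_singleton.1 he
    exact ⟨h1.mono hu, h2, h3, h4, h5, Or.inl rfl⟩
  · obtain rfl := List.mem_singleton.1 he
    exact ⟨h1.mono hu, h2, h3, h4, h5, Or.inr (Or.inl rfl)⟩
  · have hv := h3 v List.mem_cons_self
    have hv' := h4 v' List.mem_cons_self
    have hr : ∀ w ∈ r, NI T c1 c2 mm s w.1 := fun w hw => h3 w (List.mem_cons_of_mem _ hw)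
    have hr' : ∀ w ∈ r', NI T c1 c2 mm s w.1 := fun w hw => h4 w (List.mem_cons_of_mem _ hw)
    have hd : ∀ b : Bool, ∀ w ∈ d ++ [(wadd v.1 v'.1, b)], NI T c1 c2 mm (s + s) w.1 :=
      fun b w hw => (List.mem_append.1 hw).elim (h2 w) fun hw => by
        obtain rfl := List.mem_singleton.1 hw
        exact hv.wadd hv'
    simp only [List.length_cons, reduceCtorEq, false_or] at h5 h6
    rw [expand_cons] at he
    simp only [List.mem_cons, List.not_mem_nil, or_false] at he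
    rcases he with rfl | rfl | rfl
    · exact ⟨hu' ▸ h1.wadd (hv.ci hm), hd _, h3, hr', by simp; omega, by simp; omega⟩
    · exact ⟨hu' ▸ h1.wadd (hv'.ci hm), hd _, hr, h4, by simp; omega, by simp; omega⟩
    · exact ⟨h1.mono hu, hd _, hr, hr', by simp; omega, by simp; omega⟩

theorem EI.esize_le {e : Ent} (h : EI T c1 c2 mm s K u t e) (hm : mm ≤ T) {X : ℕ}
    (h1 : u + t * s ≤ X) (h2 : s + s ≤ X) :
    esize e ≤ (K + 1) * (24 * Nat.size (X * T) + 90) := by
  obtain ⟨c, d, r, r'⟩ := e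
  obtain ⟨g1, g2, g3, g4, g5, -⟩ := h
  have a1 := (g1.mono h1).esize_le
  have a2 := esize_nodes fun v hv => ((g2 v hv).ci hm).mono h2
  have a3 := esize_nodes fun v hv => ((g3 v hv).ci hm).mono ((Nat.le_add_left s s).trans h2)
  have a4 := esize_nodes fun v hv => ((g4 v hv).ci hm).mono ((Nat.le_add_left s s).trans h2)
  have a5 := Nat.mul_le_mul_right (12 * Nat.size (X * T) + 45) g5
  rw [esize_pair c, esize_pair d, esize_pair r]
  simp only [add_mul] at a5
  dsimp only at a1 a2 a3 a4 a5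
  nlinarith

theorem iter_spec (hm : mm ≤ T) {e : Ent} (h : EI T c1 c2 mm s K u 0 e) (t : ℕ) :
    ((fun S : List Ent => S.flatMap expand)^[t] [e]).length ≤ 3 ^ t ∧
    (∀ e' ∈ (fun S : List Ent => S.flatMap expand)^[t] [e], EI T c1 c2 mm s K u t e') ∧
    ∀ y, (((fun S : List Ent => S.flatMap expand)^[t] [e]).map (ve T y)).sum = ve T y e := by
  induction t with
  | zero => exact ⟨le_rfl, by simpa using h, by simp⟩
  | succ t ih =>
    obtain ⟨i1, i2, i3⟩ := ih
    rw [Function.iterate_succ_apply']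
    refine ⟨(len_step _).trans (by rw [pow_succ']; omega), fun e' he => ?_,
      fun y => (ve_step _ _ _).trans (i3 y)⟩
    obtain ⟨e'', h1, h2⟩ := List.mem_flatMap.1 he
    exact (i2 e'' h1).expand hm e' h2

/-- There is room for products. -/
def Rm (P T s k u : ℕ) : Prop :=
  3 ^ (2 * k) * (2 * ((2 * k + 1) * (24 * Nat.size ((2 * u + 2 * k * s + 2 * s) * T) + 90)) + 1) ≤ P

theorem mulMon_spec (hm : mm ≤ T) (hP : Rm P T s k u) {a a' : SMon}
    (h : a.2.length ≤ k ∧ CI T u a.1 ∧ ∀ v ∈ a.2, NI T c1 c2 mm s v.1)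
    (h' : a'.2.length ≤ k ∧ CI T u a'.1 ∧ ∀ v ∈ a'.2, NI T c1 c2 mm s v.1) :
    Inv T c1 c2 mm (2 * s) (2 * k) (2 * u + 2 * k * s) (3 ^ (2 * k)) (mulMon P a a') ∧
    ∀ y, sev T (mulMon P a a') y =
      wv T a.1 * O (nC T a.2) y * (wv T a'.1 * O (nC T a'.2) y) := by
  have hK : a.2.length + a'.2.length ≤ 2 * k := by omega
  have h0 : EI T c1 c2 mm s (a.2.length + a'.2.length) (u + u) 0 (wadd a.1 a'.1, [], a.2, a'.2) :=
    ⟨by simpa using h.2.1.wadd h'.2.1, by simp, h.2.2, h'.2.2, by simp, by simp⟩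
  have hs := iter_spec hm h0
  have hu : ∀ t ≤ a.2.length + a'.2.length, u + u + t * s ≤ 2 * u + 2 * k * s := fun t ht => by
    have := Nat.mul_le_mul_right s (ht.trans hK)
    omega
  unfold mulMon
  rw [iterC_eq fun j hj => ?_]
  · obtain ⟨i1, i2, i3⟩ := hs (a.2.length + a'.2.length)
    refine ⟨inv_iff.2 ⟨?_, fun c hc => ?_⟩, fun y => ?_⟩
    · rw [List.length_map]
      exact i1.trans (Nat.pow_le_pow_right (by norm_num) hK)
    · obtain ⟨e, he, rfl⟩ := List.mem_map.1 hc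
      obtain ⟨g1, g2, g3, g4, g5, -⟩ := i2 e he
      refine ⟨by simp only [List.length_append]; omega, g1.mono (hu _ le_rfl), fun v hv => ?_⟩
      rcases List.mem_append.1 hv with hv | hv
      · exact (g2 v hv).mono (by omega)
      · exact ((List.mem_append.1 hv).elim (g3 v) (g4 v)).mono (by omega)
    · rw [sev_eq_sum, List.map_map]
      refine Eq.trans (congrArg List.sum (List.map_congr_left fun e he => ?_)) ((i3 y).trans ?_)
      · obtain ⟨c, d, r, r'⟩ := e
        obtain ⟨-, -, -, -, -, g6⟩ := i2 _ he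
        have g7 : r = [] ∨ r' = [] := by
          rcases g6 with g | g | g
          · exact Or.inl g
          · exact Or.inr g
          · exact Or.inl (List.eq_nil_of_length_eq_zero (by dsimp only at g; omega))
        change wv T c * O (nC T (d ++ (r ++ r'))) y = wv T c * pre (nC T d) _ y
        rw [nC_append, O_append]
        rcases g7 with rfl | rfl <;> simp [nC, O]
      · change wv T (wadd a.1 a'.1) * (O (nC T a.2) y * O (nC T a'.2) y) = _
        rw [wv_wadd]
        ring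
  · obtain ⟨i1, i2, -⟩ := hs (j + 1)
    refine (esize_list_le fun e he => (i2 e he).esize_le hm
      (X := 2 * u + 2 * k * s + 2 * s) ((hu _ hj).trans (by omega)) (by omega)).trans
      (le_trans (Nat.mul_le_mul (i1.trans (Nat.pow_le_pow_right (by norm_num) (by omega))) ?_) hP)
    gcongr

theorem len_flatMap {α β : Type} {l : List α} {f : α → List β} {B : ℕ}
    (h : ∀ a ∈ l, (f a).length ≤ B) : (l.flatMap f).length ≤ l.length * B := by
  induction l with
  | nil => simp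
  | cons a l ih =>
    have := ih fun c hc => h c (List.mem_cons_of_mem _ hc)
    have := h a List.mem_cons_self
    rw [List.flatMap_cons, List.length_append, List.length_cons, add_mul]
    omega

theorem sev_flatMap {α : Type} (T : ℕ) (l : List α) (f : α → SC) (y : List Bool) :
    sev T (l.flatMap f) y = (l.map fun a => sev T (f a) y).sum := by
  induction l with
  | nil => rfl
  | cons a l ih => rw [List.flatMap_cons, sev_append, ih, List.map_cons, List.sum_cons]

theorem mulC_spec (hm : mm ≤ T) (hP : Rm P T s k u) {L L' : SC}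
    (h : Inv T c1 c2 mm s k u len L) (h' : Inv T c1 c2 mm s k u len L') :
    Inv T c1 c2 mm (2 * s) (2 * k) (2 * u + 2 * k * s) (len * (len * 3 ^ (2 * k))) (mulC P L L') ∧
    ∀ y, sev T (mulC P L L') y = sev T L y * sev T L' y := by
  rw [inv_iff] at h h'
  have key := fun a ha a' ha' => mulMon_spec hm hP (h.2 a ha) (h'.2 a' ha')
  refine ⟨⟨(len_flatMap fun a ha => len_flatMap fun a' ha' => (key a ha a' ha').1.1).trans ?_,
    fun c hc => ?_⟩, fun y => ?_⟩
  · exact Nat.mul_le_mul h.1 (Nat.mul_le_mul_right _ h'.1)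
  · obtain ⟨a, ha, hc⟩ := List.mem_flatMap.1 hc
    obtain ⟨a', ha', hc⟩ := List.mem_flatMap.1 hc
    exact (key a ha a' ha').1.2 c hc
  · rw [mulC, sev_flatMap, sev_eq_sum T L, ← List.sum_map_mul_right]
    refine congrArg List.sum (List.map_congr_left fun a ha => ?_)
    rw [sev_flatMap, sev_eq_sum T L', ← List.sum_map_mul_left]
    exact congrArg List.sum (List.map_congr_left fun a' ha' => (key a ha a' ha').2 y)

theorem rm_of {n b Dm J : ℕ} (h : Room P T n b Dm J) (hk : k ≤ Dm)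
    (hu : 2 * u + 2 * k * s + 2 * s ≤ Dm) : Rm P T s k u := by
  have h1 : 256 ≤ Dm := by
    have := h.2.2.1
    have h2 : 1 ≤ 16 ^ J := Nat.one_le_pow _ _ (by norm_num)
    rw [pow_add] at this
    nlinarith
  have h2 : Nat.size ((2 * u + 2 * k * s + 2 * s) * T) ≤ 2 * Dm := by
    rw [Nat.size_le, two_mul Dm, pow_add]
    exact mul_lt_mul' h.2.1 (hu.trans_lt Nat.lt_two_pow_self) (Nat.zero_le _) (by positivity)
      |> fun e => by rwa [mul_comm T] at e
  have h3 : 3 ^ (2 * k) ≤ 2 ^ (4 * k) := by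
    rw [show 4 * k = 2 * (2 * k) by ring, pow_mul 2 2]
    exact Nat.pow_le_pow_left (by norm_num) _
  have h4 : 2 * k + 1 ≤ 2 ^ (2 * k) := Nat.lt_two_pow_self
  have h5 : Dm < 2 ^ Dm := Nat.lt_two_pow_self
  refine le_trans ?_ (h.pow_le (k := 4 * k + (2 * k + (7 + Dm))) (by omega))
  rw [pow_add, pow_add, pow_add]
  refine Nat.mul_le_mul h3 (le_trans ?_ (Nat.mul_le_mul_right _ h4))
  nlinarith

theorem mul4_spec {n b Dm J j : ℕ} (hR : Room P T n b Dm J) (hj : j < J) (hm : mm ≤ T)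
    {A B C D : SC}
    (hA : Inv T c1 c2 mm (4 ^ j) (3 * 4 ^ j - 2 + 1) (16 ^ (j + 1) + 1) len A)
    (hB : Inv T c1 c2 mm (4 ^ j) (3 * 4 ^ j - 2 + 1) (16 ^ (j + 1) + 1) len B)
    (hC : Inv T c1 c2 mm (4 ^ j) (3 * 4 ^ j - 2 + 1) (16 ^ (j + 1) + 1) len C)
    (hD : Inv T c1 c2 mm (4 ^ j) (3 * 4 ^ j - 2 + 1) (16 ^ (j + 1) + 1) len D) :
    Inv T c1 c2 mm (4 ^ (j + 1)) (3 * 4 ^ (j + 1) - 2) (16 ^ (j + 1 + 1))
      (len ^ 4 * 2 ^ (48 * 16 ^ j)) (mul4 P A B C D) ∧
    ∀ y, sev T (mul4 P A B C D) y = sev T A y * sev T B y * sev T C y * sev T D y := by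
  have h1 : 1 ≤ 4 ^ j := Nat.one_le_pow _ _ (by norm_num)
  have h2 : 16 ^ j = 4 ^ j * 4 ^ j := by rw [← mul_pow]; norm_num
  have h3 : 4096 * 16 ^ j ≤ Dm := by
    have := hR.2.2.1
    have h4 : 16 ^ (j + 3) ≤ 16 ^ (J + 2) := Nat.pow_le_pow_right (by norm_num) (by omega)
    rw [pow_add] at h4
    nlinarith
  obtain ⟨K, hK⟩ : ∃ K, K + 1 = 3 * 4 ^ j := ⟨3 * 4 ^ j - 1, by omega⟩
  rw [show 3 * 4 ^ j - 2 + 1 = K by omega] at hA hB hC hD
  rw [pow_succ 16 j] at hA hB hC hD
  rw [pow_succ 4 j, pow_succ 16 (j + 1), pow_succ 16 j]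
  generalize 4 ^ j = s at *
  generalize 16 ^ j = w at *
  have h4 : s ≤ w := by nlinarith
  have h5 : K * s ≤ 3 * w := by nlinarith
  have r1 : Rm P T s K (w * 16 + 1) := rm_of hR (by omega) (by rw [mul_assoc 2 K]; omega)
  have r2 : Rm P T (2 * s) (2 * K) (2 * (w * 16 + 1) + 2 * K * s) :=
    rm_of hR (by omega) (by nlinarith)
  obtain ⟨i1, i2⟩ := mulC_spec hm r1 hA hB
  obtain ⟨i3, i4⟩ := mulC_spec hm r1 hC hD
  obtain ⟨i5, i6⟩ := mulC_spec hm r2 i1 i3
  refine ⟨i5.mono (by omega) (by omega) (by nlinarith) ?_, fun y => ?_⟩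
  · have h6 : 3 ^ (8 * K) ≤ 2 ^ (48 * w) :=
      (Nat.pow_le_pow_left (by norm_num : 3 ≤ 2 ^ 2) _).trans
        (by rw [← pow_mul]; exact Nat.pow_le_pow_right (by norm_num) (by omega))
    refine le_trans (le_of_eq ?_) (Nat.mul_le_mul_left _ h6)
    ring
  · rw [mul4, i6, i2, i4]
    ring

end Ch

open Ch in
theorem child_ok : CHILD := by
  intro P T n b Dm J c1 c2 mm j r p a a' a'' hR hj hm ⟨p1, p2, p3, p4⟩ ⟨a1, a2, _, _⟩
    ⟨_, b2, b3, _⟩ ⟨_, _, d3, d4⟩
  have h1 : 1 ≤ 4 ^ j := Nat.one_le_pow _ _ (by norm_num)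
  have l : 2 ^ 16 ^ (j + 1) ≤ 2 * 2 ^ 16 ^ (j + 1) := by omega
  have m0 := fun {L : SC} (h : CInv T c1 c2 mm j L) =>
    Inv.mono h le_rfl (Nat.le_succ _) (Nat.le_succ _) l
  have m1 := fun {L : SC} (h : CInv T c1 c2 mm j L) {z : Wt} (hz : Adm1 T c1 c2 mm z) =>
    (Inv.sM h hz hm h1).mono le_rfl le_rfl le_rfl l
  have m2 := fun {L : SC} (h : CInv T c1 c2 mm j L) {z : Wt} (hz : Adm1 T c1 c2 mm z) =>
    Inv.sP h hz hm h1
  obtain ⟨i1, j1⟩ := mul4_spec hR hj hm (m0 p1) (m1 p2 a2) (m1 p3 b3) (m1 p4 d4)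
  obtain ⟨i2, j2⟩ := mul4_spec hR hj hm (m2 p1 a1) (m0 p2) (m1 p3 b3) (m1 p4 d4)
  obtain ⟨i3, j3⟩ := mul4_spec hR hj hm (m2 p1 a1) (m2 p2 b2) (m0 p3) (m1 p4 d4)
  obtain ⟨i4, j4⟩ := mul4_spec hR hj hm (m2 p1 a1) (m2 p2 b2) (m2 p3 d3) (m0 p4)
  refine ⟨((i1.append i2).append (i3.append i4)).mono le_rfl le_rfl le_rfl ?_, fun y => ?_⟩
  · have h2 : 1 ≤ 16 ^ j := Nat.one_le_pow _ _ (by norm_num)
    refine le_trans (le_of_eq ?_) (Nat.pow_le_pow_right (n := 2) (by norm_num)
      (show 6 + 16 ^ (j + 1) * 4 + 48 * 16 ^ j ≤ _ by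
        rw [pow_succ 16 (j + 1), pow_succ 16 j]; omega))
    ring
  · simp only [child, sev_append, j1, j2, j3, j4]
    ring

end Vale.Agent.P321D
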