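import Vale.Agent.P321D.G

/-!
# P321 decoder: values, sizes and running time of the operations on Gaussian rationals
-/

namespace Vale.Agent.P321D

open Complex Vale.Agent.Lib.PolyTime Vale.Agent.P315.H155

namespace G

theorem den_ne (z : G) : ((z.2.2 : ℂ) + 1) ≠ 0 := Nat.cast_add_one_ne_zero _

theorem den_pos (z : G) : (0 : ℝ) < (z.2.2 : ℝ) + 1 := by positivity

@[simp] theorem val_int (k : ℤ) : val (int k) = k := by simp [val, int]

theorem val_frac (k : ℤ) {d : ℕ} (hd : 1 ≤ d) : val (frac k d) = k / d := by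
  simp [val, frac, Nat.cast_sub hd]

@[simp] theorem val_add (z w : G) : val (add z w) = val z + val w := by
  have h1 := den_ne z
  have h2 := den_ne w
  have h3 : ((z.2.2 : ℂ) * w.2.2 + z.2.2 + w.2.2 + 1) = (z.2.2 + 1) * (w.2.2 + 1) := by ring
  simp only [val, add]
  push_cast
  rw [h3]
  field_simp
  ring

@[simp] theorem val_mul (z w : G) : val (mul z w) = val z * val w := by
  have h1 := den_ne z
  have h2 := den_ne w
  have h3 : ((z.2.2 : ℂ) * w.2.2 + z.2.2 + w.2.2 + 1) = (z.2.2 + 1) * (w.2.2 + 1) := by ring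
  simp only [val, mul]
  push_cast
  rw [h3]
  field_simp
  linear_combination (-(z.2.1 : ℂ) * w.2.1) * I_mul_I

@[simp] theorem val_neg (z : G) : val (neg z) = -val z := by
  simp only [val, neg]
  push_cast
  ring

@[simp] theorem val_sub (z w : G) : val (sub z w) = val z - val w := by
  rw [sub, val_add, val_neg, sub_eq_add_neg]

@[simp] theorem val_conj (z : G) : val (conj z) = (starRingEnd ℂ) (val z) := by
  simp [val, conj]

theorem val_re (z : G) : (val z).re = z.1 / ((z.2.2 : ℝ) + 1) := by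
  have : ((z.2.2 : ℂ) + 1) = (((z.2.2 : ℝ) + 1 : ℝ) : ℂ) := by push_cast; rfl
  rw [val, this, div_ofReal_re]
  simp

theorem val_im (z : G) : (val z).im = z.2.1 / ((z.2.2 : ℝ) + 1) := by
  have : ((z.2.2 : ℂ) + 1) = (((z.2.2 : ℝ) + 1 : ℝ) : ℂ) := by push_cast; rfl
  rw [val, this, div_ofReal_im]
  simp

theorem normSq_val (z : G) :
    ‖val z‖ ^ 2 = ((z.1 * z.1 + z.2.1 * z.2.1 : ℤ) : ℝ) / ((z.2.2 : ℝ) + 1) ^ 2 := by
  have := den_pos z
  rw [← Complex.normSq_eq_norm_sq, normSq_apply, val_re, val_im]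
  push_cast
  field_simp

@[simp] theorem val_inv (z : G) : val (inv z) = (val z)⁻¹ := by
  have h1 := den_ne z
  have h0 : 0 ≤ z.1 * z.1 + z.2.1 * z.2.1 := add_nonneg (mul_self_nonneg _) (mul_self_nonneg _)
  rcases h0.eq_or_lt with h | h
  · have hx : z.1 = 0 := by nlinarith [mul_self_nonneg z.1, mul_self_nonneg z.2.1]
    have hy : z.2.1 = 0 := by nlinarith [mul_self_nonneg z.1, mul_self_nonneg z.2.1]
    simp [val, inv, hx, hy]
  · have e : ((((z.1 * z.1 + z.2.1 * z.2.1).toNat - 1 : ℕ) : ℂ) + 1)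
        = (z.1 : ℂ) * z.1 + (z.2.1 : ℂ) * z.2.1 := by
      have : (((z.1 * z.1 + z.2.1 * z.2.1).toNat - 1 : ℕ) : ℤ) + 1
          = z.1 * z.1 + z.2.1 * z.2.1 := by omega
      exact_mod_cast congrArg (fun t : ℤ => (t : ℂ)) this
    have hn : (z.1 : ℂ) * z.1 + (z.2.1 : ℂ) * z.2.1 ≠ 0 := by exact_mod_cast h.ne'
    refine eq_inv_of_mul_eq_one_left ?_
    simp only [val, inv]
    rw [e, div_mul_div_comm, div_eq_one_iff_eq (mul_ne_zero hn h1)]
    push_cast
    linear_combination (-((z.2.2 : ℂ) + 1) * (z.2.1 : ℂ) ^ 2) * I_mul_I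

@[simp] theorem val_div (z w : G) : val (div z w) = val z / val w := by
  rw [div, val_mul, val_inv, div_eq_mul_inv]

theorem nle_iff (z w : G) : nle z w = true ↔ ‖val z‖ ≤ ‖val w‖ := by
  have h1 := den_pos z
  have h2 := den_pos w
  rw [← sq_le_sq₀ (norm_nonneg _) (norm_nonneg _), normSq_val, normSq_val,
    div_le_div_iff₀ (by positivity) (by positivity), nle, decide_eq_true_iff,
    ← Int.cast_le (R := ℝ)]
  push_cast
  rw [sq, sq]

theorem nle_false_iff (z w : G) : nle z w = false ↔ ‖val w‖ < ‖val z‖ := by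
  rw [← not_le, ← nle_iff, Bool.not_eq_true]

theorem floor_err (x : ℤ) (d R : ℕ) (hR : 1 ≤ R) :
    |((x * (R : ℤ) / ((d : ℤ) + 1) : ℤ) : ℝ) / (((R - 1 : ℕ) : ℝ) + 1) - x / ((d : ℝ) + 1)|
      ≤ 1 / R := by
  have hR' : (0 : ℝ) < R := by exact_mod_cast hR
  have hd : (0 : ℝ) < (d : ℝ) + 1 := by positivity
  have e : (((R - 1 : ℕ) : ℝ) + 1) = R := by rw [Nat.cast_sub hR]; simp
  have hd' : (0 : ℤ) < (d : ℤ) + 1 := by positivity
  have h1 := Int.ediv_mul_le (x * (R : ℤ)) hd'.ne'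
  have h2 := Int.lt_ediv_add_one_mul_self (x * (R : ℤ)) hd'
  generalize x * (R : ℤ) / ((d : ℤ) + 1) = k at h1 h2
  have h1' : (k : ℝ) * ((d : ℝ) + 1) ≤ x * R := by exact_mod_cast h1
  have h2' : (x : ℝ) * R < (k + 1) * ((d : ℝ) + 1) := by exact_mod_cast h2
  have e2 : (k : ℝ) / R - x / ((d : ℝ) + 1) = (k * (d + 1) - x * R) / (d + 1) / R := by
    field_simp
  rw [e, e2, abs_div, abs_of_pos hR']
  refine div_le_div_of_nonneg_right ?_ hR'.le
  rw [abs_div, abs_of_pos hd, div_le_one hd, abs_le]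
  constructor <;> nlinarith

theorem rnd_err {R : ℕ} (hR : 1 ≤ R) (z : G) : ‖val (rnd R z) - val z‖ ≤ 2 / R := by
  refine (norm_le_abs_re_add_abs_im _).trans ?_
  rw [sub_re, sub_im, val_re, val_re, val_im, val_im]
  have h1 := floor_err z.1 z.2.2 R hR
  have h2 := floor_err z.2.1 z.2.2 R hR
  simp only [rnd]
  have : (2 : ℝ) / R = 1 / R + 1 / R := by ring
  linarith

theorem val_foldl_add (l : List G) (s : G) : val (l.foldl add s) = val s + (l.map val).sum := by
  induction l generalizing s with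
  | nil => simp
  | cons a l ih => simp [ih, add_assoc]

theorem val_foldl_mul (l : List G) (s : G) : val (l.foldl mul s) = val s * (l.map val).prod := by
  induction l generalizing s with
  | nil => simp
  | cons a l ih => simp [ih, mul_assoc]

@[simp] theorem val_sum (l : List G) : val (sum l) = (l.map val).sum := by
  simp [sum, val_foldl_add]

@[simp] theorem val_prod (l : List G) : val (prod l) = (l.map val).prod := by
  simp [prod, val_foldl_mul]

theorem val_sum_range (f : ℕ → G) (n : ℕ) :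
    val (sum ((List.range n).map f)) = ∑ i ∈ Finset.range n, val (f i) := by
  rw [val_sum, List.map_map]
  exact sum_map_range _ _

theorem val_pow {P k : ℕ} (h : k ≤ P) (z : G) : val (pow P z k) = val z ^ k := by
  simp [pow, min_eq_left h]

theorem val_zpow {P : ℕ} {e : ℤ} (h : e.natAbs ≤ P) (z : G) : val (zpow P z e) = val z ^ e := by
  unfold zpow
  split_ifs with he
  · rw [val_pow h, val_inv, inv_pow, ← zpow_natCast, ← zpow_neg]
    congr 1
    omega
  · rw [val_pow h, ← zpow_natCast]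
    congr 1
    omega

/-! ### Sizes -/

/-- A submultiplicative height. -/
def hz (z : G) : ℕ := z.1.natAbs + z.2.1.natAbs + (z.2.2 + 1)

theorem hz_pos (z : G) : 1 ≤ hz z := by unfold hz; omega

theorem hz_int (k : ℤ) : hz (int k) = k.natAbs + 1 := by simp [hz, int]

theorem hz_frac (k : ℤ) (d : ℕ) : hz (frac k d) ≤ k.natAbs + d + 1 := by
  simp only [hz, frac]; omega

theorem hz_neg (z : G) : hz (neg z) = hz z := by simp [hz, neg]

theorem hz_conj (z : G) : hz (conj z) = hz z := by simp [hz, conj]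

theorem hz_add (z w : G) : hz (add z w) ≤ hz z * hz w := by
  have e : ∀ d : ℕ, ((d : ℤ) + 1).natAbs = d + 1 := fun d => by omega
  have h1 := Int.natAbs_add_le (z.1 * ((w.2.2 : ℤ) + 1)) (w.1 * ((z.2.2 : ℤ) + 1))
  have h2 := Int.natAbs_add_le (z.2.1 * ((w.2.2 : ℤ) + 1)) (w.2.1 * ((z.2.2 : ℤ) + 1))
  simp only [Int.natAbs_mul, e] at h1 h2
  simp only [hz, add]
  nlinarith [Nat.zero_le ((z.1.natAbs + z.2.1.natAbs) * (w.1.natAbs + w.2.1.natAbs))]

theorem hz_mul (z w : G) : hz (mul z w) ≤ hz z * hz w := by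
  have h1 := Int.natAbs_sub_le (z.1 * w.1) (z.2.1 * w.2.1)
  have h2 := Int.natAbs_add_le (z.1 * w.2.1) (z.2.1 * w.1)
  simp only [Int.natAbs_mul] at h1 h2
  simp only [hz, mul]
  nlinarith [Nat.zero_le ((z.1.natAbs + z.2.1.natAbs) * (w.2.2 + 1)),
    Nat.zero_le ((w.1.natAbs + w.2.1.natAbs) * (z.2.2 + 1))]

theorem hz_sub (z w : G) : hz (sub z w) ≤ hz z * hz w := by
  rw [sub, ← hz_neg w]; exact hz_add _ _

theorem hz_inv (z : G) : hz (inv z) ≤ hz z * hz z := by
  have e : ∀ d : ℕ, ((d : ℤ) + 1).natAbs = d + 1 := fun d => by omega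
  have h1 : (z.1 * z.1 + z.2.1 * z.2.1).toNat ≤ z.1.natAbs * z.1.natAbs
      + z.2.1.natAbs * z.2.1.natAbs := by
    have := Int.natAbs_add_le (z.1 * z.1) (z.2.1 * z.2.1)
    simp only [Int.natAbs_mul] at this
    omega
  simp only [hz, inv, Int.natAbs_neg, Int.natAbs_mul, e]
  have h2 : (z.1 * z.1 + z.2.1 * z.2.1).toNat - 1 + 1 ≤ z.1.natAbs * z.1.natAbs
      + z.2.1.natAbs * z.2.1.natAbs + 1 := by omega
  nlinarith [Nat.zero_le (z.1.natAbs * z.2.1.natAbs), Nat.zero_le (z.2.2 * z.2.2),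
    Nat.zero_le ((z.1.natAbs + z.2.1.natAbs) * (z.2.2 + 1))]

theorem esize_eq (z : G) :
    esize z = 2 * Nat.size z.1.natAbs + 2 * Nat.size z.2.1.natAbs + Nat.size z.2.2 + 14 := by
  obtain ⟨x, y, d⟩ := z
  rw [esize_pair, esize_pair, esize_int, esize_int, esize_nat]
  ring

theorem hz_le (z : G) : hz z ≤ 2 ^ esize z := by
  have h1 := Nat.lt_size_self z.1.natAbs
  have h2 := Nat.lt_size_self z.2.1.natAbs
  have h3 := Nat.lt_size_self z.2.2
  have e := esize_eq z
  have k : ∀ s, s + 2 ≤ esize z → 4 * 2 ^ s ≤ 2 ^ esize z := fun s hs => by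
    have := Nat.pow_le_pow_right (n := 2) (by norm_num) hs
    rw [pow_add] at this
    omega
  have a := k (Nat.size z.1.natAbs) (by omega)
  have b := k (Nat.size z.2.1.natAbs) (by omega)
  have c := k (Nat.size z.2.2) (by omega)
  unfold hz
  omega

theorem Ht.esize_le {k : ℕ} {z : G} (h : Ht k z) : esize z ≤ 5 * k + 14 := by
  have h1 := Nat.size_le.2 h.1
  have h2 := Nat.size_le.2 h.2.1
  have h3 := Nat.size_le.2 h.2.2
  rw [esize_eq]
  omega

theorem Ht.mono {k k' : ℕ} {z : G} (h : Ht k z) (hk : k ≤ k') : Ht k' z := by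
  have := Nat.pow_le_pow_right (n := 2) (by norm_num) hk
  exact ⟨h.1.trans_le this, h.2.1.trans_le this, h.2.2.trans_le this⟩

theorem Ht.hz_le {k : ℕ} {z : G} (h : Ht k z) : hz z ≤ 2 ^ (k + 2) := by
  obtain ⟨h1, h2, h3⟩ := h
  rw [pow_add]
  unfold hz
  omega

theorem ht_of_hz {k : ℕ} {z : G} (h : hz z ≤ 2 ^ k) : Ht k z := by
  unfold hz at h
  exact ⟨by omega, by omega, by omega⟩

theorem ht_esize (z : G) : Ht (esize z) z := ht_of_hz (hz_le z)

theorem esize_le_of_hz {k : ℕ} {z : G} (h : hz z ≤ 2 ^ k) : esize z ≤ 5 * k + 14 :=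
  (ht_of_hz h).esize_le

theorem hz_foldl {op : G → G → G} (hop : ∀ z w, hz (op z w) ≤ hz z * hz w) (l : List G) (s : G) :
    hz (l.foldl op s) ≤ hz s * 2 ^ esize l := by
  induction l generalizing s with
  | nil => simp [esize_list_nil]
  | cons a l ih =>
    rw [List.foldl_cons, esize_list_cons]
    refine (ih _).trans ?_
    have h1 : hz (op s a) ≤ hz s * 2 ^ esize a :=
      (hop _ _).trans (Nat.mul_le_mul_left _ (hz_le a))
    refine (Nat.mul_le_mul_right _ h1).trans ?_
    rw [mul_assoc, ← pow_add]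
    exact Nat.mul_le_mul_left _ (Nat.pow_le_pow_right (by norm_num) (by omega))

theorem hz_foldl' {op : G → G → G} (hop : ∀ z w, hz (op z w) ≤ hz z * hz w) {B : ℕ} (l : List G)
    (h : ∀ z ∈ l, hz z ≤ B) (s : G) : hz (l.foldl op s) ≤ hz s * B ^ l.length := by
  induction l generalizing s with
  | nil => simp
  | cons a l ih =>
    rw [List.foldl_cons, List.length_cons, pow_succ']
    refine (ih (fun z hz' => h z (List.mem_cons_of_mem _ hz')) _).trans ?_
    rw [← mul_assoc]
    exact Nat.mul_le_mul_right _ ((hop _ _).trans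
      (Nat.mul_le_mul_left _ (h a List.mem_cons_self)))

theorem esize_sum_le (l : List G) : esize (sum l) ≤ 5 * esize l + 14 :=
  esize_le_of_hz ((hz_foldl hz_add l _).trans (by simp [hz_int]))

theorem esize_prod_le (l : List G) : esize (prod l) ≤ 5 * esize l + 19 := by
  have : hz (prod l) ≤ 2 ^ (esize l + 1) :=
    (hz_foldl hz_mul l _).trans (by simp [hz_int, pow_succ, mul_comm])
  have := esize_le_of_hz this
  omega

/-- A rounded number of bounded modulus has bounded height. -/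
theorem hz_rnd {R M : ℕ} (hR : 1 ≤ R) {z : G} (h : ‖val z‖ ≤ M) :
    hz (rnd R z) ≤ (2 * M + 5) * R := by
  have hR' : (0 : ℝ) < R := by exact_mod_cast hR
  have e : (((R - 1 : ℕ) : ℝ) + 1) = R := by rw [Nat.cast_sub hR]; simp
  have h1 : ‖val (rnd R z)‖ ≤ M + 2 / R := by
    have := norm_add_le (val (rnd R z) - val z) (val z)
    rw [sub_add_cancel] at this
    linarith [rnd_err hR z]
  have h2 := (abs_re_le_norm _).trans h1
  have h3 := (abs_im_le_norm _).trans h1
  rw [val_re] at h2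
  rw [val_im] at h3
  have hd : (rnd R z).2.2 = R - 1 := rfl
  rw [hd, e, abs_div, abs_of_pos hR', div_le_iff₀ hR'] at h2 h3
  have e2 : ((M : ℝ) + 2 / R) * R = M * R + 2 := by field_simp
  rw [e2, ← Int.cast_abs, Int.abs_eq_natAbs, Int.cast_natCast] at h2 h3
  have h2' : (rnd R z).1.natAbs ≤ M * R + 2 := by exact_mod_cast h2
  have h3' : (rnd R z).2.1.natAbs ≤ M * R + 2 := by exact_mod_cast h3
  unfold hz
  rw [hd]
  have : R - 1 + 1 = R := by omega
  nlinarith

theorem norm_le_hz (z : G) : ‖val z‖ ≤ hz z := by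
  have hd := den_pos z
  have h1 : (1 : ℝ) ≤ (z.2.2 : ℝ) + 1 := by linarith [Nat.cast_nonneg (α := ℝ) z.2.2]
  refine (norm_le_abs_re_add_abs_im _).trans ?_
  rw [val_re, val_im, abs_div, abs_div, abs_of_pos hd]
  have a := div_le_self (abs_nonneg (z.1 : ℝ)) h1
  have b := div_le_self (abs_nonneg (z.2.1 : ℝ)) h1
  unfold hz
  push_cast
  rw [Nat.cast_natAbs, Nat.cast_natAbs]
  push_cast
  linarith

/-! ### Running time -/

variable {A : Set Word} {α : Type*} [Enc α]

@[fun_prop] theorem PT_int {k : α → ℤ} (hk : PT A k) : PT A (fun a => int (k a)) := by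
  unfold int; fun_prop

@[fun_prop] theorem PT_frac {k : α → ℤ} {d : α → ℕ} (hk : PT A k) (hd : PT A d) :
    PT A (fun a => frac (k a) (d a)) := by
  unfold frac; fun_prop

@[fun_prop] theorem PT_add {z w : α → G} (hz : PT A z) (hw : PT A w) :
    PT A (fun a => add (z a) (w a)) := by
  unfold add; fun_prop

@[fun_prop] theorem PT_mul {z w : α → G} (hz : PT A z) (hw : PT A w) :
    PT A (fun a => mul (z a) (w a)) := by
  unfold mul; fun_prop

@[fun_prop] theorem PT_neg {z : α → G} (hz : PT A z) : PT A (fun a => neg (z a)) := by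
  unfold neg; fun_prop

@[fun_prop] theorem PT_sub {z w : α → G} (hz : PT A z) (hw : PT A w) :
    PT A (fun a => sub (z a) (w a)) := PT_add hz (PT_neg hw)

@[fun_prop] theorem PT_conj {z : α → G} (hz : PT A z) : PT A (fun a => conj (z a)) := by
  unfold conj; fun_prop

@[fun_prop] theorem PT_inv {z : α → G} (hz : PT A z) : PT A (fun a => inv (z a)) := by
  unfold inv; fun_prop

@[fun_prop] theorem PT_div {z w : α → G} (hz : PT A z) (hw : PT A w) :
    PT A (fun a => div (z a) (w a)) := PT_mul hz (PT_inv hw)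

@[fun_prop] theorem PT_nle {z w : α → G} (hz : PT A z) (hw : PT A w) :
    PT A (fun a => nle (z a) (w a)) := by
  unfold nle
  exact PT.intLe (by fun_prop) (by fun_prop)

@[fun_prop] theorem PT_rnd {R : α → ℕ} {z : α → G} (hR : PT A R) (hz : PT A z) :
    PT A (fun a => rnd (R a) (z a)) := by
  unfold rnd; fun_prop

@[fun_prop] theorem PT_sum {l : α → List G} (hl : PT A l) : PT A (fun a => sum (l a)) := by
  refine PT.foldl (f := fun _ s x => add s x) hl (PT.const _) (PT_add PT.snd'.fst PT.snd'.snd)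
    (b := fun a => 5 * esize (l a) + 14) (((PBd.const 5).mul hl.pbd).add (PBd.const _))
    fun a i => (esize_sum_le _).trans ?_
  have := esize_take_le i (l a)
  omega

@[fun_prop] theorem PT_prod {l : α → List G} (hl : PT A l) : PT A (fun a => prod (l a)) := by
  refine PT.foldl (f := fun _ s x => mul s x) hl (PT.const _) (PT_mul PT.snd'.fst PT.snd'.snd)
    (b := fun a => 5 * esize (l a) + 19) (((PBd.const 5).mul hl.pbd).add (PBd.const _))
    fun a i => (esize_prod_le _).trans ?_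
  have := esize_take_le i (l a)
  omega

@[fun_prop] theorem PT_pow {P k : α → ℕ} {z : α → G} (hP : PT A P) (hb : PBd P) (hz : PT A z)
    (hk : PT A k) : PT A (fun a => pow (P a) (z a) (k a)) :=
  PT_prod (PT.replicate (PT.min hk hP) (PBd_min_right hb) hz)

@[fun_prop] theorem PT_zpow {P : α → ℕ} {e : α → ℤ} {z : α → G} (hP : PT A P) (hb : PBd P)
    (hz : PT A z) (he : PT A e) : PT A (fun a => zpow (P a) (z a) (e a)) :=
  PT.ite he.intNeg' (PT_pow hP hb (PT_inv hz) he.natAbs) (PT_pow hP hb hz he.natAbs)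

end G

variable {A : Set Word} {α : Type*} [Enc α]

@[fun_prop] theorem PT_zeta {T : α → ℕ} (hT : PT A T) : PT A (fun a => zeta (T a)) := by
  unfold zeta; fun_prop

@[fun_prop] theorem PT_rho {T : α → ℕ} (hT : PT A T) : PT A (fun a => rho (T a)) := by
  unfold rho; fun_prop

@[fun_prop] theorem PT_pw {P T : α → ℕ} {w : α → Wt} (hP : PT A P) (hb : PBd P) (hT : PT A T)
    (hw : PT A w) : PT A (fun a => pw (P a) (T a) (w a)) :=
  G.PT_mul (G.PT_zpow hP hb (PT_rho hT) hw.fst) (G.PT_zpow hP hb (PT_zeta hT) hw.snd)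

@[fun_prop] theorem PT_rng {P X : α → ℕ} (hP : PT A P) (hb : PBd P) (hX : PT A X) :
    PT A (fun a => rng (P a) (X a)) :=
  PT.range (PT.min hX hP) (PBd_min_right hb)

theorem rng_eq {P X : ℕ} (h : X ≤ P) : rng P X = List.range X := by rw [rng, min_eq_left h]

theorem length_rng_le (P X : ℕ) : (rng P X).length ≤ P := by simp [rng]

theorem val_rho {T : ℕ} (hT : 2 ≤ T) : G.val (rho T) = cexp (-(kap T : ℂ)) := by
  have h2 : (2 : ℝ) ≤ T := by exact_mod_cast hT
  have h0 : (0 : ℝ) < 1 - 1 / (T : ℝ) := by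
    rw [sub_pos, div_lt_one (by linarith)]; linarith
  have hT0 : (T : ℂ) ≠ 0 := by exact_mod_cast (by omega : T ≠ 0)
  rw [← ofReal_neg, ← ofReal_exp, kap, neg_neg, Real.exp_log h0]
  simp only [G.val, rho]
  rw [Nat.cast_sub (by omega)]
  push_cast
  rw [sub_add_cancel]
  field_simp
  ring

theorem val_zeta {T : ℕ} (hT : 1 ≤ T) : G.val (zeta T) = cexp (I * (ang T : ℂ)) := by
  have h0 : (0 : ℝ) < T := by exact_mod_cast hT
  have hp : (0 : ℝ) < 1 + (1 / (T : ℝ)) ^ 2 := by positivity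
  have hs : Real.sqrt (1 + (1 / (T : ℝ)) ^ 2) ^ 2 = 1 + (1 / (T : ℝ)) ^ 2 := Real.sq_sqrt hp.le
  rw [mul_comm, exp_mul_I, ← ofReal_cos, ← ofReal_sin]
  apply Complex.ext
  · rw [G.val_re, ang, Real.cos_two_mul, Real.cos_arctan]
    simp only [zeta, add_re, ofReal_re, mul_re, I_re, mul_zero, ofReal_im, I_im, mul_one, sub_self,
      add_zero]
    rw [div_pow, hs]
    push_cast
    field_simp
    ring
  · rw [G.val_im, ang, Real.sin_two_mul, Real.cos_arctan, Real.sin_arctan]
    simp only [zeta, add_im, ofReal_im, mul_im, I_re, mul_zero, ofReal_re, I_im, mul_one, zero_add,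
      add_zero]
    rw [mul_assoc, div_mul_div_comm, Real.mul_self_sqrt hp.le]
    push_cast
    field_simp

theorem val_pw {P T : ℕ} (hT : 2 ≤ T) {w : Wt} (h1 : w.1.natAbs ≤ P) (h2 : w.2.natAbs ≤ P) :
    G.val (pw P T w) = wv T w := by
  rw [pw, G.val_mul, G.val_zpow h1, G.val_zpow h2, val_rho hT, val_zeta (by omega), wv, exp_add,
    ← exp_int_mul, ← exp_int_mul]
  congr 2 <;> ring

end Vale.Agent.P321D
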