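import Vale.Agent.P321D.Par
import Vale.Agent.P321D.GLib

/-!
# P321 decoder: values, invariants and sizes of symbolic tests
-/

namespace Vale.Agent.P321D

open Complex Finset Vale.Agent.Lib.PolyTime Vale.Agent.P315.H155 Vale.Agent.P321.H778

/-! ## Weights -/

theorem wv_wadd (T : ℕ) (w w' : Wt) : wv T (wadd w w') = wv T w * wv T w' := by
  rw [wv, wv, wv, ← exp_add]
  congr 1
  simp only [wadd]
  push_cast
  ring

theorem wv_add (T : ℕ) (m e m' e' : ℤ) : wv T (m + m', e + e') = wv T (m, e) * wv T (m', e') :=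
  wv_wadd T (m, e) (m', e')

@[simp] theorem wv_zero (T : ℕ) : wv T (0, 0) = 1 := by simp [wv]

theorem wv_pow (T : ℕ) (w : Wt) (k : ℕ) : wv T w ^ k = wv T (w.1 * k, w.2 * k) := by
  rw [wv, wv, ← exp_nat_mul]
  congr 1
  push_cast
  ring

theorem wv_wcj (T : ℕ) (w : Wt) : wv T (wcj w) = (starRingEnd ℂ) (wv T w) := by
  rw [wv, wv, ← exp_conj]
  congr 1
  simp [wcj]

theorem wv_ne (T : ℕ) (w : Wt) : wv T w ≠ 0 := exp_ne_zero _

theorem norm_wv (T : ℕ) (w : Wt) : ‖wv T w‖ = Real.exp (-(kap T * w.1)) := by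
  rw [wv, norm_exp]
  simp

theorem exp_neg_kap {T : ℕ} (hT : 2 ≤ T) : Real.exp (-kap T) = 1 - 1 / (T : ℝ) := by
  have h2 : (2 : ℝ) ≤ T := by exact_mod_cast hT
  rw [kap, neg_neg, Real.exp_log]
  rw [sub_pos, div_lt_one (by linarith)]
  linarith

theorem kap_nonneg {T : ℕ} (hT : 2 ≤ T) : 0 ≤ kap T := by
  have h := exp_neg_kap hT
  have : (0 : ℝ) ≤ 1 / (T : ℝ) := by positivity
  have h1 : Real.exp (-kap T) ≤ 1 := by linarith
  have := Real.exp_le_one_iff.1 h1
  linarith

theorem norm_wv_le {T : ℕ} (hT : 2 ≤ T) {w : Wt} (h : 0 ≤ w.1) : ‖wv T w‖ ≤ 1 := by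
  rw [norm_wv, Real.exp_le_one_iff, neg_nonpos]
  exact mul_nonneg (kap_nonneg hT) (by exact_mod_cast h)

theorem ang_nonneg (T : ℕ) : 0 ≤ ang T := by
  have : 0 ≤ Real.arctan (1 / (T : ℝ)) := Real.arctan_nonneg.2 (by positivity)
  unfold ang
  linarith

theorem ang_le (T : ℕ) : ang T ≤ 2 / T := by
  have h0 : 0 ≤ Real.arctan (1 / (T : ℝ)) := Real.arctan_nonneg.2 (by positivity)
  have := Real.le_tan h0 (Real.arctan_lt_pi_div_two _)
  rw [Real.tan_arctan] at this
  rw [ang, div_eq_mul_one_div 2]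
  linarith

/-! ## Values -/

/-- The nodes with their weights evaluated. -/
noncomputable def nC (T : ℕ) (Z : List SNode) : List Node := Z.map fun v => (wv T v.1, v.2)

theorem sev_nil (T : ℕ) (y : List Bool) : sev T [] y = 0 := rfl

theorem sev_cons (T : ℕ) (a : SMon) (L : SC) (y : List Bool) :
    sev T (a :: L) y = wv T a.1 * O (nC T a.2) y + sev T L y := rfl

theorem sevP_cons (T : ℕ) (r : ℝ) (a : SMon) (L : SC) (y : List Bool) :
    sevP T r (a :: L) y = wv T a.1 * OP r (nC T a.2) y + sevP T r L y := by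
  rw [← one_mul (sevP T r L y)]; rfl

theorem sev_eq_sum (T : ℕ) (L : SC) (y : List Bool) :
    sev T L y = (L.map fun a => wv T a.1 * O (nC T a.2) y).sum := by
  induction L with
  | nil => rfl
  | cons a L ih => rw [sev_cons, ih, List.map_cons, List.sum_cons]

theorem sevP_eq_sum (T : ℕ) (r : ℝ) (L : SC) (y : List Bool) :
    sevP T r L y = (L.map fun a => wv T a.1 * OP r (nC T a.2) y).sum := by
  induction L with
  | nil => rfl
  | cons a L ih => rw [sevP_cons, ih, List.map_cons, List.sum_cons]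

@[simp] theorem sev_cone (T : ℕ) (y : List Bool) : sev T cone y = 1 := by
  simp [cone, sev_cons, sev_nil, nC, O]

theorem sev_tau0 (T : ℕ) (y : List Bool) :
    sev T tau0 y = ((y.filter fun c => c).length : ℂ) := by
  have : sev T tau0 y = nd 1 true (fun _ => 1) y := by simp [tau0, sev_cons, sev_nil, nC, O]
  rw [this]
  induction y with
  | nil => simp [nd_nil]
  | cons b y ih =>
    rw [nd_cons, ih (by simp [tau0, sev_cons, sev_nil, nC, O])]
    cases b <;> simp [rd]

theorem sev_append (T : ℕ) (L M : SC) (y : List Bool) :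
    sev T (L ++ M) y = sev T L y + sev T M y := by
  simp only [sev_eq_sum, List.map_append, List.sum_append]

theorem sev_cj (T : ℕ) (L : SC) (y : List Bool) :
    sev T (cj L) y = (starRingEnd ℂ) (sev T L y) := by
  rw [sev, sev, ← ev_conjL]
  congr 1
  simp [toC, cj, conjL, conjZ, wv_wcj, Function.comp_def]

theorem sev_sM (T : ℕ) (z : Wt) (L : SC) (y : List Bool) :
    sev T (sM z L) y = wv T z * nd (wv T z) false (sev T L) y := by
  have := ev_consL (wv T z) (wv T z, false) (toC T L) y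
  refine Eq.trans ?_ this
  rw [sev]
  congr 1
  simp [toC, sM, consL, wv_wadd, Function.comp_def]

theorem sev_sP (T : ℕ) (z : Wt) (L : SC) (y : List Bool) :
    sev T (sP z L) y = sev T (sM z L) y + sev T L y := sev_append _ _ _ _

theorem sfx_zero (x : List Bool) : sfx x 0 = [] := by simp [sfx]

theorem sfx_length (x : List Bool) : sfx x x.length = x := by simp [sfx]

theorem length_sfx {x : List Bool} {i : ℕ} (h : i ≤ x.length) : (sfx x i).length = i := by
  simp only [sfx, List.length_drop]; omega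

theorem length_sfx_le (x : List Bool) (i : ℕ) : (sfx x i).length ≤ x.length := by
  simp only [sfx, List.length_drop]; omega

theorem sfx_succ {x : List Bool} {i : ℕ} (h : i < x.length) :
    sfx x (i + 1) = x[x.length - (i + 1)] :: sfx x i := by
  unfold sfx
  rw [List.drop_eq_getElem_cons (by omega)]
  congr 2
  omega

theorem sfx_sfx {x : List Bool} {i j : ℕ} (hj : j ≤ x.length) (h : i ≤ j) :
    sfx (sfx x j) i = sfx x i := by
  have := length_sfx hj
  unfold sfx at this ⊢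
  rw [this, List.drop_drop]
  congr 1
  omega

theorem sev_sM_sfx (T : ℕ) (z : Wt) (L : SC) (x : List Bool) {I : ℕ} (h : I ≤ x.length) :
    sev T (sM z L) (sfx x I) = ∑ i ∈ range I, wv T z ^ (I - i) * sev T L (sfx x i) := by
  rw [sev_sM]
  induction I with
  | zero => simp [sfx_zero, nd_nil]
  | succ I ih =>
    rw [sfx_succ h, nd_cons, sum_range_succ, ih (by omega), mul_add, mul_sum]
    congr 1
    · refine sum_congr rfl fun i hi => ?_
      rw [Nat.succ_sub (mem_range.1 hi).le, pow_succ]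
      ring
    · simp [rd]

theorem sev_sP_sfx (T : ℕ) (z : Wt) (L : SC) (x : List Bool) {I : ℕ} (h : I ≤ x.length) :
    sev T (sP z L) (sfx x I) = ∑ i ∈ range (I + 1), wv T z ^ (I - i) * sev T L (sfx x i) := by
  rw [sev_sP, sev_sM_sfx T z L x h, sum_range_succ]
  simp

/-! ## Invariants -/

/-- The invariant of a node. -/
def NI (T c1 c2 mm s : ℕ) (w : Wt) : Prop :=
  0 ≤ w.1 ∧ w.1 ≤ (s * mm : ℕ) ∧ w.2.natAbs ≤ s * T ∧ (c1 : ℤ) * w.2 ^ 2 ≤ s * c2 * w.1

/-- The invariant of a coefficient. -/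
def CI (T u : ℕ) (w : Wt) : Prop := 0 ≤ w.1 ∧ w.1 ≤ (u * T : ℕ) ∧ w.2.natAbs ≤ u * T

section

variable {T c1 c2 mm s s' k k' u u' len len' : ℕ} {w w' z : Wt} {L M : SC}

theorem inv_iff : Inv T c1 c2 mm s k u len L ↔ L.length ≤ len ∧
    ∀ a ∈ L, a.2.length ≤ k ∧ CI T u a.1 ∧ ∀ v ∈ a.2, NI T c1 c2 mm s v.1 := by
  simp only [Inv, CI, NI, and_assoc]

theorem NI.mono (h : NI T c1 c2 mm s w) (hs : s ≤ s') : NI T c1 c2 mm s' w := by
  obtain ⟨h1, h2, h3, h4⟩ := h
  refine ⟨h1, h2.trans ?_, h3.trans (Nat.mul_le_mul_right _ hs), h4.trans ?_⟩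
  · exact_mod_cast Nat.mul_le_mul_right _ hs
  · gcongr

theorem CI.mono (h : CI T u w) (hu : u ≤ u') : CI T u' w :=
  ⟨h.1, h.2.1.trans (by exact_mod_cast Nat.mul_le_mul_right _ hu),
    h.2.2.trans (Nat.mul_le_mul_right _ hu)⟩

theorem NI.ci (h : NI T c1 c2 mm s w) (hm : mm ≤ T) : CI T s w :=
  ⟨h.1, h.2.1.trans (by exact_mod_cast Nat.mul_le_mul_left _ hm), h.2.2.1⟩

theorem CI.wadd (h : CI T u w) (h' : CI T u' w') : CI T (u + u') (wadd w w') := by
  obtain ⟨h1, h2, h3⟩ := h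
  obtain ⟨g1, g2, g3⟩ := h'
  have := Int.natAbs_add_le w.2 w'.2
  refine ⟨add_nonneg h1 g1, ?_, ?_⟩
  · rw [add_mul, Nat.cast_add]
    exact add_le_add h2 g2
  · rw [add_mul]
    exact this.trans (add_le_add h3 g3)

theorem NI.wadd (h : NI T c1 c2 mm s w) (h' : NI T c1 c2 mm s' w') :
    NI T c1 c2 mm (s + s') (wadd w w') := by
  obtain ⟨h1, h2, h3, h4⟩ := h
  obtain ⟨g1, g2, g3, g4⟩ := h'
  have := Int.natAbs_add_le w.2 w'.2
  refine ⟨add_nonneg h1 g1, ?_, ?_, ?_⟩
  · rw [add_mul, Nat.cast_add]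
    exact add_le_add h2 g2
  · rw [add_mul]
    exact this.trans (add_le_add h3 g3)
  · have a0 : (0 : ℤ) ≤ s * c2 * w'.1 := by positivity
    have b0 : (0 : ℤ) ≤ s' * c2 * w.1 := by positivity
    have c0 : ((c1 : ℤ) * w.2 * w'.2) ^ 2 ≤ (s * c2 * w'.1) * (s' * c2 * w.1) := by
      have := mul_le_mul h4 g4 (by positivity) (by positivity)
      linarith
    have d0 : 2 * ((c1 : ℤ) * w.2 * w'.2) ≤ s * c2 * w'.1 + s' * c2 * w.1 := by
      refine le_of_sq_le_sq ?_ (add_nonneg a0 b0)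
      nlinarith [sq_nonneg ((s : ℤ) * c2 * w'.1 - s' * c2 * w.1)]
    simp only [P321D.wadd]
    push_cast
    linarith

theorem Adm1.ni (h : Adm1 T c1 c2 mm z) : NI T c1 c2 mm 1 z := by
  simpa [NI, Adm1] using h

theorem Inv.mono (h : Inv T c1 c2 mm s k u len L) (hs : s ≤ s') (hk : k ≤ k') (hu : u ≤ u')
    (hl : len ≤ len') : Inv T c1 c2 mm s' k' u' len' L := by
  rw [inv_iff] at h ⊢
  exact ⟨h.1.trans hl, fun a ha => ⟨(h.2 a ha).1.trans hk, (h.2 a ha).2.1.mono hu,
    fun v hv => ((h.2 a ha).2.2 v hv).mono hs⟩⟩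

theorem Inv.append (h : Inv T c1 c2 mm s k u len L) (h' : Inv T c1 c2 mm s k u len' M) :
    Inv T c1 c2 mm s k u (len + len') (L ++ M) :=
  ⟨by rw [List.length_append]; exact add_le_add h.1 h'.1,
    fun a ha => (List.mem_append.1 ha).elim (h.2 a) (h'.2 a)⟩

theorem Inv.cj (h : Inv T c1 c2 mm s k u len L) : Inv T c1 c2 mm s k u len (cj L) := by
  refine ⟨by simpa [P321D.cj] using h.1, fun a ha => ?_⟩
  obtain ⟨c, hc, rfl⟩ := List.mem_map.1 ha
  obtain ⟨h1, h2, h3, h4, h5⟩ := h.2 c hc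
  refine ⟨by simpa using h1, h2, h3, by simpa [wcj] using h4, fun v hv => ?_⟩
  obtain ⟨v', hv', rfl⟩ := List.mem_map.1 hv
  simpa [wcj] using h5 v' hv'

theorem Inv.sM (h : Inv T c1 c2 mm s k u len L) (hz : Adm1 T c1 c2 mm z) (hm : mm ≤ T)
    (hs : 1 ≤ s) : Inv T c1 c2 mm s (k + 1) (u + 1) len (sM z L) := by
  rw [inv_iff] at h ⊢
  refine ⟨by simpa [P321D.sM] using h.1, fun a ha => ?_⟩
  obtain ⟨c, hc, rfl⟩ := List.mem_map.1 ha
  obtain ⟨h1, h2, h3⟩ := h.2 c hc
  refine ⟨by simpa using h1, add_comm 1 u ▸ (hz.ni.ci hm).wadd h2, fun v hv => ?_⟩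
  rcases List.mem_cons.1 hv with rfl | hv
  · exact hz.ni.mono hs
  · exact h3 v hv

theorem Inv.sP (h : Inv T c1 c2 mm s k u len L) (hz : Adm1 T c1 c2 mm z) (hm : mm ≤ T)
    (hs : 1 ≤ s) : Inv T c1 c2 mm s (k + 1) (u + 1) (2 * len) (sP z L) :=
  two_mul len ▸ (h.sM hz hm hs).append (h.mono le_rfl (by omega) (by omega) le_rfl)

theorem inv_cone : Inv T c1 c2 mm s k u 1 cone := by
  simp [Inv, cone]
  positivity

theorem inv_tau0 : Inv T c1 c2 mm s 1 u 1 tau0 := by
  simp [Inv, tau0]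
  constructor <;> positivity

theorem cinv_cone (j : ℕ) : CInv T c1 c2 mm j cone :=
  inv_cone.mono le_rfl le_rfl le_rfl Nat.one_le_two_pow

theorem cinv_tau0 (j : ℕ) : CInv T c1 c2 mm j tau0 := by
  have : 1 ≤ 4 ^ j := Nat.one_le_pow _ _ (by norm_num)
  exact inv_tau0.mono le_rfl (by omega) le_rfl Nat.one_le_two_pow

theorem CInv.cj {j : ℕ} (h : CInv T c1 c2 mm j L) : CInv T c1 c2 mm j (cj L) := Inv.cj h

/-! ## Sizes -/

theorem CI.esize_le (h : CI T u w) : esize w ≤ 3 * Nat.size (u * T) + 10 := by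
  obtain ⟨m, e⟩ := w
  obtain ⟨h1, h2, h3⟩ := h
  have a := Nat.size_le_size (show m.natAbs ≤ u * T by simp only at h1 h2; omega)
  have b := Nat.size_le_size h3
  rw [esize_pair, esize_int, esize_int]
  simp only at b
  omega

theorem esize_nodes {Z : List SNode} (h : ∀ v ∈ Z, CI T u v.1) :
    esize Z ≤ Z.length * (12 * Nat.size (u * T) + 45) := by
  refine (esize_list_le (B := 6 * Nat.size (u * T) + 22) fun v hv => ?_).trans (le_of_eq (by ring))
  have := (h v hv).esize_le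
  obtain ⟨w, c⟩ := v
  rw [esize_pair, esize_bool]
  simp only at this
  omega

theorem Inv.esize_le (h : Inv T c1 c2 mm s k u len L) (hm : mm ≤ T) :
    esize L ≤ len * (k + 1) * (40 * (Nat.size ((u + s) * T) + 4)) := by
  rw [inv_iff] at h
  refine (esize_list_le (B := (k + 1) * (12 * Nat.size ((u + s) * T) + 45)) fun a ha => ?_).trans ?_
  · obtain ⟨h1, h2, h3⟩ := h.2 a ha
    have a1 := (h2.mono (Nat.le_add_right u s)).esize_le
    have a2 := (esize_nodes fun v hv => ((h3 v hv).ci hm).mono (Nat.le_add_left s u)).trans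
      (Nat.mul_le_mul_right _ h1)
    obtain ⟨w, Z⟩ := a
    rw [esize_pair, add_mul]
    simp only at a1 a2
    omega
  · rw [mul_assoc]
    refine Nat.mul_le_mul h.1 ?_
    nlinarith [Nat.zero_le (k * Nat.size ((u + s) * T))]

end

theorem nd_le {z : ℂ} (hz : ‖z‖ ≤ 1) (c : Bool) {τ : List Bool → ℂ} {B : ℝ} {n : ℕ}
    (h : ∀ y : List Bool, y.length ≤ n → ‖τ y‖ ≤ B) (y : List Bool) (hy : y.length ≤ n) :
    ‖nd z c τ y‖ ≤ y.length * B := by
  induction y with
  | nil => simp [nd_nil]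
  | cons b y ih =>
    have hy' : y.length ≤ n := by simp at hy; omega
    have e1 := mul_le_mul hz (ih hy') (norm_nonneg _) zero_le_one
    have e2 := mul_le_mul (norm_rd_le c b) (h y hy') (norm_nonneg _) zero_le_one
    rw [nd_cons]
    refine (norm_add_le _ _).trans ?_
    rw [norm_mul, norm_mul, List.length_cons]
    push_cast
    linarith

theorem ndP_le {r : ℝ} {z : ℂ} (hr : 0 < r) (hz : ‖(z - 1 + r) / r‖ ≤ 1) (c : Bool)
    {τ : List Bool → ℂ} {B : ℝ} {n : ℕ} (h : ∀ y : List Bool, y.length ≤ n → ‖τ y‖ ≤ B)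
    (y : List Bool) (hy : y.length ≤ n) : ‖ndP r z c τ y‖ ≤ y.length * (1 / r * B) := by
  induction y with
  | nil => simp [ndP]
  | cons b y ih =>
    have hy' : y.length ≤ n := by simp at hy; omega
    have e1 := mul_le_mul hz (ih hy') (norm_nonneg _) zero_le_one
    have e2 := mul_le_mul_of_nonneg_left
      (mul_le_mul (norm_rd_le c b) (h y hy') (norm_nonneg _) zero_le_one) (one_div_pos.2 hr).le
    have e4 : ‖(1 / (r : ℂ))‖ = 1 / r := by
      rw [norm_div, norm_one, Complex.norm_real, Real.norm_of_nonneg hr.le]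
    rw [ndP]
    refine (norm_add_le _ _).trans ?_
    rw [norm_mul, norm_mul, norm_mul, e4, List.length_cons]
    push_cast
    linarith

theorem O_bd {Z : List Node} (hZ : ∀ v ∈ Z, ‖v.1‖ ≤ 1) {n : ℕ} (y : List Bool)
    (hy : y.length ≤ n) : ‖O Z y‖ ≤ ((n : ℝ) + 1) ^ Z.length := by
  induction Z generalizing y with
  | nil => simp [O]
  | cons v Z ih =>
    refine (nd_le (hZ v List.mem_cons_self) v.2
      (ih fun v hv => hZ v (List.mem_cons_of_mem _ hv)) y hy).trans ?_
    have : (y.length : ℝ) ≤ n + 1 := by exact_mod_cast hy.trans (Nat.le_succ n)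
    rw [List.length_cons, pow_succ']
    gcongr

theorem OP_bd {r : ℝ} (hr : 0 < r) {Z : List Node} (hZ : ∀ v ∈ Z, ‖(v.1 - 1 + r) / r‖ ≤ 1) {n : ℕ}
    (y : List Bool) (hy : y.length ≤ n) : ‖OP r Z y‖ ≤ (((n : ℝ) + 1) / r) ^ Z.length := by
  induction Z generalizing y with
  | nil => simp [OP]
  | cons v Z ih =>
    refine (ndP_le hr (hZ v List.mem_cons_self) v.2
      (ih fun v hv => hZ v (List.mem_cons_of_mem _ hv)) y hy).trans ?_
    have : (y.length : ℝ) ≤ n + 1 := by exact_mod_cast hy.trans (Nat.le_succ n)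
    rw [List.length_cons, pow_succ', ← mul_assoc, mul_one_div]
    gcongr

theorem norm_list_sum_le {ι : Type*} (l : List ι) (f : ι → ℂ) {B : ℝ} (h : ∀ a ∈ l, ‖f a‖ ≤ B) :
    ‖(l.map f).sum‖ ≤ l.length * B := by
  induction l with
  | nil => simp
  | cons a l ih =>
    rw [List.map_cons, List.sum_cons, List.length_cons]
    refine (norm_add_le _ _).trans ?_
    have := ih fun c hc => h c (List.mem_cons_of_mem _ hc)
    have := h a List.mem_cons_self
    push_cast
    linarith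

/-- Admissible nodes lie in the disc of the channel. -/
theorem disc_of {T a b : ℕ} (hT : 2 ≤ T) (hab : a < b) {w : Wt} (h0 : 0 ≤ w.1)
    (h1 : 4 * w.1 * b ≤ (b - a : ℤ) * T) (h2 : 6 * a * w.2 ^ 2 ≤ (b - a : ℤ) * T * w.1) :
    ‖(wv T w - 1 + ((1 - (a : ℝ) / b : ℝ) : ℂ)) / ((1 - (a : ℝ) / b : ℝ) : ℂ)‖ ≤ 1 := by
  obtain ⟨m, e⟩ := w
  obtain ⟨m, rfl⟩ := Int.eq_ofNat_of_zero_le h0
  have hb : (0 : ℝ) < b := by exact_mod_cast (by omega : 0 < b)
  have hab' : (a : ℝ) < b := by exact_mod_cast hab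
  have hT' : (2 : ℝ) ≤ T := by exact_mod_cast hT
  have hT0 : (0 : ℝ) < T := by linarith
  have h1' : 4 * (m : ℝ) * b ≤ (b - a) * T := by exact_mod_cast h1
  have h2' : 6 * (a : ℝ) * e ^ 2 ≤ (b - a) * T * m := by exact_mod_cast h2
  set q : ℝ := a / b with hq
  have hq0 : 0 ≤ q := by positivity
  have hq1 : q < 1 := (div_lt_one hb).2 hab'
  have hx1 : (m : ℝ) / T ≤ (1 - q) / 4 := by
    rw [hq, div_le_iff₀ hT0, one_sub_div hb.ne', div_div, div_mul_eq_mul_div,
      le_div_iff₀ (by positivity)]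
    linarith
  have hx2 : q * (ang T * e) ^ 2 ≤ (1 - q) * (m / T) := by
    have a1 : (ang T) ^ 2 ≤ (2 / T) ^ 2 := pow_le_pow_left₀ (ang_nonneg T) (ang_le T) 2
    have a2 : q * (ang T * e) ^ 2 ≤ q * ((2 / T) ^ 2 * e ^ 2) := by rw [mul_pow]; gcongr
    refine a2.trans ?_
    have : (1 - q) * (m / T) - q * ((2 / T) ^ 2 * e ^ 2)
        = ((b - a) * T * m - 4 * a * e ^ 2) / (b * T ^ 2) := by
      rw [hq]; field_simp; ring
    have a3 : 0 ≤ ((b - a) * T * m - 4 * a * (e : ℝ) ^ 2) / (b * T ^ 2) := by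
      refine div_nonneg ?_ (by positivity)
      have : (0 : ℝ) ≤ a * e ^ 2 := by positivity
      linarith
    linarith
  have hi : (1 : ℝ) / T ≤ 1 / 2 := one_div_le_one_div_of_le (by norm_num) hT'
  have hi0 : (0 : ℝ) ≤ 1 / T := by positivity
  set t : ℝ := (1 - 1 / T) ^ m with ht
  have t0 : 0 ≤ t := pow_nonneg (by linarith) _
  have t1 : 1 - m / T ≤ t := by
    have := one_add_mul_le_pow (a := -(1 / (T : ℝ))) (by linarith) m
    rw [ht, sub_eq_add_neg 1 (1 / (T : ℝ)), div_eq_mul_one_div (m : ℝ)]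
    linarith
  have t2 : t * (1 + m / T) ≤ 1 := by
    have a1 := one_add_mul_le_pow (a := 1 / (T : ℝ)) (by linarith) m
    have a2 : t * (1 + 1 / T) ^ m ≤ 1 := by
      rw [ht, ← mul_pow]
      exact pow_le_one₀ (mul_nonneg (by linarith) (by linarith)) (by nlinarith)
    rw [div_eq_mul_one_div (m : ℝ)]
    exact (mul_le_mul_of_nonneg_left a1 t0).trans a2
  have ew : wv T ((m : ℤ), e) = (t : ℂ) * cexp ((ang T * e : ℝ) * I) := by
    rw [ht, ← exp_neg_kap hT, ← Real.exp_nat_mul, ofReal_exp, ← exp_add, wv]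
    congr 1
    push_cast
    ring
  have hc := Real.one_sub_sq_div_two_le_cos (x := ang T * e)
  have hs := Real.sin_sq_add_cos_sq (ang T * e)
  rw [norm_div, Complex.norm_real, Real.norm_of_nonneg (by linarith), div_le_one (by linarith),
    ← sq_le_sq₀ (norm_nonneg _) (by linarith), ← Complex.normSq_eq_norm_sq, normSq_apply, ew]
  simp only [add_re, sub_re, mul_re, ofReal_re, ofReal_im, exp_ofReal_mul_I_re, exp_ofReal_mul_I_im,
    one_re, add_im, sub_im, mul_im, one_im]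
  generalize ang T * e = th at *
  generalize (m : ℝ) / T = x at *
  have x0 : 0 ≤ x * t := by nlinarith [mul_nonneg hq0 (sq_nonneg th)]
  have k1 : q * t * (1 - th ^ 2 / 2) ≤ q * t * Real.cos th :=
    mul_le_mul_of_nonneg_left hc (mul_nonneg hq0 t0)
  have k2 : q * th ^ 2 * t ≤ (1 - q) * x * t := mul_le_mul_of_nonneg_right hx2 t0
  have k3 : x * t * (1 - q) ≤ (1 - t) * (1 + t - 2 * q) :=
    mul_le_mul (by linarith) (by linarith) (by linarith) (by linarith)
  have k4 : t ^ 2 * (Real.sin th ^ 2 + Real.cos th ^ 2) = t ^ 2 := by rw [hs, mul_one]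
  nlinarith

theorem norm_ok : NORM := by
  intro T c1 c2 mm s k u len n L hT hm h
  refine ⟨h.esize_le hm, fun y hy => ?_, fun a b S hab hs h1 h2 h3 y hy => ?_⟩
  · rw [inv_iff] at h
    rw [sev_eq_sum]
    refine (norm_list_sum_le _ _ (B := ((n : ℝ) + 1) ^ k) fun c hc => ?_).trans ?_
    · obtain ⟨a1, a2, a3⟩ := h.2 c hc
      have b1 := O_bd (Z := nC T c.2) (fun v hv => by
        obtain ⟨v', hv', rfl⟩ := List.mem_map.1 hv
        exact norm_wv_le hT (a3 v' hv').1) y hy
      rw [norm_mul]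
      refine (mul_le_of_le_one_left (norm_nonneg _) (norm_wv_le hT a2.1)).trans (b1.trans ?_)
      refine pow_le_pow_right₀ (by linarith [Nat.cast_nonneg (α := ℝ) n]) ?_
      simpa [nC] using a1
    · have : (L.length : ℝ) ≤ len := by exact_mod_cast h.1
      gcongr
  · rw [inv_iff] at h
    have hb : (0 : ℝ) < b := by exact_mod_cast (by omega : 0 < b)
    have hab' : (a : ℝ) < b := by exact_mod_cast hab
    have hq0 : (0 : ℝ) ≤ a / b := by positivity
    have hr : (0 : ℝ) < 1 - a / b := sub_pos.2 ((div_lt_one hb).2 hab')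
    have e : ((n : ℝ) + 1) * b / (b - a) = (n + 1) / (1 - a / b) := by
      rw [one_sub_div hb.ne', div_div_eq_mul_div]
    rw [sevP_eq_sum, e]
    refine (norm_list_sum_le _ _ (B := (((n : ℝ) + 1) / (1 - a / b)) ^ k) fun c hc => ?_).trans ?_
    · obtain ⟨a1, a2, a3⟩ := h.2 c hc
      have b1 := OP_bd hr (Z := nC T c.2) (fun v hv => by
        obtain ⟨v', hv', rfl⟩ := List.mem_map.1 hv
        obtain ⟨g1, g2, g3, g4⟩ := (a3 v' hv').mono hs
        have h3' : 4 * (S : ℤ) * mm * b ≤ (b - a) * T := by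
          rw [← Nat.cast_sub hab.le]; exact_mod_cast h3
        refine disc_of hT hab g1 (le_trans ?_ h3') ?_
        · push_cast at g2
          nlinarith [mul_le_mul_of_nonneg_right g2 (Nat.cast_nonneg (α := ℤ) b)]
        · rcases Nat.eq_zero_or_pos S with rfl | hS
          · have : v'.1.2 = 0 := by omega
            have hba : (0 : ℤ) ≤ b - a := by omega
            rw [this]
            simp only [ne_eq, OfNat.ofNat_ne_zero, not_false_eq_true, zero_pow, mul_zero]
            positivity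
          · rw [h1, h2] at g4
            push_cast [Nat.cast_sub hab.le] at g4
            have hS' : (0 : ℤ) < S := by exact_mod_cast hS
            refine le_of_mul_le_mul_left ?_ hS'
            linarith) y hy
      rw [norm_mul]
      refine (mul_le_of_le_one_left (norm_nonneg _) (norm_wv_le hT a2.1)).trans (b1.trans ?_)
      refine pow_le_pow_right₀ ?_ (by simpa [nC] using a1)
      rw [le_div_iff₀ hr]
      linarith [Nat.cast_nonneg (α := ℝ) n]
    · have : (L.length : ℝ) ≤ len := by exact_mod_cast h.1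
      gcongr

end Vale.Agent.P321D
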