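import Vale.Agent.P321D.Spec
import Vale.Agent.P321D.GLib

/-!
# P321 decoder: the Kaczmarz iteration
-/

namespace Vale.Agent.P321D

open Complex Finset Vale.Agent.Lib.PolyTime Vale.Agent.P315.H155

/-- The entries of a list (`0` beyond its end). -/
noncomputable def ent (f : List G) (l : ℕ) : ℂ := G.val (f.getD l (G.int 0))

theorem ent_nil (l : ℕ) : ent [] l = 0 := by simp [ent]

theorem ent_zero (a : G) (f : List G) : ent (a :: f) 0 = G.val a := by simp [ent]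

theorem ent_succ (a : G) (f : List G) (l : ℕ) : ent (a :: f) (l + 1) = ent f l := by simp [ent]

theorem ent_of_le {f : List G} {l : ℕ} (h : f.length ≤ l) : ent f l = 0 := by
  simp [ent, List.getD_eq_getElem?_getD, List.getElem?_eq_none h]

theorem ent_of_lt {f : List G} {l : ℕ} (h : l < f.length) : ent f l = G.val f[l] := by
  simp [ent, List.getD_eq_getElem?_getD, List.getElem?_eq_getElem h]

theorem ent_headD (f : List G) : G.val (f.headD (G.int 0)) = ent f 0 := by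
  cases f <;> simp [ent]

theorem ent_map_range (g : ℕ → G) {n l : ℕ} (h : l < n) :
    ent ((List.range n).map g) l = G.val (g l) := by
  rw [ent_of_lt (by simpa using h)]
  simp

theorem val_dotG (al f : List G) {n : ℕ} (h : min al.length f.length ≤ n) :
    G.val (dotG al f) = ∑ l ∈ range n, ent al l * ent f l := by
  rw [dotG, G.val_sum]
  induction al generalizing f n with
  | nil => simp [ent_nil]
  | cons a al ih =>
    cases f with
    | nil => simp [ent_nil]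
    | cons b f =>
      obtain ⟨n, rfl⟩ : ∃ k, n = k + 1 := ⟨n - 1, by simp only [List.length_cons] at h; omega⟩
      rw [sum_range_succ']
      simp only [ent_succ, ent_zero, List.zip_cons_cons, List.map_cons, List.sum_cons, G.val_mul]
      rw [ih f (n := n) (by simp only [List.length_cons] at h; omega), add_comm]

theorem val_p2 {P k : ℕ} (h : k ≤ P) (c : ℤ) :
    G.val (G.frac c (p2 P k)) = c / 2 ^ k := by
  rw [p2, G.val_frac _ (Nat.one_le_two_pow), min_eq_left h]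
  push_cast
  rfl

/-- The decrease of the distance to a solution in one exact step. -/
theorem kacz_exact (n : ℕ) (a x : ℕ → ℂ) (r r0 : ℂ) (ta eps : ℝ) (hta : 0 ≤ ta) (he : 0 ≤ eps)
    (hx : ∑ l ∈ range n, a l * x l = r - r0) (h0 : ‖r0‖ ≤ eps) (hr : 3 * eps ≤ ‖r‖)
    (ha : ta * ∑ l ∈ range n, ‖a l‖ ^ 2 ≤ 1) :
    ∑ l ∈ range n, ‖x l - ta * r * (starRingEnd ℂ) (a l)‖ ^ 2 ≤
      ∑ l ∈ range n, ‖x l‖ ^ 2 - 3 * ta * eps ^ 2 := by
  have e : ∀ l, ‖x l - ta * r * (starRingEnd ℂ) (a l)‖ ^ 2 = ‖x l‖ ^ 2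
      - 2 * ta * ((starRingEnd ℂ) r * (a l * x l)).re + ta ^ 2 * ‖r‖ ^ 2 * ‖a l‖ ^ 2 := fun l => by
    simp only [← Complex.normSq_eq_norm_sq, normSq_apply, sub_re, sub_im, mul_re, mul_im, conj_re,
      conj_im, ofReal_re, ofReal_im]
    ring
  simp only [e, sum_add_distrib, sum_sub_distrib, ← mul_sum]
  rw [← re_sum, ← mul_sum, hx]
  have h1 : ((starRingEnd ℂ) r * (r - r0)).re = ‖r‖ ^ 2 - ((starRingEnd ℂ) r * r0).re := by
    rw [mul_sub, sub_re, ← Complex.normSq_eq_conj_mul_self, ofReal_re, Complex.normSq_eq_norm_sq]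
  have h2 : ((starRingEnd ℂ) r * r0).re ≤ ‖r‖ * eps := by
    refine (re_le_norm _).trans ?_
    rw [norm_mul, norm_conj]
    exact mul_le_mul_of_nonneg_left h0 (norm_nonneg _)
  have h3 : ta ^ 2 * ‖r‖ ^ 2 * ∑ l ∈ range n, ‖a l‖ ^ 2 ≤ ta * ‖r‖ ^ 2 := by
    have := mul_le_mul_of_nonneg_left ha (by positivity : 0 ≤ ta * ‖r‖ ^ 2)
    nlinarith
  have h4 : 3 * eps ^ 2 ≤ ‖r‖ ^ 2 - 2 * (‖r‖ * eps) := by nlinarith
  have h5 := mul_le_mul_of_nonneg_left h4 hta
  have h6 := mul_le_mul_of_nonneg_left h2 hta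
  rw [h1]
  nlinarith

theorem le_of_sum_sq {n l : ℕ} {x : ℕ → ℂ} {B : ℝ} (hB : 0 ≤ B) (hl : l < n)
    (h : ∑ l ∈ range n, ‖x l‖ ^ 2 ≤ B ^ 2) : ‖x l‖ ≤ B :=
  (sq_le_sq₀ (norm_nonneg _) hB).1
    ((single_le_sum (f := fun l => ‖x l‖ ^ 2) (fun _ _ => by positivity) (mem_range.2 hl)).trans h)

/-- The effect of rounding. -/
theorem kacz_round (n : ℕ) (x z : ℕ → ℂ) (B del : ℝ) (hB : 0 ≤ B)
    (hx : ∑ l ∈ range n, ‖x l‖ ^ 2 ≤ B ^ 2) (hz : ∀ l < n, ‖z l - x l‖ ≤ del) :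
    ∑ l ∈ range n, ‖z l‖ ^ 2 ≤ ∑ l ∈ range n, ‖x l‖ ^ 2 + n * (2 * B * del + del ^ 2) := by
  have : ∀ l ∈ range n, ‖z l‖ ^ 2 ≤ ‖x l‖ ^ 2 + (2 * B * del + del ^ 2) := fun l hl => by
    have h1 := le_of_sum_sq hB (mem_range.1 hl) hx
    have h2 := hz l (mem_range.1 hl)
    have h3 : ‖z l‖ ≤ ‖x l‖ + del := by
      have := norm_add_le (x l) (z l - x l)
      rw [add_sub_cancel] at this
      linarith
    have h4 : 0 ≤ del := (norm_nonneg _).trans h2
    have h5 := pow_le_pow_left₀ (norm_nonneg _) h3 2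
    nlinarith
  refine (sum_le_sum this).trans ?_
  rw [sum_add_distrib, sum_const, card_range, nsmul_eq_mul]

/-- The list fits all rows. -/
def Fits (th : ℝ) (rows : List (List G × G)) (f : List G) : Prop :=
  ∀ ro ∈ rows, ‖G.val (dotG ro.1 f) - G.val ro.2‖ ≤ th

theorem kstep_of_fits {R : ℕ} {ta th : G} {rows : List (List G × G)} {f : List G}
    (h : Fits ‖G.val th‖ rows f) : kstep R ta th rows f = f := by
  unfold kstep
  rw [List.find?_eq_none.2]
  · rfl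
  · intro ro hro
    have := (G.nle_iff (G.sub (dotG ro.1 f) ro.2) th).2 (by rw [G.val_sub]; exact h ro hro)
    simp [this]

theorem kstep_of_not {R : ℕ} {ta th : G} {rows : List (List G × G)} {f : List G}
    (h : ¬Fits ‖G.val th‖ rows f) : ∃ ro ∈ rows, ‖G.val th‖ < ‖G.val (dotG ro.1 f) - G.val ro.2‖ ∧
      kstep R ta th rows f = (f.zip ro.1).map fun e =>
        G.rnd R (G.sub e.1 (G.mul (G.mul ta (G.sub (dotG ro.1 f) ro.2)) (G.conj e.2))) := by
  unfold kstep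
  rcases e : rows.find? fun ro => !G.nle (G.sub (dotG ro.1 f) ro.2) th with _ | ro
  · refine absurd (fun ro hro => ?_) h
    have := List.find?_eq_none.1 e ro hro
    rw [← G.val_sub, ← G.nle_iff]
    simpa using this
  · refine ⟨ro, List.mem_of_find?_eq_some e, ?_, by rw [e]; rfl⟩
    have := List.find?_some e
    rw [← G.val_sub, ← G.nle_false_iff]
    simpa using this

section

variable {d mu ro n v : ℕ} {rows : List (List G × G)} {f0 : ℕ → ℂ} {ta th : G}

/-- The invariant after `k` steps. -/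
structure KInv (d mu ro n : ℕ) (rows : List (List G × G)) (f0 : ℕ → ℂ) (k : ℕ) (f : List G) :
    Prop where
  len : f.length = n
  ht : ∀ z ∈ f, G.hz z ≤ 2 ^ (mu + ro + 4)
  le : ∑ l ∈ range n, ‖ent f l - f0 l‖ ^ 2 ≤ ∑ l ∈ range n, ‖f0 l‖ ^ 2
  dec : Fits (3 / 2 ^ d) rows f ∨ ∑ l ∈ range n, ‖ent f l - f0 l‖ ^ 2 +
    k * (2 * (1 / 4 ^ mu) * (1 / 2 ^ d) ^ 2) ≤ ∑ l ∈ range n, ‖f0 l‖ ^ 2

theorem round_small (hro : 3 * mu + 2 * d + v + 3 ≤ ro) (hn : n ≤ 2 ^ v) :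
    (n : ℝ) * (2 * 2 ^ mu * (2 / 2 ^ ro) + (2 / 2 ^ ro) ^ 2) ≤ 1 / 4 ^ mu * (1 / 2 ^ d) ^ 2 := by
  have h1 : (n : ℝ) ≤ 2 ^ v := by exact_mod_cast hn
  have h2 : (2 : ℝ) ^ (3 * mu + 2 * d + v + 3) ≤ 2 ^ ro := pow_le_pow_right₀ (by norm_num) hro
  have h4 : (4 : ℝ) ^ mu = (2 ^ mu) ^ 2 := by
    rw [← pow_mul, mul_comm, pow_mul]; norm_num
  rw [pow_add, pow_add, pow_add, mul_comm 3, mul_comm 2 d, pow_mul, pow_mul] at h2
  rw [h4]
  have hM : (1 : ℝ) ≤ 2 ^ mu := one_le_pow₀ (by norm_num)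
  have hD : (1 : ℝ) ≤ 2 ^ d := one_le_pow₀ (by norm_num)
  have hR : (1 : ℝ) ≤ 2 ^ ro := one_le_pow₀ (by norm_num)
  have hV : (1 : ℝ) ≤ 2 ^ v := one_le_pow₀ (by norm_num)
  generalize (2 : ℝ) ^ mu = M at *
  generalize (2 : ℝ) ^ d = D at *
  generalize (2 : ℝ) ^ ro = R at *
  generalize (2 : ℝ) ^ v = V at *
  have hR0 : 0 < R := by linarith
  have h5 : (2 / R) ^ 2 ≤ 2 * M * (2 / R) := by
    have : 2 / R ≤ 2 * M := by
      rw [div_le_iff₀ hR0]; nlinarith
    rw [sq]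
    exact mul_le_mul_of_nonneg_right this (by positivity)
  calc (n : ℝ) * (2 * M * (2 / R) + (2 / R) ^ 2) ≤ V * (2 * M * (2 / R) + 2 * M * (2 / R)) := by
        gcongr
    _ = 8 * M * V / R := by ring
    _ ≤ 8 * M * V / (M ^ 3 * D ^ 2 * V * 2 ^ 3) := by gcongr
    _ = 1 / M ^ 2 * (1 / D) ^ 2 := by field_simp; norm_num

theorem KInv.step (hro : 3 * mu + 2 * d + v + 3 ≤ ro) (hn : n ≤ 2 ^ v)
    (hta : G.val ta = 1 / 4 ^ mu) (hth : G.val th = 3 / 2 ^ d)
    (hlen : ∀ r ∈ rows, r.1.length = n)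
    (hrow : ∀ r ∈ rows, ∑ l ∈ range n, ‖ent r.1 l‖ ^ 2 ≤ 4 ^ mu)
    (hfit : ∀ r ∈ rows, ‖∑ l ∈ range n, ent r.1 l * f0 l - G.val r.2‖ ≤ 1 / 2 ^ d)
    (hf0 : ∑ l ∈ range n, ‖f0 l‖ ^ 2 ≤ 4 ^ mu) {k : ℕ} {f : List G}
    (h : KInv d mu ro n rows f0 k f) :
    KInv d mu ro n rows f0 (k + 1) (kstep (2 ^ ro) ta th rows f) := by
  have hth' : ‖G.val th‖ = 3 / 2 ^ d := by rw [hth]; simp
  have h4 : (4 : ℝ) ^ mu = (2 ^ mu) ^ 2 := by
    rw [← pow_mul, mul_comm, pow_mul]; norm_num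
  by_cases hF : Fits ‖G.val th‖ rows f
  · rw [kstep_of_fits hF]
    exact ⟨h.len, h.ht, h.le, Or.inl (hth' ▸ hF)⟩
  obtain ⟨r, hr, hlt, e⟩ := kstep_of_not (R := 2 ^ ro) (ta := ta) hF
  have hdec := h.dec.resolve_left (hth' ▸ hF)
  have hl := hlen r hr
  have hlen' : (kstep (2 ^ ro) ta th rows f).length = n := by
    rw [e, List.length_map, List.length_zip, h.len, hl, min_self]
  set res := G.val (dotG r.1 f) - G.val r.2 with hres
  have hR : 1 ≤ 2 ^ ro := Nat.one_le_two_pow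
  have hval : ∀ (l : ℕ) (hl1 : l < f.length) (hl2 : l < r.1.length),
      G.val (G.sub f[l] (G.mul (G.mul ta (G.sub (dotG r.1 f) r.2)) (G.conj r.1[l]))) =
        ent f l - ((1 / 4 ^ mu : ℝ) : ℂ) * res * (starRingEnd ℂ) (ent r.1 l) := fun l h1 h2 => by
    rw [ent_of_lt h1, ent_of_lt h2]
    simp [hta, hres]
  have hex := kacz_exact n (ent r.1) (fun l => ent f l - f0 l) res
    (∑ l ∈ range n, ent r.1 l * f0 l - G.val r.2) (1 / 4 ^ mu) (1 / 2 ^ d) (by positivity)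
    (by positivity) (by
      rw [hres, val_dotG r.1 f (n := n) (by rw [hl]; exact min_le_left _ _)]
      simp only [mul_sub, sum_sub_distrib]
      ring) (hfit r hr) (by rw [hth'] at hlt; rw [mul_one_div]; exact hlt.le) (by
      rw [one_div, inv_mul_le_iff₀ (by positivity), mul_one]; exact hrow r hr)
  have hpos : (0 : ℝ) ≤ 1 / 4 ^ mu * (1 / 2 ^ d) ^ 2 := by positivity
  have hb : ∑ l ∈ range n, ‖ent f l - f0 l - ((1 / 4 ^ mu : ℝ) : ℂ) * res *
      (starRingEnd ℂ) (ent r.1 l)‖ ^ 2 ≤ (2 ^ mu) ^ 2 := by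
    have := h.le
    rw [← h4]
    linarith
  have hrd := kacz_round n _ (fun l => ent (kstep (2 ^ ro) ta th rows f) l - f0 l) (2 ^ mu)
    (2 / 2 ^ ro) (by positivity) hb fun l hln => by
      have h1 : l < f.length := h.len ▸ hln
      have h2 : l < r.1.length := hl ▸ hln
      have := G.rnd_err hR
        (G.sub f[l] (G.mul (G.mul ta (G.sub (dotG r.1 f) r.2)) (G.conj r.1[l])))
      rw [hval l h1 h2] at this
      push_cast at this
      rw [ent_of_lt (hlen' ▸ hln)]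
      simp only [e, List.getElem_map, List.getElem_zip]
      convert this using 2
      push_cast
      ring
  have hs := round_small hro hn
  refine ⟨hlen', fun z hz => ?_, by linarith [h.le], Or.inr (by push_cast; linarith)⟩
  rw [e] at hz
  obtain ⟨l, hl', rfl⟩ := List.getElem_of_mem hz
  have hln : l < n := by
    rw [List.length_map, List.length_zip, h.len, hl, min_self] at hl'
    exact hl'
  have h1 : l < f.length := h.len ▸ hln
  have h2 : l < r.1.length := hl ▸ hln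
  simp only [List.getElem_map, List.getElem_zip]
  refine (G.hz_rnd (M := 2 * 2 ^ mu) hR ?_).trans ?_
  · rw [hval l h1 h2]
    have a := le_of_sum_sq (by positivity) hln hb
    have b := le_of_sum_sq (by positivity) hln (h4 ▸ hf0)
    have c := norm_add_le (ent f l - f0 l - ((1 / 4 ^ mu : ℝ) : ℂ) * res *
      (starRingEnd ℂ) (ent r.1 l)) (f0 l)
    rw [sub_right_comm, sub_add_cancel] at c
    rw [sub_right_comm] at a
    push_cast at a c ⊢
    linarith
  · have : 1 ≤ 2 ^ mu := Nat.one_le_two_pow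
    rw [pow_add, pow_add]
    nlinarith

theorem KInv.zero : KInv d mu ro n rows f0 0 (List.replicate n (G.int 0)) := by
  have e : ∀ l, ent (List.replicate n (G.int 0)) l = 0 := fun l => by
    by_cases h : l < n
    · rw [ent_of_lt (by simpa using h)]; simp
    · exact ent_of_le (by simpa using h)
  refine ⟨by simp, fun z hz => ?_, by simp [e], Or.inr (by simp [e])⟩
  rw [List.eq_of_mem_replicate hz, G.hz_int]
  exact Nat.one_le_two_pow

/-- The output of the iteration fits all rows, and it is not far from any given solution. -/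
theorem kacz_spec {P : ℕ} (hro : 4 * mu + 2 * d + v + 3 ≤ ro) (hP : 2 ^ ro ≤ P) (hn : n ≤ 2 ^ v)
    (hc : n * (2 * (5 * (mu + ro + 4) + 14) + 1) ≤ P)
    (hlen : ∀ r ∈ rows, r.1.length = n)
    (hrow : ∀ r ∈ rows, ∑ l ∈ range n, ‖ent r.1 l‖ ^ 2 ≤ 4 ^ mu)
    (hfit : ∀ r ∈ rows, ‖∑ l ∈ range n, ent r.1 l * f0 l - G.val r.2‖ ≤ 1 / 2 ^ d)
    (hf0 : ∑ l ∈ range n, ‖f0 l‖ ^ 2 ≤ 4 ^ mu) :
    (kacz P d mu ro n rows).length = n ∧
    (∀ r ∈ rows, ‖∑ l ∈ range n, ent r.1 l * ent (kacz P d mu ro n rows) l - G.val r.2‖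
      ≤ 3 / 2 ^ d) ∧
    ∑ l ∈ range n, ‖ent (kacz P d mu ro n rows) l - f0 l‖ ^ 2 ≤ ∑ l ∈ range n, ‖f0 l‖ ^ 2 ∧
    (∀ l < n, ‖ent (kacz P d mu ro n rows) l - f0 l‖ ≤ 2 ^ mu) ∧
    ∀ z ∈ kacz P d mu ro n rows, G.hz z ≤ 2 ^ (mu + ro + 4) := by
  have hlt : ro < P := Nat.lt_two_pow_self.trans_le hP
  have hnP : n ≤ P := (Nat.le_mul_of_pos_right _ (by omega)).trans hc
  have hta : G.val (G.frac 1 (p2 P (2 * mu))) = 1 / 4 ^ mu := by
    rw [val_p2 (by omega), pow_mul]; norm_num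
  have hth : G.val (G.frac 3 (p2 P d)) = 3 / 2 ^ d := by
    rw [val_p2 (by omega)]; norm_num
  have hp : p2 P ro = 2 ^ ro := by rw [p2, min_eq_left hlt.le]
  have key : ∀ k, KInv d mu ro n rows f0 k ((kstep (2 ^ ro) (G.frac 1 (p2 P (2 * mu)))
      (G.frac 3 (p2 P d)) rows)^[k] (List.replicate n (G.int 0))) := fun k => by
    induction k with
    | zero => exact KInv.zero
    | succ k ih =>
      rw [Function.iterate_succ_apply']
      exact ih.step (by omega) hn hta hth hlen hrow hfit hf0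
  have e : kacz P d mu ro n rows = (kstep (2 ^ ro) (G.frac 1 (p2 P (2 * mu)))
      (G.frac 3 (p2 P d)) rows)^[2 ^ ro] (List.replicate n (G.int 0)) := by
    rw [kacz, hp, min_eq_left hP, min_eq_left hnP]
    refine iterC_eq fun j _ => ?_
    have h := key (j + 1)
    refine (esize_list_le (B := 5 * (mu + ro + 4) + 14)
      fun z hz => G.esize_le_of_hz (h.ht z hz)).trans ?_
    rw [h.len]
    exact hc
  have h := key (2 ^ ro)
  rw [← e] at h
  have h4 : (4 : ℝ) ^ mu = (2 ^ mu) ^ 2 := by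
    rw [← pow_mul, mul_comm, pow_mul]; norm_num
  refine ⟨h.len, fun r hr => ?_, h.le,
    fun l hl => le_of_sum_sq (by positivity) hl (h.le.trans (h4 ▸ hf0)), h.ht⟩
  rcases h.dec with hF | hF
  · have := hF r hr
    rwa [val_dotG _ _ (n := n) (by rw [hlen r hr]; exact min_le_left _ _)] at this
  · exfalso
    have h0 : 0 ≤ ∑ l ∈ range n, ‖ent (kacz P d mu ro n rows) l - f0 l‖ ^ 2 := by positivity
    have h2 : (2 : ℝ) ^ (4 * mu + 2 * d) ≤ 2 ^ ro := pow_le_pow_right₀ (by norm_num) (by omega)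
    rw [pow_add, mul_comm 4, mul_comm 2 d, pow_mul, pow_mul] at h2
    push_cast at hF
    rw [h4] at hF hf0
    have hM : (0 : ℝ) < 2 ^ mu := by positivity
    have hD : (0 : ℝ) < 2 ^ d := by positivity
    generalize (2 : ℝ) ^ mu = M at *
    generalize (2 : ℝ) ^ d = D at *
    have h3 : M ^ 4 * D ^ 2 * (2 * (1 / M ^ 2) * (1 / D) ^ 2) = 2 * M ^ 2 := by field_simp
    have h5 := mul_le_mul_of_nonneg_right h2
      (by positivity : 0 ≤ 2 * (1 / M ^ 2) * (1 / D) ^ 2)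
    have : 0 < M ^ 2 := by positivity
    linarith

end

theorem kacz_ok : KACZ := by
  intro P d mu ro n l rows f hn hro hP hc hf hrows
  have e : (1 / 2 : ℝ) ^ d = 1 / 2 ^ d := by rw [div_pow, one_pow]
  obtain ⟨h1, h2, h3, -, -⟩ := kacz_spec (d := d) (mu := mu) (rows := rows) (f0 := f) (v := l)
    (by omega) hP hn ((Nat.mul_le_mul_left _ (by omega)).trans hc) (fun r hr => (hrows r hr).1)
    (fun r hr => (hrows r hr).2.1) (fun r hr => e ▸ (hrows r hr).2.2) hf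
  refine ⟨h1, h3, fun r hr => ?_⟩
  have a := (hrows r hr).2.2
  have b := h2 r hr
  have c := norm_sub_le (∑ i ∈ range n, G.val (r.1.getD i (G.int 0)) * f i - G.val r.2)
    (∑ i ∈ range n, ent r.1 i * ent (kacz P d mu ro n rows) i - G.val r.2)
  rw [sub_sub_sub_cancel_right] at c
  simp only [mul_sub, sum_sub_distrib]
  rw [e] at a ⊢
  have : (4 : ℝ) * (1 / 2 ^ d) = 1 / 2 ^ d + 3 / 2 ^ d := by ring
  exact c.trans (by linarith)

/-! ### Running time -/

variable {A : Set Word} {α : Type*} [Enc α]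

@[fun_prop] theorem PT_p2 {P k : α → ℕ} (hP : PT A P) (hb : PBd P) (hk : PT A k) :
    PT A (fun a => p2 (P a) (k a)) :=
  PT.pow (PT.const 2) (PT.min hk hP) (PBd_min_right hb)

@[fun_prop] theorem PT_dotG {al f : α → List G} (ha : PT A al) (hf : PT A f) :
    PT A (fun a => dotG (al a) (f a)) :=
  G.PT_sum (PT.map (f := fun _ e => G.mul e.1 e.2) (PT.zip ha hf) (by fun_prop))

@[fun_prop] theorem PT_kstep {R : α → ℕ} {ta th : α → G} {rows : α → List (List G × G)}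
    {f : α → List G} (hR : PT A R) (hta : PT A ta) (hth : PT A th) (hrows : PT A rows)
    (hf : PT A f) : PT A (fun a => kstep (R a) (ta a) (th a) (rows a) (f a)) := by
  unfold kstep
  fun_prop

@[fun_prop] theorem PT_kacz {P d mu ro n : α → ℕ} {rows : α → List (List G × G)} (hP : PT A P)
    (hb : PBd P) (hd : PT A d) (hmu : PT A mu) (hro : PT A ro) (hn : PT A n)
    (hrows : PT A rows) : PT A (fun a => kacz (P a) (d a) (mu a) (ro a) (n a) (rows a)) := by
  have h1 : PT A (fun a => p2 (P a) (ro a)) := PT_p2 hP hb hro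
  have h2 : PT A (fun a => p2 (P a) (2 * mu a)) := PT_p2 hP hb (by fun_prop)
  have h3 : PT A (fun a => p2 (P a) (d a)) := PT_p2 hP hb hd
  exact PT_iterC hP hb (PT.min h1 hP) (PBd_min_right hb)
    (PT_kstep (h1.comp PT.fst') (G.PT_frac (PT.const _) (h2.comp PT.fst'))
      (G.PT_frac (PT.const _) (h3.comp PT.fst')) (hrows.comp PT.fst') PT.snd')
    (PT.replicate (PT.min hn hP) (PBd_min_right hb) (PT.const _))

end Vale.Agent.P321D
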