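import Vale.Agent.P321.H778.Amplify
import Vale.Agent.P321.UB.Stat

/-!
# P321 decoder: one event of probability `2 / 3` which controls all estimators
-/

namespace Vale.Agent.P321D

open Finset Vale.Agent.P321 Vale.Agent.P321.UB Vale.Agent.P321.H778
open scoped unitInterval ENNReal

/-- The empirical mean. -/
noncomputable def avg (ts : List (List Bool)) (Φ : List Bool → ℂ) : ℂ :=
  (ts.map Φ).sum / ts.length

/-- The sum of the sizes of the coefficients of the estimator of a monomial. -/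
noncomputable def nuP (n : ℕ) (r : ℝ) : List Node → ℝ
  | [] => 1
  | v :: Z => (∑ g ∈ range n, ‖(v.1 - 1 + r) / r‖ ^ g) / r * nuP n r Z

/-- The same for a linear combination. -/
noncomputable def nuPL (n : ℕ) (r : ℝ) : Comb → ℝ
  | [] => 0
  | a :: L => ‖a.1‖ * nuP n r a.2 + nuPL n r L

/-- The good event. -/
def GoodE (r : ℝ) (n k : ℕ) (δ : ℝ) (x : List Bool) (ts : List (List Bool)) : Prop :=
  (∀ t ∈ ts, t.length ≤ n) ∧
    ∀ Z : List Node, Z.length ≤ k → ‖avg ts (OP r Z) - O Z x‖ ≤ δ * nuP n r Z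

/-! ### Chebyshev -/

/-- The expectation over one trace and over `m` traces. -/
noncomputable def E1 (q : I) (x : List Bool) (φ : List Bool → ℝ) : ℝ :=
  ∑ u ∈ words x.length, (traceLaw q x u).toReal * φ u

noncomputable def EE (q : I) (x : List Bool) : ℕ → (List (List Bool) → ℝ) → ℝ
  | 0, Ψ => Ψ []
  | m + 1, Ψ => E1 q x fun t => EE q x m fun ts => Ψ (t :: ts)

variable {q : I} {x : List Bool}

theorem law_zero {u : List Bool} (hu : u ∉ words x.length) : traceLaw q x u = 0 :=
  traceLaw_eq_zero_of_length q x u (by rwa [mem_words, not_le] at hu)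

theorem FE_sum (Φ : List Bool → ℂ) :
    FE (1 - q) Φ x = ∑ u ∈ words x.length, ((traceLaw q x u).toReal : ℂ) * Φ u := by
  rw [FE_eq_tsum]
  exact tsum_eq_sum fun u hu => by simp [law_zero hu]

theorem E1_mono {φ ψ : List Bool → ℝ} (h : ∀ u, φ u ≤ ψ u) : E1 q x φ ≤ E1 q x ψ :=
  sum_le_sum fun u _ => mul_le_mul_of_nonneg_left (h u) ENNReal.toReal_nonneg

theorem EE_nonneg (m : ℕ) {Ψ : List (List Bool) → ℝ} (h : ∀ ts, 0 ≤ Ψ ts) : 0 ≤ EE q x m Ψ := by
  induction m generalizing Ψ with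
  | zero => exact h []
  | succ m ih => exact sum_nonneg fun u _ => mul_nonneg ENNReal.toReal_nonneg (ih fun _ => h _)

theorem tsum_EE (m : ℕ) {Ψ : List (List Bool) → ℝ} (h : ∀ ts, 0 ≤ Ψ ts) :
    ∑' ts, tracesLaw q x m ts * ENNReal.ofReal (Ψ ts) = ENNReal.ofReal (EE q x m Ψ) := by
  induction m generalizing Ψ with
  | zero =>
    rw [show tracesLaw q x 0 = PMF.pure [] from rfl, tsum_eq_single [] fun ts hts => by
      rw [PMF.pure_apply, if_neg hts, zero_mul]]
    simp [EE]
  | succ m ih =>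
    have hinj : Function.Injective fun p : List Bool × List (List Bool) => p.1 :: p.2 :=
      fun a b e => Prod.ext (List.cons.inj e).1 (List.cons.inj e).2
    rw [← hinj.tsum_eq, ENNReal.tsum_prod']
    · simp only [tracesLaw_succ_cons, mul_assoc, ENNReal.tsum_mul_left]
      rw [tsum_eq_sum (s := words x.length) fun u hu => by rw [law_zero hu, zero_mul], EE, E1,
        ENNReal.ofReal_sum_of_nonneg fun u _ =>
          mul_nonneg ENNReal.toReal_nonneg (EE_nonneg m fun _ => h _)]
      refine sum_congr rfl fun u _ => ?_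
      rw [ih fun _ => h _, ENNReal.ofReal_mul ENNReal.toReal_nonneg,
        ENNReal.ofReal_toReal ((traceLaw q x).apply_ne_top u)]
    · intro ts hts
      cases ts with
      | nil => exact absurd (mul_eq_zero_of_left (tracesLaw_succ_nil q x m) _) hts
      | cons a b => exact ⟨(a, b), rfl⟩

theorem law_supp {m : ℕ} {ts : List (List Bool)} (h : tracesLaw q x m ts ≠ 0) :
    ts.length = m ∧ ∀ t ∈ ts, t.length ≤ x.length := by
  induction m generalizing ts with
  | zero =>
    rw [show tracesLaw q x 0 = PMF.pure [] from rfl, PMF.pure_apply] at h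
    obtain rfl : ts = [] := by_contra fun k => h (if_neg k)
    simp
  | succ m ih =>
    cases ts with
    | nil => exact absurd (tracesLaw_succ_nil q x m) h
    | cons t ts =>
      rw [tracesLaw_succ_cons, mul_ne_zero_iff] at h
      obtain ⟨h1, h2⟩ := ih h.2
      refine ⟨by simp [h1], List.forall_mem_cons.2 ⟨?_, h2⟩⟩
      exact mem_words.1 (by_contra fun k => h.1 (law_zero k))

theorem E1_sq {φ : List Bool → ℂ} (hφ : ∀ u, ‖φ u‖ ≤ 1) (b : ℂ) :
    E1 q x (fun u => ‖b + (φ u - FE (1 - q) φ x)‖ ^ 2) ≤ ‖b‖ ^ 2 + 4 := by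
  have s1 := sum_words_traceLaw q x.length x le_rfl
  have m1 : ‖FE (1 - q) φ x‖ ≤ 1 :=
    FE_norm_le (by linarith [q.2.2]) (by linarith [q.2.1]) φ x fun u _ => hφ u
  have c0 : ∑ u ∈ words x.length, ((traceLaw q x u).toReal : ℂ) * (φ u - FE (1 - q) φ x) = 0 := by
    simp only [mul_sub, sum_sub_distrib, ← sum_mul]
    rw [← FE_sum, ← Complex.ofReal_sum, s1]
    simp
  have c1 : ∑ u ∈ words x.length, (traceLaw q x u).toReal *
      ((φ u - FE (1 - q) φ x) * (starRingEnd ℂ) b).re = 0 := by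
    have := congrArg (fun z => (z * (starRingEnd ℂ) b).re) c0
    simpa only [sum_mul, Complex.re_sum, mul_assoc, Complex.re_ofReal_mul, zero_mul,
      Complex.zero_re] using this
  refine (E1_mono (ψ := fun u => ‖b‖ ^ 2 + 4 +
    2 * ((φ u - FE (1 - q) φ x) * (starRingEnd ℂ) b).re) fun u => ?_).trans_eq ?_
  · have := pow_le_pow_left₀ (norm_nonneg _) ((norm_sub_le _ _).trans (add_le_add (hφ u) m1)) 2
    rw [add_comm b, Complex.sq_norm, Complex.normSq_add, ← Complex.sq_norm, ← Complex.sq_norm]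
    linarith
  · simp only [E1, mul_add, sum_add_distrib, mul_left_comm _ (2 : ℝ), ← mul_sum, ← sum_mul, s1, c1]
    ring

theorem EE_sq {ι : Type} (S : Finset ι) {φ : ι → List Bool → ℂ} (hφ : ∀ s u, ‖φ s u‖ ≤ 1) (m : ℕ)
    (b : ι → ℂ) :
    EE q x m (fun ts => ∑ s ∈ S, ‖b s + (ts.map fun t => φ s t - FE (1 - q) (φ s) x).sum‖ ^ 2) ≤
      ∑ s ∈ S, ‖b s‖ ^ 2 + 4 * S.card * m := by
  induction m generalizing b with
  | zero => simp [EE]
  | succ m ih =>
    simp only [EE, List.map_cons, List.sum_cons, ← add_assoc]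
    refine (E1_mono fun t => ih _).trans ?_
    have k := sum_le_sum fun s (_ : s ∈ S) => E1_sq (q := q) (x := x) (hφ s) (b s)
    simp only [E1, sum_add_distrib, sum_const, nsmul_eq_mul] at k
    simp only [E1, mul_add, sum_add_distrib, mul_sum, ← sum_mul,
      sum_words_traceLaw q x.length x le_rfl]
    rw [sum_comm]
    push_cast
    linarith

theorem avg_sub {ts : List (List Bool)} (h : ts ≠ []) (Φ : List Bool → ℂ) (a : ℂ) :
    (ts.map fun t => Φ t - a).sum = ts.length * (avg ts Φ - a) := by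
  have : (ts.length : ℂ) ≠ 0 := by simpa using h
  rw [avg, mul_sub, mul_div_cancel₀ _ this]
  clear this h
  induction ts with
  | nil => simp
  | cons t ts ih =>
    simp only [List.map_cons, List.sum_cons, ih, List.length_cons]
    push_cast
    ring

/-- Chebyshev and the union bound. -/
theorem cheb {ι : Type} (S : Finset ι) {φ : ι → List Bool → ℂ} (hφ : ∀ s u, ‖φ s u‖ ≤ 1) {m : ℕ}
    {δ : ℝ} (hδ : 0 < δ) (m0 : 0 < m) (hm : 12 * S.card ≤ m * δ ^ 2) {α : Type}
    (dec : List (List Bool) → α) (a : α)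
    (h : ∀ ts, ts.length = m → (∀ t ∈ ts, t.length ≤ x.length) →
      (∀ s ∈ S, ‖avg ts (φ s) - FE (1 - q) (φ s) x‖ ≤ δ) → dec ts = a) :
    2 / 3 ≤ ((tracesLaw q x m).bind fun ts => PMF.pure (dec ts)) a := by
  classical
  have mδ : 0 < (m * δ) ^ 2 := by positivity
  obtain ⟨Ψ, hΨ⟩ : ∃ Ψ : List (List Bool) → ℝ, ∀ ts, Ψ ts =
      ∑ s ∈ S, ‖0 + (ts.map fun t => φ s t - FE (1 - q) (φ s) x).sum‖ ^ 2 := ⟨_, fun _ => rfl⟩
  have Ψ0 : ∀ ts, 0 ≤ Ψ ts := fun ts => hΨ ts ▸ sum_nonneg fun _ _ => sq_nonneg _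
  have h2 : ∀ ts, tracesLaw q x m ts ≤ tracesLaw q x m ts * PMF.pure (dec ts) a +
      ENNReal.ofReal ((m * δ) ^ 2)⁻¹ * (tracesLaw q x m ts * ENNReal.ofReal (Ψ ts)) := by
    intro ts
    by_cases k0 : tracesLaw q x m ts = 0
    · exact k0 ▸ zero_le
    obtain ⟨l1, l2⟩ := law_supp k0
    by_cases k : a = dec ts
    · rw [PMF.pure_apply, if_pos k, mul_one]
      exact le_self_add
    · obtain ⟨s, hs, k1⟩ : ∃ s ∈ S, δ < ‖avg ts (φ s) - FE (1 - q) (φ s) x‖ := by
        by_contra k2
        exact k (h ts l1 l2 fun s hs => not_lt.1 fun k3 => k2 ⟨s, hs, k3⟩).symm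
      have k2 : (m * δ) ^ 2 ≤ Ψ ts := by
        rw [hΨ]
        refine le_trans ?_ (single_le_sum (fun _ _ => sq_nonneg _) hs)
        rw [zero_add, avg_sub (by rintro rfl; simp at l1; omega), norm_mul, l1, Complex.norm_natCast]
        gcongr
      refine le_trans ?_ le_add_self
      rw [mul_left_comm, ← ENNReal.ofReal_mul (by positivity)]
      exact le_mul_of_one_le_right zero_le (ENNReal.one_le_ofReal.2 (by
        rwa [← div_eq_inv_mul, one_le_div mδ]))
  have h3 := ENNReal.tsum_le_tsum h2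
  rw [PMF.tsum_coe, ENNReal.tsum_add, ENNReal.tsum_mul_left, tsum_EE m Ψ0, ← PMF.bind_apply,
    ← ENNReal.ofReal_mul (by positivity)] at h3
  have h4 : ((m * δ) ^ 2)⁻¹ * EE q x m Ψ ≤ 1 / 3 := by
    have k := EE_sq (q := q) (x := x) S hφ m 0
    rw [← div_eq_inv_mul, div_le_iff₀ mδ, funext hΨ]
    have := mul_le_mul_of_nonneg_right hm (Nat.cast_nonneg (α := ℝ) m)
    simp only [Pi.zero_apply, norm_zero, zero_pow two_ne_zero, sum_const_zero] at k
    linarith
  have h5 : ENNReal.ofReal (1 / 3) = 1 / 3 := by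
    rw [ENNReal.ofReal_div_of_pos (by norm_num)]
    norm_num
  have h7 : (2 / 3 : ℝ≥0∞) + 1 / 3 = 1 := by
    rw [ENNReal.div_add_div_same]
    norm_num
    exact ENNReal.div_self (by norm_num) (by norm_num)
  exact (ENNReal.add_le_add_iff_right (by simp : (1 / 3 : ℝ≥0∞) ≠ ⊤)).1 (h7.trans_le
    (h3.trans (add_le_add le_rfl ((ENNReal.ofReal_le_ofReal h4).trans_eq h5))))

/-! ### The statistics -/

/-- Skip `g` letters and read one. -/
noncomputable def pick (c : Bool) : ℕ → (List Bool → ℂ) → List Bool → ℂ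
  | _, _, [] => 0
  | 0, Φ, b :: u => rd c b * Φ u
  | g + 1, Φ, _ :: u => pick c g Φ u

theorem pick_lin (c : Bool) (g : ℕ) (a : ℂ) (Φ Ψ : List Bool → ℂ) (u : List Bool) :
    pick c g (a • Φ + Ψ) u = a * pick c g Φ u + pick c g Ψ u := by
  induction g generalizing u with
  | zero => cases u <;> simp [pick]; ring
  | succ g ih => cases u <;> simp [pick, ih]

theorem pick_norm (c : Bool) (g : ℕ) {Φ : List Bool → ℂ} {n : ℕ} {B : ℝ} (hB : 0 ≤ B)
    (h : ∀ u, u.length ≤ n → ‖Φ u‖ ≤ B) (u : List Bool) (hu : u.length ≤ n) :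
    ‖pick c g Φ u‖ ≤ B := by
  induction g generalizing u with
  | zero =>
    cases u with
    | nil => simpa [pick] using hB
    | cons b u =>
      rw [pick, norm_mul]
      exact (mul_le_of_le_one_left (norm_nonneg _) (norm_rd_le c b)).trans
        (h u (Nat.le_of_succ_le hu))
  | succ g ih =>
    cases u with
    | nil => simpa [pick] using hB
    | cons b u => exact ih u (Nat.le_of_succ_le hu)

/-- The same as a linear map. -/
noncomputable def pickL (c : Bool) (g : ℕ) : (List Bool → ℂ) →ₗ[ℂ] List Bool → ℂ where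
  toFun := pick c g
  map_add' Φ Ψ := funext fun u => by simpa using pick_lin c g 1 Φ Ψ u
  map_smul' a Φ := funext fun u => by
    have k := pick_norm c g (Φ := 0) (n := u.length) le_rfl (by simp) u le_rfl
    simpa [norm_le_zero_iff.1 k] using pick_lin c g a Φ 0 u

theorem ndP_eq (r : ℝ) (z : ℂ) (c : Bool) (Φ : List Bool → ℂ) {n : ℕ} {u : List Bool}
    (hu : u.length ≤ n) :
    ndP r z c Φ u = ∑ g ∈ range n, ((z - 1 + r) / r) ^ g / r * pick c g Φ u := by
  induction u generalizing n with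
  | nil => simp [ndP, pick]
  | cons b u ih =>
    obtain ⟨n, rfl⟩ : ∃ k, n = k + 1 := ⟨n - 1, by simp at hu; omega⟩
    rw [ndP, sum_range_succ', ih (Nat.le_of_succ_le_succ hu), mul_sum]
    simp only [pick, pow_zero]
    refine congrArg (· + _) (sum_congr rfl fun g _ => by ring)

/-- The indicator statistics. -/
noncomputable def sta : List (ℕ × Bool) → List Bool → ℂ
  | [] => fun _ => 1
  | a :: S => pick a.2 a.1 (sta S)

theorem sta_norm (S : List (ℕ × Bool)) (u : List Bool) : ‖sta S u‖ ≤ 1 := by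
  induction S generalizing u with
  | nil => simp [sta]
  | cons a S ih => exact pick_norm _ _ zero_le_one (fun v _ => ih v) u le_rfl

/-- The finite set of the statistics with at most `k` letters. -/
def St (n : ℕ) : ℕ → Finset (List (ℕ × Bool))
  | 0 => {[]}
  | k + 1 => insert [] (image₂ List.cons (range n ×ˢ univ) (St n k))

theorem nil_St (n k : ℕ) : [] ∈ St n k := by cases k <;> simp [St]

theorem card_St (n k : ℕ) : (St n k).card ≤ (2 * n + 1) ^ k := by
  induction k with
  | zero => simp [St]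
  | succ k ih =>
    have h1 := (card_insert_le [] _).trans (Nat.add_le_add_right
      (card_image₂_le List.cons (range n ×ˢ (univ : Finset Bool)) (St n k)) 1)
    have h2 := Nat.one_le_pow k (2 * n + 1) (by omega)
    simp only [card_product, card_range, card_univ, Fintype.card_bool] at h1
    have h3 := Nat.mul_le_mul_left (n * 2) ih
    rw [St, pow_succ]
    linarith

theorem OP_le {n : ℕ} {r δ : ℝ} (hr : 0 < r) (Z : List Node) {k : ℕ} (hk : Z.length ≤ k)
    (μ : (List Bool → ℂ) →ₗ[ℂ] ℂ) (loc : ∀ Φ, (∀ u : List Bool, u.length ≤ n → Φ u = 0) → μ Φ = 0)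
    (h : ∀ S ∈ St n k, ‖μ (sta S)‖ ≤ δ) : ‖μ (OP r Z)‖ ≤ δ * nuP n r Z := by
  induction Z generalizing k μ with
  | nil => simpa [OP, nuP, sta] using h [] (nil_St n k)
  | cons v Z ih =>
    obtain ⟨k, rfl⟩ : ∃ j, k = j + 1 := ⟨k - 1, by simp at hk; omega⟩
    have e : μ (OP r (v :: Z)) =
        ∑ g ∈ range n, ((v.1 - 1 + r) / r) ^ g / r * (μ ∘ₗ pickL v.2 g) (OP r Z) := by
      simp only [LinearMap.comp_apply, ← smul_eq_mul, ← map_smul, ← map_sum]
      refine sub_eq_zero.1 ((map_sub μ _ _).symm.trans (loc _ fun u hu => ?_))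
      simp only [Pi.sub_apply, Finset.sum_apply, map_smul, Pi.smul_apply, smul_eq_mul]
      exact sub_eq_zero.2 (ndP_eq r v.1 v.2 _ hu)
    rw [e, nuP, sum_div, sum_mul, mul_sum]
    refine (norm_sum_le _ _).trans (sum_le_sum fun g hg => ?_)
    rw [norm_mul, norm_div, norm_pow, norm_ofReal_nonneg hr.le, mul_left_comm]
    refine mul_le_mul_of_nonneg_left (ih (Nat.le_of_succ_le_succ hk) _ (fun Φ hΦ => ?_)
      fun S hS => h ((g, v.2) :: S) (mem_insert_of_mem (mem_image₂_of_mem (by simpa using hg) hS)))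
      (by positivity)
    exact loc _ fun u hu => norm_le_zero_iff.1
      (pick_norm v.2 g le_rfl (fun w hw => (norm_eq_zero.2 (hΦ w hw)).le) u hu)

/-- The error of the empirical mean, as a linear form. -/
noncomputable def errL (r : ℝ) (x : List Bool) (ts : List (List Bool)) :
    (List Bool → ℂ) →ₗ[ℂ] ℂ where
  toFun Φ := avg ts Φ - FE r Φ x
  map_add' Φ Ψ := by
    have k := FE_lin r 1 1 Φ Ψ x
    simp only [one_mul] at k
    rw [show FE r (Φ + Ψ) x = _ from k, avg, avg, avg,
      show (ts.map (Φ + Ψ)).sum = _ from List.sum_map_add]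
    ring
  map_smul' a Φ := by
    have k := FE_lin r a 0 Φ Φ x
    simp only [zero_mul, add_zero] at k
    rw [show FE r (a • Φ) x = _ from k, avg, avg,
      show (ts.map (a • Φ)).sum = _ from List.sum_map_mul_left _ _ _, RingHom.id_apply, smul_eq_mul]
    ring

/-- **The statistics block**: a decoder which is right on the good event succeeds. -/
theorem stat (hq : (q : ℝ) < 1) {n k m : ℕ} (hx : x.length ≤ n) {δ : ℝ} (hδ : 0 < δ)
    (hm : 12 * (2 * (n : ℝ) + 1) ^ k ≤ m * δ ^ 2) {α : Type} (dec : List (List Bool) → α) (a : α)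
    (h : ∀ ts, ts.length = m → GoodE (1 - q) n k δ x ts → dec ts = a) :
    2 / 3 ≤ ((tracesLaw q x m).bind fun ts => PMF.pure (dec ts)) a := by
  have hr : (0 : ℝ) < 1 - q := by linarith
  have m0 : 0 < m := Nat.pos_of_ne_zero fun k => by
    rw [k, Nat.cast_zero, zero_mul] at hm
    exact absurd hm (not_le.2 (by positivity))
  have c : ((St n k).card : ℝ) ≤ (2 * n + 1) ^ k := by exact_mod_cast card_St n k
  refine cheb (St n k) sta_norm hδ m0 (by linarith) dec a fun ts l1 l2 l3 =>
    h ts l1 ⟨fun t ht => (l2 t ht).trans hx, fun Z hZ => ?_⟩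
  rw [← FE_OP hr]
  refine OP_le hr Z hZ (errL (1 - q) x ts) (fun Φ hΦ => ?_) l3
  have e1 : FE (1 - q) Φ x = 0 := norm_le_zero_iff.1 (FE_norm_le hr.le (by linarith [q.2.1]) Φ x
    fun u hu => (norm_eq_zero.2 (hΦ u (hu.trans hx))).le)
  have e2 : (ts.map Φ).sum = 0 := List.sum_eq_zero fun z hz => by
    obtain ⟨t, ht, rfl⟩ := List.mem_map.1 hz
    exact hΦ t ((l2 t ht).trans hx)
  change avg ts Φ - FE (1 - q) Φ x = 0
  rw [avg, e1, e2, zero_div, sub_zero]

theorem reconstructs (hq : (q : ℝ) < 1) {n k m : ℕ} {δ : ℝ} (hδ : 0 < δ)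
    (hm : 12 * (2 * (n : ℝ) + 1) ^ k ≤ m * δ ^ 2) (dec : List (List Bool) → Fin n → Bool)
    (h : ∀ x ts, ts.length = m → GoodE (1 - q) n k δ (List.ofFn x) ts → dec ts = x) :
    Reconstructs q n m fun ts => PMF.pure (dec ts) :=
  fun x => stat hq (by simp) hδ hm dec x (h x)

/-- The good event for linear combinations. -/
theorem GoodE.comb {r δ : ℝ} {n k : ℕ} {ts : List (List Bool)} (h : GoodE r n k δ x ts) (hr : 0 < r)
    {L : Comb} (hL : ∀ a ∈ L, a.2.length ≤ k) :
    ‖avg ts (evP r L) - ev L x‖ ≤ δ * nuPL n r L := by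
  rw [← FE_evP hr]
  change ‖errL r x ts (evP r L)‖ ≤ _
  induction L with
  | nil => exact (norm_eq_zero.2 (map_zero (errL r x ts))).trans_le (mul_zero δ).ge
  | cons a L ih =>
    have k := h.2 a.2 (hL a List.mem_cons_self)
    rw [← FE_OP hr] at k
    rw [show evP r (a :: L) = a.1 • OP r a.2 + evP r L from funext fun u => by simp [evP],
      map_add, map_smul, nuPL, mul_add, mul_left_comm]
    refine (norm_add_le _ _).trans (add_le_add ?_ (ih fun b hb => hL b (List.mem_cons_of_mem _ hb)))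
    rw [norm_smul]
    exact mul_le_mul_of_nonneg_left k (norm_nonneg _)

theorem nuP_nonneg {n : ℕ} {r : ℝ} (hr : 0 < r) (Z : List Node) : 0 ≤ nuP n r Z := by
  induction Z with
  | nil => exact zero_le_one
  | cons v Z ih => exact mul_nonneg (by positivity) ih

/-- The size of the estimator when the powers of the weights on the trace side are bounded. -/
theorem nuP_le {n : ℕ} {r C : ℝ} (hr : 0 < r) (hC : 1 ≤ C) {Z : List Node}
    (h : ∀ v ∈ Z, ‖(v.1 - 1 + r) / r‖ ^ n ≤ C) : nuP n r Z ≤ (C * n / r) ^ Z.length := by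
  induction Z with
  | nil => exact le_rfl
  | cons v Z ih =>
    have k : ∑ g ∈ range n, ‖(v.1 - 1 + r) / r‖ ^ g ≤ C * n := by
      refine (sum_le_card_nsmul _ _ C fun g hg => ?_).trans_eq (by simp [mul_comm])
      rcases le_total ‖(v.1 - 1 + r) / r‖ 1 with k | k
      · exact (pow_le_one₀ (norm_nonneg _) k).trans hC
      · exact (pow_le_pow_right₀ k (mem_range.1 hg).le).trans (h v List.mem_cons_self)
    rw [nuP, List.length_cons, pow_succ']
    exact mul_le_mul (div_le_div_of_nonneg_right k hr.le)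
      (ih fun w hw => h w (List.mem_cons_of_mem _ hw)) (nuP_nonneg hr Z) (by positivity)

end Vale.Agent.P321D
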