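import Vale.Agent.P321D.Par
import Vale.Agent.P321D.Kacz
import Vale.Agent.P321D.Stat

/-!
# P321 decoder: the statistics and the top level
-/

namespace Vale.Agent.P321D.Top

open Complex Finset Vale.Agent.P321 Vale.Agent.P321.UB Vale.Agent.P321.H778
open scoped unitInterval ENNReal

variable {T : ℕ}

/-! ### Weights -/

theorem ang_le (T : ℕ) : ang T ≤ 2 / T := by
  have h := Real.le_tan (Real.arctan_nonneg.2 (by positivity : (0 : ℝ) ≤ 1 / T))
    (Real.arctan_lt_pi_div_two _)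
  rw [Real.tan_arctan] at h
  rw [ang, div_eq_mul_one_div 2]
  linarith

theorem le_ang (hT : 1 ≤ T) : 1 / (T : ℝ) ≤ ang T := by
  have h0 : (1 : ℝ) ≤ T := by exact_mod_cast hT
  have h1 : (0 : ℝ) ≤ 1 / T := by positivity
  have h2 : 1 / (T : ℝ) ≤ 1 := (div_le_one (by linarith)).2 h0
  have h := Real.sin_le (Real.arctan_nonneg.2 h1)
  have h3 : √(1 + (1 / (T : ℝ)) ^ 2) ≤ 2 := Real.sqrt_le_iff.2 ⟨by norm_num, by nlinarith⟩
  have h4 := div_le_div_of_nonneg_left h1 (Real.sqrt_pos.2 (by positivity)) h3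
  rw [Real.sin_arctan] at h
  rw [ang]
  linarith

theorem le_kap (hT : 2 ≤ T) : 1 / (T : ℝ) ≤ kap T := by
  have h0 : (2 : ℝ) ≤ T := by exact_mod_cast hT
  have h2 : 1 / (T : ℝ) ≤ 1 / 2 := one_div_le_one_div_of_le (by norm_num) h0
  have := Real.log_le_sub_one_of_pos (by linarith : 0 < 1 - 1 / (T : ℝ))
  rw [kap]
  linarith

theorem kap_le (hT : 2 ≤ T) : kap T ≤ 2 / T := by
  have h0 : (2 : ℝ) ≤ T := by exact_mod_cast hT
  have h2 : 1 / (T : ℝ) ≤ 1 / 2 := one_div_le_one_div_of_le (by norm_num) h0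
  have h1 : (0 : ℝ) ≤ 1 / T := by positivity
  have h3 := Real.one_sub_inv_le_log_of_pos (by linarith : 0 < 1 - 1 / (T : ℝ))
  have h4 : (1 - 1 / (T : ℝ))⁻¹ ≤ 1 + 2 * (1 / T) := by
    rw [inv_le_iff_one_le_mul₀ (by linarith)]
    nlinarith
  rw [kap, div_eq_mul_one_div 2]
  linarith

theorem wv_add (T : ℕ) (w w' : Wt) : wv T (wadd w w') = wv T w * wv T w' := by
  rw [wv, wv, wv, ← exp_add, wadd]
  push_cast
  ring_nf

theorem wv_zero (T : ℕ) : wv T (0, 0) = 1 := by simp [wv]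

theorem norm_wv (T : ℕ) (w : Wt) : ‖wv T w‖ = Real.exp (-(kap T * w.1)) := by
  rw [wv, norm_exp]
  simp

theorem Gw_nonneg (T : ℕ) (as : List ℤ) (l : ℤ) : 0 ≤ Gw T as l :=
  List.prod_nonneg fun _ h => by
    obtain ⟨a, -, rfl⟩ := List.mem_map.1 h
    positivity

theorem Gw_le (T : ℕ) (as : List ℤ) (l : ℤ) : Gw T as l ≤ 1 := by
  induction as with
  | nil => simp [Gw]
  | cons a as ih => exact mul_le_one₀ (Real.cos_sq_le_one _) (Gw_nonneg T as l) ih

theorem Gw_zero (T : ℕ) (as : List ℤ) : Gw T as 0 = 1 := by simp [Gw]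

theorem wgt_nil (T : ℕ) (m e l : ℤ) : wgt T [] m e l = wv T (m * l, e * l) := by simp [wgt, Gw]

/-! ### Values of tests -/

theorem sev_sM (T : ℕ) (z : Wt) (L : SC) (y : List Bool) :
    sev T (sM z L) y = wv T z * nd (wv T z) false (sev T L) y := by
  induction L with
  | nil => exact ((congrArg _ (nd_zero _ _ y)).trans (mul_zero _)).symm
  | cons a L ih =>
    have k := nd_lin (wv T z) false (wv T a.1) (O (a.2.map fun v => (wv T v.1, v.2))) (sev T L) y
    change wv T (wadd z a.1) * nd (wv T z) false (O (a.2.map fun v => (wv T v.1, v.2))) y +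
      sev T (sM z L) y = wv T z * nd (wv T z) false (fun u => wv T a.1 *
        O (a.2.map fun v => (wv T v.1, v.2)) u + sev T L u) y
    rw [k, ih, wv_add]
    ring

theorem sev_sP (T : ℕ) (z : Wt) (L : SC) (y : List Bool) :
    sev T (sP z L) y = wv T z * nd (wv T z) false (sev T L) y + sev T L y := by
  rw [← sev_sM, sev, sP, toC, List.map_append, ev_append]
  rfl

theorem sfx_cons (b : Bool) {y : List Bool} {i : ℕ} (h : i ≤ y.length) :
    sfx (b :: y) i = sfx y i := by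
  rw [sfx, List.length_cons, Nat.succ_sub h]
  rfl

theorem sfx_self (y : List Bool) : sfx y y.length = y := by simp [sfx]

theorem sfx_len {y : List Bool} {i : ℕ} (h : i ≤ y.length) : (sfx y i).length = i := by
  simp only [sfx, List.length_drop]
  omega

theorem sev_sP_sum (T : ℕ) (z : Wt) (L : SC) (y : List Bool) :
    sev T (sP z L) y = ∑ i ∈ range (y.length + 1), wv T z ^ (y.length - i) * sev T L (sfx y i) := by
  induction y with
  | nil => simp [sev_sP, nd, sfx]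
  | cons b y ih =>
    rw [sev_sP] at ih ⊢
    rw [sum_range_succ, sfx_self, nd_cons, show rd false b = 1 from rfl, one_mul, ih, mul_sum,
      Nat.sub_self, pow_zero, one_mul]
    refine congrArg (· + _) (sum_congr rfl fun i hi => ?_)
    have hi' := Nat.lt_succ_iff.1 (mem_range.1 hi)
    rw [sfx_cons b hi', List.length_cons, Nat.succ_sub hi', pow_succ']
    ring

theorem sev_tau0 (T : ℕ) (y : List Bool) : sev T tau0 y = (y.filter fun c => c).length := by
  change wv T (0, 0) * nd (wv T (0, 0)) true (fun _ => 1) y + 0 = _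
  rw [wv_zero, one_mul, add_zero]
  induction y with
  | nil => simp [nd]
  | cons b y ih => cases b <;> simp [nd_cons, ih, rd]

/-! ### The invariant of the top tests -/

variable {P n a b m : ℕ} {π : Par}

theorem inv_sP {c1 c2 mm s k u len : ℕ} {L : SC} {z : Wt} (hs : 1 ≤ s) (hmm : mm ≤ T)
    (h : Inv T c1 c2 mm s k u len L) (hz : Adm1 T c1 c2 mm z) :
    Inv T c1 c2 mm s (k + 1) (u + 1) (2 * len) (sP z L) := by
  obtain ⟨z0, z1, z2, z3⟩ := hz
  refine ⟨by have := h.1; simp [sP, sM]; omega, fun c hc => ?_⟩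
  rw [add_mul, one_mul]
  rcases List.mem_append.1 hc with k | k
  · obtain ⟨d, hd, rfl⟩ := List.mem_map.1 k
    obtain ⟨d0, d1, d2, d3, d4⟩ := h.2 d hd
    refine ⟨by simpa using d0, by simp only [wadd]; omega, by simp only [wadd]; omega,
      by simp only [wadd]; omega, List.forall_mem_cons.2 ⟨⟨z0, z1.trans ?_, z2.trans ?_,
        z3.trans ?_⟩, d4⟩⟩
    · exact_mod_cast Nat.le_mul_of_pos_left mm hs
    · exact Nat.le_mul_of_pos_left T hs
    · rw [mul_assoc]
      exact le_mul_of_one_le_left (by positivity) (by exact_mod_cast hs)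
  · obtain ⟨d0, d1, d2, d3, d4⟩ := h.2 c k
    exact ⟨by omega, d1, by omega, by omega, d4⟩

theorem freq (h : Good n a b m π) {c : Qy} (hc : QInv π a b π.J c) :
    c.2.natAbs ≤ 4 * (π.N (π.J - 1) * π.a (π.J - 1)) :=
  (hc.2.2 rfl).trans (h.u_le (by have := h.J_pos; omega))

theorem inv_top (h : Good n a b m π) {c : Qy} (hc : QInv π a b π.J c) :
    Inv π.1 (π.c1 a) (π.c2 a b) (π.mm a b) (4 ^ π.J) (3 * 4 ^ π.J - 2 + 1) (16 ^ (π.J + 1) + 1)
      (2 * 2 ^ 16 ^ (π.J + 1)) (topC π c) := by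
  have hJ := h.J_pos
  have e : π.J - 1 + 1 = π.J := by omega
  have k := freq h hc
  exact inv_sP (Nat.one_le_pow _ _ (by norm_num)) h.mm_le hc.1
    (h.adm (j := π.J - 1) (by omega) (by rw [e]; omega) (by rw [e]) (by simp only [Int.natAbs_neg]; omega))

theorem big (h : Good n a b m π) : ((2 * 2 ^ 16 ^ (π.J + 1) : ℕ) : ℝ) *
    (((n : ℝ) + 1) * b / ((b : ℝ) - a)) ^ (3 * 4 ^ π.J - 2 + 1) ≤ 2 ^ π.D π.J := by
  have ab : (a : ℝ) < b := by exact_mod_cast h.a_lt
  have d0 := h.D_zero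
  have d1 := h.D_eq le_rfl
  have hJ := h.J_pos
  have p1 : (b : ℝ) ≤ (b - a) * π.D 0 := by
    have := h.D_p
    rw [← Nat.cast_sub h.a_lt.le]
    exact_mod_cast this
  have p2 : (n : ℝ) + 1 ≤ 2 ^ Nat.size n := by exact_mod_cast Nat.lt_size_self n
  have p3 : (π.D 0 : ℝ) ≤ 2 ^ π.D 0 := by exact_mod_cast Nat.lt_two_pow_self.le
  have p4 : ((n : ℝ) + 1) * b / ((b : ℝ) - a) ≤ 2 ^ (Nat.size n + π.D 0) := by
    rw [mul_div_assoc, pow_add]
    exact mul_le_mul p2 (((div_le_iff₀' (by linarith)).2 p1).trans p3)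
      (div_nonneg (by positivity) (by linarith)) (by positivity)
  have q1 : 16 ^ (π.J + 1) * 16 ≤ π.D 0 :=
    (pow_succ 16 _).ge.trans ((Nat.le_mul_of_pos_right _ (by omega)).trans d0)
  have q2 : Nat.size n ≤ π.D 0 :=
    (Nat.le_succ _).trans ((Nat.le_mul_of_pos_left _ (by positivity)).trans d0)
  have q3 : 8 * 4 ^ π.J ≤ 2 ^ (40 * π.J) := by
    rw [show 8 * 4 ^ π.J = 2 ^ (3 + 2 * π.J) by rw [pow_add, pow_mul]; norm_num]
    exact Nat.pow_le_pow_right (by norm_num) (by omega)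
  have q4 := Nat.mul_le_mul_right (π.D 0) q3
  have q5 : 1 ≤ 4 ^ π.J := Nat.one_le_pow _ _ (by norm_num)
  have q6 := Nat.mul_le_mul (show Nat.size n + π.D 0 ≤ 2 * π.D 0 by omega)
    (show 3 * 4 ^ π.J - 2 + 1 ≤ 3 * 4 ^ π.J by omega)
  have q7 := Nat.mul_le_mul_right (π.D 0) q5
  have q8 : 1 ≤ 16 ^ (π.J + 1) := Nat.one_le_pow _ _ (by norm_num)
  refine (mul_le_mul_of_nonneg_left (pow_le_pow_left₀
    (div_nonneg (by positivity) (by linarith)) p4 _) (by positivity)).trans ?_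
  push_cast
  rw [← pow_mul, ← pow_succ', ← pow_add]
  exact pow_le_pow_right₀ one_le_two (by linarith)

/-- **STAT.** -/
theorem stat_ok (hQ : QS) (hN : NORM) : STAT := by
  classical
  intro P n a b m π q x h hP hq hx
  obtain ⟨hl, hi⟩ := (hQ P n a b m π h hP).2.2 π.J le_rfl
  have b0 : (0 : ℝ) < b := by exact_mod_cast h.b_pos
  have ab : (a : ℝ) < b := by exact_mod_cast h.a_lt
  have hr : (0 : ℝ) < 1 - q := by rw [hq, sub_pos, div_lt_one b0]; exact ab
  obtain ⟨D, hD⟩ : ∃ D, D = π.D π.J := ⟨_, rfl⟩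
  have D2 : 4096 ≤ D := hD ▸ (Nat.le_mul_of_pos_right _ (by omega)).trans (h.D_ge' le_rfl)
  have bd := fun c hc y hy => (((hN _ _ _ _ _ _ _ _ n _ h.T_two h.mm_le (inv_top h (hi c hc))).2.2
    a b (4 ^ π.J) h.a_lt le_rfl rfl rfl h.mm_damp y hy).trans (big h))
  rw [← hq, ← hD] at bd
  have hm : (2 : ℝ) ^ ((π.J + 10) * D) ≤ m := by exact_mod_cast hD ▸ h.budget
  have m0 : 0 < m := by exact_mod_cast (by positivity : (0 : ℝ) < _).trans_le hm
  have c1 : ((qs P π π.J).toFinset.card : ℝ) ≤ 2 ^ ((π.J + 1) * D) := by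
    exact_mod_cast hD ▸ (List.toFinset_card_le _).trans hl
  refine (cheb (q := q) (x := x) (qs P π π.J).toFinset (φ := fun c u =>
    if c ∈ qs P π π.J ∧ u.length ≤ n then sevP π.1 (1 - q) (topC π c) u / 2 ^ D else 0)
    (fun c u => ?_) (δ := (1 / 2) ^ (3 * D + 1)) (by positivity) m0 ?_
    (fun ts => ts ∈ {ts | ts.length = m ∧ (∀ t ∈ ts, t.length ≤ n) ∧ Close P π a b x ts}) True
    fun ts l1 l2 l3 => eq_true ⟨l1, hx ▸ l2, fun c hc => ?_⟩).trans ?_
  · split_ifs with k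
    · rw [norm_div, norm_pow, Complex.norm_ofNat, div_le_one (by positivity)]
      exact bd c k.1 u k.2
    · simp
  · have e : (2 : ℝ) ^ ((π.J + 10) * D) * ((1 / 2) ^ (3 * D + 1)) ^ 2 =
        2 ^ (3 * D - 2) * 2 ^ ((π.J + 1) * D) := by
      rw [← pow_mul, one_div, inv_pow, ← div_eq_mul_inv, div_eq_iff (by positivity), ← pow_add,
        ← pow_add]
      congr 1
      have : (π.J + 10) * D = (π.J + 1) * D + 9 * D := by ring
      omega
    have e2 : (2 : ℝ) ^ 4 ≤ 2 ^ (3 * D - 2) := pow_le_pow_right₀ one_le_two (by omega)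
    refine le_trans ?_ (mul_le_mul_of_nonneg_right hm (by positivity))
    rw [e]
    exact mul_le_mul (by linarith) c1 (by positivity) (by positivity)
  · have k := l3 c (List.mem_toFinset.2 hc)
    have e1 : avg ts (fun u => if c ∈ qs P π π.J ∧ u.length ≤ n then
        sevP π.1 (1 - q) (topC π c) u / 2 ^ D else 0) =
        avg ts (sevP π.1 (1 - q) (topC π c)) / 2 ^ D := by
      rw [avg, avg, div_right_comm, List.map_congr_left fun t ht => if_pos ⟨hc, hx ▸ l2 t ht⟩]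
      simp only [div_eq_mul_inv, List.sum_map_mul_right]
    have e2 : FE (1 - q) (fun u => if c ∈ qs P π π.J ∧ u.length ≤ n then
        sevP π.1 (1 - q) (topC π c) u / 2 ^ D else 0) x = sev π.1 (topC π c) x / 2 ^ D := by
      rw [sev, ← FE_evP hr, FE_sum, FE_sum, sum_div]
      refine sum_congr rfl fun u hu => ?_
      rw [if_pos ⟨hc, hx ▸ mem_words.1 hu⟩, mul_div_assoc]
      rfl
    rw [e1, e2, ← sub_div, norm_div, norm_pow, Complex.norm_ofNat, div_le_iff₀ (by positivity)] at k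
    rw [← hq, ← hD]
    refine k.trans_eq ?_
    rw [show 3 * D + 1 = 2 * D + 1 + D by ring, pow_add, mul_assoc, ← mul_pow]
    simp
  · rw [PMF.bind_apply, PMF.toOuterMeasure_apply]
    refine ENNReal.tsum_le_tsum fun ts => ?_
    rw [PMF.pure_apply]
    split_ifs with k
    · rw [mul_one, Set.indicator_of_mem (of_eq_true k.symm)]
    · simp

/-- **TOP.** -/
theorem top_ok (hE : EVAL) (hW : WIN) (hP' : PAST) : TOP := by
  intro P n a b m π x i1 ts c h hP hx i0 i2 t0 tl hc H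
  have R := h.room hP
  have hJ := h.J_pos
  have q5 : 1 ≤ 4 ^ π.J := Nat.one_le_pow _ _ (by norm_num)
  have q8 : 1 ≤ 16 ^ (π.J + 1) := Nat.one_le_pow _ _ (by norm_num)
  have rT := h.r_T le_rfl
  have fT : c.2.natAbs ≤ π.1 := by
    have := freq h hc
    have := h.Na_le (j := π.J - 1) (by omega)
    omega
  have e1 := (hE P π.1 n b _ _ _ _ _ _ _ _ _ _ R h.mm_le (inv_top h hc) le_rfl (by omega)
    (by rw [pow_succ 16 (π.J + 1)]; omega)).2 a h.a_lt ts t0 tl
  have e2 := hP' P π.1 n b _ _ _ _ _ π.J [] (-(4 * (π.r π.J : ℤ))) x i1 c R le_rfl h.mm_le hc.1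
    (by simp) (by omega) fT hx i0 i2
  have l1 : (sfx x (i1 - 1)).length + 1 = i1 := by rw [sfx_len (by omega)]; omega
  have pT : ∀ e : ℤ, e.natAbs ≤ π.1 → (e * ((n - i1 : ℕ) : ℤ)).natAbs ≤ P := fun e he => by
    rw [Int.natAbs_mul, Int.natAbs_natCast]
    exact (Nat.mul_le_mul he (by omega)).trans R.Tn_le
  have e3 := hW.1 P π.1 [] (-(4 * (π.r π.J : ℤ))) c.2 ((n - i1 : ℕ) : ℤ) h.T_two (by simp)
    (pT _ (by omega)) (pT _ fT)
  have e4 : wgt π.1 [] (-(4 * (π.r π.J : ℤ))) c.2 ((n - i1 : ℕ) : ℤ) * sev π.1 (topC π c) x =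
      Past π.1 [] (-(4 * (π.r π.J : ℤ))) x i1 c + TT P π π.J x i1 c := by
    have k : ∀ i ≤ n, wgt π.1 [] (-(4 * (π.r π.J : ℤ))) c.2 ((n - i1 : ℕ) : ℤ) *
        wv π.1 (((4 * π.r π.J : ℕ) : ℤ), -c.2) ^ (n - i) =
        wgt π.1 [] (-(4 * (π.r π.J : ℤ))) c.2 ((i : ℤ) - i1) := fun i hi => by
      simp only [wgt_nil, wv]
      rw [← exp_nat_mul, ← exp_add]
      push_cast [hi, i2]
      ring_nf
    rw [topC, sev_sP_sum, TT, Tf, h.angs_top hP, hx, min_eq_right ((Nat.sub_le _ _).trans h.W_top),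
      mul_sum, sum_congr rfl fun i hi => by
        rw [← mul_assoc, k i (Nat.lt_succ_iff.1 (mem_range.1 hi)), mul_comm],
      show n + 1 = i1 + (n - i1 + 1) by omega, sum_range_add, Past]
    simp
  have n1 : ‖wgt π.1 [] (-(4 * (π.r π.J : ℤ))) c.2 ((n - i1 : ℕ) : ℤ)‖ ≤ 2 ^ π.D π.J := by
    have T0 : (0 : ℝ) < π.1 := by exact_mod_cast (by have := h.T_two; omega : 0 < π.1)
    have k1 := h.rW (π.J - 1) (by omega)
    have k2 := h.D_succ (π.J - 1) (by omega)
    rw [show π.J - 1 + 1 = π.J by omega] at k1 k2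
    have k3 : ((4 * π.r π.J * (n - i1) : ℕ) : ℝ) ≤ π.1 * π.D (π.J - 1) := by
      exact_mod_cast (Nat.mul_le_mul_left _ ((Nat.sub_le _ _).trans h.W_top)).trans k1
    have k4 := mul_le_mul (kap_le h.T_two) k3 (by positivity) (by positivity)
    rw [← mul_assoc, div_mul_cancel₀ _ T0.ne'] at k4
    have k5 : (4 * π.D (π.J - 1) : ℝ) ≤ π.D π.J := by exact_mod_cast (by omega)
    rw [wgt_nil, norm_wv, ← Real.exp_log two_pos, ← Real.exp_nat_mul, Real.exp_le_exp]
    push_cast at k4 ⊢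
    nlinarith [Real.log_two_gt_d9]
  have DP : π.D π.J + 2 ≤ P := h.le_P hP (by have := h.D_ge' le_rfl; nlinarith)
  have key : ∀ z : G, ‖G.val z - TT P π π.J x i1 c‖ ≤ 2 ^ π.D π.J * (1 / 2) ^ (2 * π.D π.J + 1) →
      ‖G.val (G.rnd (p2 P (π.D π.J + 2)) z) - TT P π π.J x i1 c‖ ≤ (1 / 2) ^ π.D π.J := by
    intro z hz
    refine (norm_sub_le_norm_sub_add_norm_sub _ (G.val z) _).trans
      ((add_le_add (G.rnd_err (p2_eq DP ▸ Nat.one_le_two_pow) z) hz).trans_eq ?_)
    rw [p2_eq DP, two_mul, add_assoc, pow_add (1 / 2 : ℝ), ← mul_assoc, ← mul_pow]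
    simp only [one_div, inv_pow, pow_succ]
    push_cast
    field_simp
    ring
  refine key _ ?_
  rw [G.val_sub, G.val_mul, l1, e1, e2, e3, sub_sub, ← e4, ← mul_sub, norm_mul]
  exact mul_le_mul n1 H (norm_nonneg _) (by positivity)

end Vale.Agent.P321D.Top
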