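import Vale.Agent.P321D.Qs
import Vale.Agent.P321D.Top

/-!
# P321 decoder: the levels together
-/

namespace Vale.Agent.P321D

open Vale.Agent.Lib.PolyTime Vale.Agent.P315.H155 Finset

variable {P n a b m : ℕ} {π : Par}

theorem look_spec {Q : List Qy} {V : List G} {F : Qy → ℂ} {ε : ℝ} (hl : V.length = Q.length)
    (h : ∀ e ∈ Q.zip V, ‖G.val e.2 - F e.1‖ ≤ ε) {c : Qy} (hc : c ∈ Q) :
    ‖G.val (look (Q.zip V) c) - F c‖ ≤ ε := by
  have hex : ((Q.zip V).find? fun e => decide (e.1 = c)).isSome := by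
    rw [List.find?_isSome]
    obtain ⟨i, hi, rfl⟩ := List.getElem_of_mem hc
    refine ⟨(Q[i], V[i]'(by omega)), ?_, by simp⟩
    have h1 : i < (Q.zip V).length := by rw [List.length_zip]; omega
    have h2 := List.getElem_mem h1
    rwa [List.getElem_zip] at h2
  obtain ⟨e, he⟩ := Option.isSome_iff_exists.1 hex
  have h1 := List.find?_some he
  have h2 := h e (List.mem_of_find?_eq_some he)
  unfold look
  rw [he]
  rw [decide_eq_true_eq] at h1
  rw [← h1]
  exact h2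

theorem zip_map_spec {Q : List Qy} {f : Qy → G} {e : Qy × G} (h : e ∈ Q.zip (Q.map f)) :
    e.1 ∈ Q ∧ e.2 = f e.1 := by
  rw [List.zip_map_right] at h
  obtain ⟨p, hp, rfl⟩ := List.mem_map.1 h
  have h1 := List.of_mem_zip hp
  have h2 : p.1 = p.2 := by
    rw [List.zip_eq_zipWith, List.zipWith_self] at hp
    obtain ⟨y, _, rfl⟩ := List.mem_map.1 hp
    rfl
  exact ⟨h1.1, by simp [h2]⟩

theorem esize_rnd {R ro k : ℕ} (hR : 1 ≤ R) (hR' : R ≤ 2 ^ ro) {z : G} {w : ℂ}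
    (h1 : ‖G.val (G.rnd R z) - w‖ ≤ 1) (h2 : ‖w‖ ≤ 2 ^ k) :
    esize (G.rnd R z) ≤ 5 * (k + 4 + ro) + 14 := by
  have h3 := G.rnd_err hR z
  have hR1 : (1 : ℝ) ≤ R := by exact_mod_cast hR
  have h4 : (2 : ℝ) / R ≤ 2 := div_le_self (by norm_num) hR1
  have h5 : ‖G.val z‖ ≤ ((2 ^ k + 3 : ℕ) : ℝ) := by
    have e : G.val z = (G.val (G.rnd R z) - w) + w - (G.val (G.rnd R z) - G.val z) := by ring
    rw [e]
    have k1 := norm_sub_le ((G.val (G.rnd R z) - w) + w) (G.val (G.rnd R z) - G.val z)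
    have k2 := norm_add_le (G.val (G.rnd R z) - w) w
    push_cast
    linarith
  apply G.esize_le_of_hz
  refine (G.hz_rnd hR h5).trans ?_
  rw [pow_add]
  apply Nat.mul_le_mul _ hR'
  have : 1 ≤ 2 ^ k := Nat.one_le_two_pow
  rw [pow_add]
  omega

theorem Good.sev_le (h : Good n a b m π) {j : ℕ} (hj : j ≤ π.J) {c : Qy} (hc : QInv π a b j c)
    {y : List Bool} (hy : y.length ≤ n) : ‖sev π.1 c.1 y‖ ≤ 2 ^ π.D π.J := by
  have h1 := (norm_ok _ _ _ _ _ _ _ _ n c.1 h.T_two h.mm_le hc.1).2.1 y hy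
  refine h1.trans ?_
  have h2 : 2 ^ 16 ^ (j + 1) * (n + 1) ^ (3 * 4 ^ j - 2) ≤ 2 ^ π.D π.J := by
    have g0 : n + 1 ≤ 2 ^ Nat.size n := Nat.lt_size_self n
    have g1 : 16 ^ (j + 1) ≤ 16 ^ (π.J + 1) := Nat.pow_le_pow_right (by norm_num) (by omega)
    have g4 : 4 ^ j ≤ 16 ^ j := Nat.pow_le_pow_left (by norm_num) _
    have g5 : 16 ^ (j + 1) = 16 * 16 ^ j := by ring
    have g6 := h.D_ge (le_refl π.J)
    have g7 : Nat.size n * (3 * 4 ^ j - 2) ≤ Nat.size n * 16 ^ (π.J + 1) :=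
      Nat.mul_le_mul_left _ (by omega)
    have g8 : 16 ^ (π.J + 2) * (Nat.size n + 1) =
      16 * (Nat.size n * 16 ^ (π.J + 1)) + 16 * 16 ^ (π.J + 1) := by ring
    calc 2 ^ 16 ^ (j + 1) * (n + 1) ^ (3 * 4 ^ j - 2)
        ≤ 2 ^ 16 ^ (j + 1) * (2 ^ Nat.size n) ^ (3 * 4 ^ j - 2) :=
          Nat.mul_le_mul_left _ (Nat.pow_le_pow_left g0 _)
      _ = 2 ^ (16 ^ (j + 1) + Nat.size n * (3 * 4 ^ j - 2)) := by rw [← pow_mul, ← pow_add]
      _ ≤ _ := Nat.pow_le_pow_right (by norm_num) (by omega)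
  exact_mod_cast h2

theorem Good.TT_le (h : Good n a b m π) (hP : m * (Nat.size b + 1) ≤ P) {j : ℕ} (hj : j ≤ π.J)
    {c : Qy} (hc : QInv π a b j c) {x : List Bool} (hx : x.length = n) (i1 : ℕ) :
    ‖TT P π j x i1 c‖ ≤ 2 ^ (5 * π.D π.J) := by
  have hT : (0 : ℝ) < π.1 := by have := h.T_two; positivity
  have hrW : 4 * π.r j * π.W j ≤ π.1 * π.D π.J := by
    rcases j with _ | j
    · rw [h.r_zero]; simp
    · exact (h.rW j hj).trans (Nat.mul_le_mul_left _ (h.D_mono (by omega) le_rfl))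
  have hw : ∀ l ∈ range (min (π.W j) (x.length - i1) + 1),
      ‖sev π.1 c.1 (sfx x (i1 + l)) * wgt π.1 (angs P π j) (-(4 * (π.r j : ℤ))) c.2 l‖ ≤
        2 ^ π.D π.J * 2 ^ (3 * π.D π.J) := by
    intro l hl
    rw [mem_range] at hl
    rw [norm_mul]
    apply mul_le_mul (h.sev_le hj hc ((length_sfx_le _ _).trans hx.le)) _ (norm_nonneg _)
      (by positivity)
    unfold wgt
    rw [norm_mul, Complex.norm_real, Real.norm_eq_abs, abs_of_nonneg (Top.Gw_nonneg _ _ _),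
      norm_wv]
    have k1 : -(kap π.1 * ((-(4 * (π.r j : ℤ)) * (l : ℤ) : ℤ) : ℝ)) ≤ 2 * π.D π.J := by
      have k2 : ((4 * π.r j * l : ℕ) : ℝ) ≤ ((π.1 * π.D π.J : ℕ) : ℝ) := by
        exact_mod_cast (Nat.mul_le_mul_left _ (show l ≤ π.W j by omega)).trans hrW
      push_cast at k2 ⊢
      have k3 := Top.kap_le h.T_two
      calc -(kap π.1 * (-(4 * (π.r j : ℝ)) * l)) = kap π.1 * (4 * π.r j * l) := by ring
        _ ≤ 2 / π.1 * (π.1 * π.D π.J) :=
          mul_le_mul k3 k2 (by positivity) (by positivity)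
        _ = _ := by field_simp
    calc Gw π.1 (angs P π j) l * Real.exp (-(kap π.1 * ((-(4 * (π.r j : ℤ)) * (l : ℤ) : ℤ) : ℝ)))
        ≤ 1 * Real.exp (2 * π.D π.J) :=
          mul_le_mul (Top.Gw_le _ _ _) (Real.exp_le_exp.2 k1) (Real.exp_pos _).le zero_le_one
      _ = Real.exp 2 ^ π.D π.J := by rw [one_mul, ← Real.exp_nat_mul, mul_comm]
      _ ≤ (2 ^ 3) ^ π.D π.J := by
          apply pow_le_pow_left₀ (Real.exp_pos _).le
          have k4 : Real.exp 2 = Real.exp 1 * Real.exp 1 := by rw [← Real.exp_add]; norm_num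
          have k5 := Real.exp_one_lt_d9
          have k6 := Real.exp_pos 1
          nlinarith
      _ = _ := by rw [← pow_mul]
  have hn : ((min (π.W j) (x.length - i1) + 1 : ℕ) : ℝ) ≤ 2 ^ π.D π.J := by
    have := (h.room hP).n_lt
    exact_mod_cast (show min (π.W j) (x.length - i1) + 1 ≤ 2 ^ π.D π.J by omega)
  unfold TT Tf
  calc _ ≤ ∑ l ∈ range (min (π.W j) (x.length - i1) + 1), (2 : ℝ) ^ π.D π.J * 2 ^ (3 * π.D π.J) :=
        (norm_sum_le _ _).trans (sum_le_sum hw)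
    _ ≤ 2 ^ π.D π.J * (2 ^ π.D π.J * 2 ^ (3 * π.D π.J)) := by
        rw [sum_const, card_range, nsmul_eq_mul]
        exact mul_le_mul_of_nonneg_right hn (by positivity)
    _ = _ := by rw [← pow_add, ← pow_add]; congr 1; omega

theorem Good.esize_vals (h : Good n a b m π) (hP : m * (Nat.size b + 1) ≤ P) {j : ℕ}
    (hj : j ≤ π.J) {V : List G} (hl : V.length ≤ 2 ^ ((j + 1) * π.D π.J))
    (hV : ∀ z ∈ V, esize z ≤ 5 * (5 * π.D π.J + 4 + (π.D π.J + 2)) + 14) : esize V ≤ P := by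
  have hD := h.D_ge' (le_refl π.J)
  refine (esize_list_le hV).trans ?_
  have h1 : 2 * (5 * (5 * π.D π.J + 4 + (π.D π.J + 2)) + 14) + 1 ≤ 2 ^ (2 * π.D π.J) := by
    have h2 : π.D π.J < 2 ^ π.D π.J := Nat.lt_two_pow_self
    calc _ ≤ π.D π.J * π.D π.J := by nlinarith
      _ ≤ 2 ^ π.D π.J * 2 ^ π.D π.J := Nat.mul_le_mul h2.le h2.le
      _ = _ := by rw [← pow_add, two_mul]
  calc _ ≤ 2 ^ ((j + 1) * π.D π.J) * 2 ^ (2 * π.D π.J) := Nat.mul_le_mul hl h1
    _ ≤ P := by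
      rw [← pow_add, ← add_mul]
      exact h.pow_le hP (Nat.mul_le_mul_right _ (by omega))

theorem half_pow_le (k : ℕ) : ((1 : ℝ) / 2) ^ k ≤ 1 := pow_le_one₀ (by norm_num) (by norm_num)

theorem tab0_spec (hQ : QS) (hS : STEP) (hT : TOP) (h : Good n a b m π)
    (hP : m * (Nat.size b + 1) ≤ P) {x : List Bool} (hx : x.length = n) {ts : List (List Bool)}
    (hts : ts ≠ []) (hts' : ∀ t ∈ ts, t.length ≤ n) (hcl : Close P π a b x ts) {i1 : ℕ}
    (h1 : 1 ≤ i1) (h2 : i1 ≤ n) :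
    (tab0 P π a b n ts (sfx x (i1 - 1))).length = (qs0 P π).length ∧
    ∀ e ∈ (qs0 P π).zip (tab0 P π a b n ts (sfx x (i1 - 1))),
      ‖G.val e.2 - TT P π 0 x i1 e.1‖ ≤ (1 / 2) ^ π.D 0 := by
  obtain ⟨q0, q1, q2⟩ := hQ P n a b m π h hP
  set y := sfx x (i1 - 1) with hy
  set R : ℕ → List G := fun i => Nat.rec (motive := fun _ => List G)
    ((qs P π π.J).map (topG P π a b n ts y))
    (fun i V => (qs P π (π.J - 1 - i)).map
      (stepG P π (π.J - 1 - i) n y ((qs P π (π.J - i)).zip V))) i with hR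
  have hs : ∀ i, R (i + 1) = (qs P π (π.J - 1 - i)).map
      (stepG P π (π.J - 1 - i) n y ((qs P π (π.J - i)).zip (R i))) := fun i => rfl
  have hD : 1 ≤ π.D π.J := by have := h.D_ge' (le_refl π.J); omega
  have hDP : ∀ k, k ≤ π.D π.J + 2 → k ≤ P := fun k hk =>
    h.le_P hP (by nlinarith)
  have hinv : ∀ i ≤ π.J, ((R i).length = (qs P π (π.J - i)).length ∧
      ∀ e ∈ (qs P π (π.J - i)).zip (R i),
        ‖G.val e.2 - TT P π (π.J - i) x i1 e.1‖ ≤ (1 / 2) ^ π.D (π.J - i)) ∧ esize (R i) ≤ P := by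
    intro i
    induction i with
    | zero =>
      intro _
      have e0 : R 0 = (qs P π π.J).map (topG P π a b n ts y) := rfl
      have k : ∀ c ∈ qs P π π.J,
          ‖G.val (topG P π a b n ts y c) - TT P π π.J x i1 c‖ ≤ (1 / 2) ^ π.D π.J := fun c hc =>
        hT P n a b m π x i1 ts c h hP hx h1 h2 hts hts' ((q2 _ le_rfl).2 c hc) (hcl c hc)
      rw [e0, Nat.sub_zero]
      refine ⟨⟨List.length_map _, fun e he => ?_⟩, h.esize_vals hP le_rfl ?_ fun z hz => ?_⟩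
      · obtain ⟨k1, k2⟩ := zip_map_spec he
        rw [k2]
        exact k _ k1
      · rw [List.length_map]
        exact (q2 _ le_rfl).1
      · obtain ⟨c, hc, rfl⟩ := List.mem_map.1 hz
        exact esize_rnd (by unfold p2; exact Nat.one_le_two_pow) (p2_eq (hDP _ le_rfl)).le
          ((k c hc).trans (half_pow_le _)) (h.TT_le hP le_rfl ((q2 _ le_rfl).2 c hc) hx i1)
    | succ i ih =>
      intro hi
      obtain ⟨⟨i1', i2⟩, -⟩ := ih (by omega)
      have e1 : π.J - (i + 1) = π.J - 1 - i := by omega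
      have e2 : π.J - i = π.J - 1 - i + 1 := by omega
      rw [hs, e1]
      set j := π.J - 1 - i with hj
      have hjJ : j < π.J := by omega
      rw [e2] at i1' i2 ⊢
      have k : ∀ c ∈ qs P π j, ‖G.val (stepG P π j n y ((qs P π (j + 1)).zip (R i)) c) -
          TT P π j x i1 c‖ ≤ (1 / 2) ^ π.D j := fun c hc =>
        hS P n a b m π j x i1 _ c h hP hjJ hx h1 h2 ((q2 _ hjJ.le).2 c hc) fun c' hc' =>
          look_spec (F := TT P π (j + 1) x i1) i1' i2
            (by rw [q1 j hjJ]; exact List.mem_flatMap.2 ⟨c, hc, hc'⟩)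
      refine ⟨⟨List.length_map _, fun e he => ?_⟩, h.esize_vals hP hjJ.le ?_ fun z hz => ?_⟩
      · obtain ⟨k1, k2⟩ := zip_map_spec he
        rw [k2]
        exact k _ k1
      · rw [List.length_map]
        exact (q2 _ hjJ.le).1
      · obtain ⟨c, hc, rfl⟩ := List.mem_map.1 hz
        have k3 := h.D_mono (show j + 1 ≤ π.J from hjJ) le_rfl
        exact esize_rnd (by unfold p2; exact Nat.one_le_two_pow)
          ((p2_eq (hDP _ (by omega))).le.trans (Nat.pow_le_pow_right (by norm_num) (by omega)))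
          ((k c hc).trans (half_pow_le _)) (h.TT_le hP hjJ.le ((q2 _ hjJ.le).2 c hc) hx i1)
  have heq : tab0 P π a b n ts y = R π.J := by
    have hJP : π.J ≤ P := h.le_P hP (le_trans (by omega) (Nat.le_mul_of_pos_right (π.J + 10) hD))
    unfold tab0
    rw [min_eq_left hJP]
    exact natRecC_eq fun i hi => (hinv (i + 1) hi).2
  have := (hinv π.J le_rfl).1
  rw [Nat.sub_self, q0] at this
  rw [heq]
  exact this

theorem core_ok (hQ : QS) (hS : STEP) (hT : TOP) (hB : BASE) : CORE := by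
  intro P n a b m π x ts h hP hx hts hts' hcl
  have key : ∀ i ≤ n, (fun y => bitOf P π n y (tab0 P π a b n ts y) :: y)^[i] [] = sfx x i := by
    intro i
    induction i with
    | zero => intro _; rw [sfx_zero]; rfl
    | succ i ih =>
      intro hi
      rw [Function.iterate_succ_apply', ih (by omega)]
      obtain ⟨k1, k2⟩ := tab0_spec hQ hS hT h hP hx hts hts' hcl (i1 := i + 1) (by omega) hi
      exact hB P n a b m π x (i + 1) _ h hP hx (by omega) hi k1 k2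
  have hr := h.room hP
  have h1 := hr.Tn_le
  have h2 := h.Na_le h.J_pos
  have h3 := h.a_pos' h.J_pos
  have h4 : 0 < π.N 0 := by
    rw [h.N_eq 0 h.J_pos]
    have := h.D_ge' (Nat.zero_le π.J)
    omega
  have h5 : 3 * (n + 1) ≤ P :=
    le_trans (Nat.mul_le_mul_right _ (by have := Nat.mul_pos h4 h3; omega)) h1
  unfold core
  rw [min_eq_left (by omega), iterC_eq, key n le_rfl, ← hx, sfx_length]
  intro i hi
  rw [key (i + 1) hi]
  refine (esize_list_le (B := 1) fun z _ => (esize_bool z).le).trans ?_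
  have := length_sfx_le x (i + 1)
  omega

end Vale.Agent.P321D
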