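import Vale.Agent.P321D.G
import Vale.Agent.P321.H778.Amplify
import Vale.Agent.P321.Defs

/-!
# P321 decoder: the program and its semantics
-/

namespace Vale.Agent.P321D

open Complex Finset Vale.Agent.Lib.PolyTime Vale.Agent.P315.H155

/-! ## Symbolic tests -/

/-- A node: weight and whether the bit is read. -/
abbrev SNode : Type := Wt × Bool
/-- A monomial: coefficient and nodes. -/
abbrev SMon : Type := Wt × List SNode
/-- A combination of monomials. -/
abbrev SC : Type := List SMon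
/-- A query: a test and a frequency. -/
abbrev Qy : Type := SC × ℤ

/-- The combination of complex monomials. -/
noncomputable def toC (T : ℕ) (L : SC) : P321.H778.Comb :=
  L.map fun a => (wv T a.1, a.2.map fun v => (wv T v.1, v.2))

/-- The value of a test on a string. -/
noncomputable def sev (T : ℕ) (L : SC) (y : List Bool) : ℂ := P321.H778.ev (toC T L) y

/-- The unbiased estimator of a test (retention probability `p`). -/
noncomputable def sevP (T : ℕ) (p : ℝ) (L : SC) (u : List Bool) : ℂ :=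
  P321.H778.evP p (toC T L) u

/-- Product of weights. -/
def wadd (w w' : Wt) : Wt := (w.1 + w'.1, w.2 + w'.2)
/-- Conjugate weight. -/
def wcj (w : Wt) : Wt := (w.1, -w.2)
/-- The test `1`. -/
def cone : SC := [((0, 0), [])]
/-- The number of ones. -/
def tau0 : SC := [((0, 0), [((0, 0), true)])]
/-- The conjugate test. -/
def cj (L : SC) : SC := L.map fun a => (wcj a.1, a.2.map fun v => (wcj v.1, v.2))
/-- `z S_z τ`. -/
def sM (z : Wt) (L : SC) : SC := L.map fun a => (wadd z a.1, (z, false) :: a.2)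
/-- `z S_z τ + τ`. -/
def sP (z : Wt) (L : SC) : SC := sM z L ++ L

/-- Partial products: coefficient, finished nodes, remaining nodes of the two factors. -/
abbrev Ent : Type := Wt × List SNode × List SNode × List SNode

/-- One step of the product rule. -/
def expand (e : Ent) : List Ent :=
  if e.2.2.1.isEmpty || e.2.2.2.isEmpty then [e] else
    [(wadd e.1 (e.2.2.1.headD ((0, 0), false)).1,
        e.2.1 ++ [(wadd (e.2.2.1.headD ((0, 0), false)).1 (e.2.2.2.headD ((0, 0), false)).1,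
          (e.2.2.2.headD ((0, 0), false)).2)], e.2.2.1, e.2.2.2.tail),
      (wadd e.1 (e.2.2.2.headD ((0, 0), false)).1,
        e.2.1 ++ [(wadd (e.2.2.1.headD ((0, 0), false)).1 (e.2.2.2.headD ((0, 0), false)).1,
          (e.2.2.1.headD ((0, 0), false)).2)], e.2.2.1.tail, e.2.2.2),
      (e.1, e.2.1 ++ [(wadd (e.2.2.1.headD ((0, 0), false)).1 (e.2.2.2.headD ((0, 0), false)).1,
          (e.2.2.1.headD ((0, 0), false)).2 || (e.2.2.2.headD ((0, 0), false)).2)],
        e.2.2.1.tail, e.2.2.2.tail)]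

/-- Product of two monomials. -/
def mulMon (P : ℕ) (a a' : SMon) : SC :=
  (iterC P (a.2.length + a'.2.length) (fun S : List Ent => S.flatMap expand)
    [(wadd a.1 a'.1, [], a.2, a'.2)]).map fun e => (e.1, e.2.1 ++ (e.2.2.1 ++ e.2.2.2))

/-- Product of two tests. -/
def mulC (P : ℕ) (L L' : SC) : SC := L.flatMap fun a => L'.flatMap fun a' => mulMon P a a'

/-- Product of four tests. -/
def mul4 (P : ℕ) (A B C D : SC) : SC := mulC P (mulC P A B) (mulC P C D)

/-- The invariant of tests: at most `len` monomials with at most `k` nodes; exponents of the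
coefficients at most `u T`; nodes are products of at most `s` admissible weights. -/
def Inv (T c1 c2 mm s k u len : ℕ) (L : SC) : Prop :=
  L.length ≤ len ∧ ∀ a ∈ L, a.2.length ≤ k ∧ 0 ≤ a.1.1 ∧ a.1.1 ≤ (u * T : ℕ) ∧
    a.1.2.natAbs ≤ u * T ∧ ∀ v ∈ a.2, 0 ≤ v.1.1 ∧ v.1.1 ≤ (s * mm : ℕ) ∧ v.1.2.natAbs ≤ s * T ∧
      (c1 : ℤ) * v.1.2 ^ 2 ≤ s * c2 * v.1.1

/-- The invariant at level `j`. -/
def CInv (T c1 c2 mm j : ℕ) (L : SC) : Prop :=
  Inv T c1 c2 mm (4 ^ j) (3 * 4 ^ j - 2) (16 ^ (j + 1)) (2 ^ 16 ^ (j + 1)) L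

/-- An admissible weight. -/
def Adm1 (T c1 c2 mm : ℕ) (z : Wt) : Prop :=
  0 ≤ z.1 ∧ z.1 ≤ (mm : ℕ) ∧ z.2.natAbs ≤ T ∧ (c1 : ℤ) * z.2 ^ 2 ≤ c2 * z.1

/-! ## Evaluation of tests -/

/-- One node on all suffixes of `y` (`vals.getD i` is the value on the suffix of length `i`). -/
def ndG (P : ℕ) (w c : G) (r : Bool) (y : List Bool) (vals : List G) : List G :=
  (List.range (y.length + 1)).map fun i => G.sum ((List.range i).map fun l =>
    if r && !(y.reverse.getD l false) then G.int 0 else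
      G.mul (G.mul (G.pow P w (i - 1 - l)) c) (vals.getD l (G.int 0)))

/-- A monomial (nodes with the weights already evaluated) on all suffixes of `y`. -/
def monG (P : ℕ) (c : G) (Z : List (G × Bool)) (y : List Bool) : List G :=
  foldlC P (fun vals v => ndG P v.1 c v.2 y vals) (List.replicate (y.length + 1) (G.int 1))
    Z.reverse

/-- The values of a test on all suffixes of `y`. -/
def evL (P T : ℕ) (L : SC) (y : List Bool) : List G :=
  (List.range (y.length + 1)).map fun i => G.sum (L.map fun a => G.mul (pw P T a.1)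
    ((monG P (G.int 1) (a.2.map fun v => (pw P T v.1, v.2)) y).getD i (G.int 0)))

/-- The estimator on one trace, `q = a / b`. -/
def estOne (P T a b : ℕ) (L : SC) (u : List Bool) : G :=
  G.sum (L.map fun c => G.mul (pw P T c.1)
    ((monG P (G.frac b (b - a))
      (c.2.map fun v => (G.mul (G.sub (pw P T v.1) (G.frac a b)) (G.frac b (b - a)), v.2))
      u).getD u.length (G.int 0)))

/-- The empirical mean of the estimator. -/
def est (P T a b : ℕ) (L : SC) (ts : List (List Bool)) : G :=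
  G.mul (G.sum (ts.map fun u => estOne P T a b L u)) (G.frac 1 ts.length)

/-! ## Windows -/

/-- The window `∏ cos² (a h l / 2)`. -/
noncomputable def Gw (T : ℕ) (as : List ℤ) (l : ℤ) : ℝ :=
  (as.map fun a => Real.cos (ang T * a * l / 2) ^ 2).prod

/-- The weight `G(l) ρ ^ (m l) ζ ^ (e l)`. -/
noncomputable def wgt (T : ℕ) (as : List ℤ) (m e l : ℤ) : ℂ :=
  (Gw T as l : ℂ) * wv T (m * l, e * l)

/-- The program for `wgt`. -/
def wgtG (P T : ℕ) (as : List ℤ) (m e l : ℤ) : G :=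
  G.mul (G.prod (as.map fun a => G.mul (G.add (G.add (pw P T (0, a * l)) (pw P T (0, -(a * l))))
    (G.int 2)) (G.frac 1 4))) (pw P T (m * l, e * l))

/-- The exponents of the expansion of the window. -/
def exL (P : ℕ) (as : List ℤ) : List ℤ :=
  foldlC P (fun E a => E.flatMap fun e => [e + a, e, e, e - a]) [0] as

/-! ## Semantics of the oracles -/

/-- The suffix of length `i`. -/
def sfx (x : List Bool) (i : ℕ) : List Bool := x.drop (x.length - i)

/-- The functional of a level: `∑_{l ≤ min W (n - i1)} F(i1 + l) G(l) ρ ^ (-4 r l) ζ ^ (b l)`. -/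
noncomputable def Tf (T : ℕ) (as : List ℤ) (r W : ℕ) (x : List Bool) (i1 : ℕ) (c : Qy) : ℂ :=
  ∑ l ∈ range (min W (x.length - i1) + 1),
    sev T c.1 (sfx x (i1 + l)) * wgt T as (-(4 * (r : ℤ))) c.2 l

/-- The windowed sums, past included. -/
noncomputable def UU (T : ℕ) (as : List ℤ) (r W : ℕ) (x : List Bool) (i1 : ℕ) (c : Qy) : ℂ :=
  ∑ i ∈ range (i1 + min W (x.length - i1) + 1),
    sev T c.1 (sfx x i) * wgt T as (-(r : ℤ)) c.2 ((i : ℤ) - i1)

/-- The past: `∑_{i < i1} F(i) G(i - i1) ρ ^ (m (i - i1)) ζ ^ (e (i - i1))`. -/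
noncomputable def Past (T : ℕ) (as : List ℤ) (m : ℤ) (x : List Bool) (i1 : ℕ) (c : Qy) : ℂ :=
  ∑ i ∈ range i1, sev T c.1 (sfx x i) * wgt T as m c.2 ((i : ℤ) - i1)

/-- The program for the past; `y` is the known suffix, `i1 = y.length + 1`. -/
def pastG (P T : ℕ) (as : List ℤ) (m : ℤ) (y : List Bool) (c : Qy) : G :=
  G.sum ((List.range (y.length + 1)).map fun i => G.mul ((evL P T c.1 y).getD i (G.int 0))
    (wgtG P T as m c.2 ((i : ℤ) - ((y.length + 1 : ℕ) : ℤ))))

/-! ## Products -/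

/-- Four factors. -/
abbrev Pat : Type := Qy × Qy × Qy × Qy

/-- The node for the factor `c` and the exponent `a`. -/
def nz (r : ℕ) (c : Qy) (a : ℤ) : Wt := ((r : ℤ), -(a + c.2))

/-- The derived query. -/
def child (P r : ℕ) (p : Pat) (a a' a'' : ℤ) : Qy :=
  ((mul4 P p.1.1 (sM (nz r p.2.1 a) p.2.1.1) (sM (nz r p.2.2.1 a') p.2.2.1.1)
      (sM (nz r p.2.2.2 a'') p.2.2.2.1) ++
    mul4 P (sP (nz r p.1 a) p.1.1) p.2.1.1 (sM (nz r p.2.2.1 a') p.2.2.1.1)
      (sM (nz r p.2.2.2 a'') p.2.2.2.1)) ++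
    (mul4 P (sP (nz r p.1 a) p.1.1) (sP (nz r p.2.1 a') p.2.1.1) p.2.2.1.1
      (sM (nz r p.2.2.2 a'') p.2.2.2.1) ++
    mul4 P (sP (nz r p.1 a) p.1.1) (sP (nz r p.2.1 a') p.2.1.1) (sP (nz r p.2.2.1 a'') p.2.2.1.1)
      p.2.2.2.1),
   p.1.2 + p.2.1.2 + p.2.2.1.2 + p.2.2.2.2 + (a + a' + a''))

/-- All derived queries of a pattern. -/
def kids (P r : ℕ) (as : List ℤ) (p : Pat) : List Qy :=
  (exL P as).flatMap fun a => (exL P as).flatMap fun a' => (exL P as).map fun a'' =>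
    child P r p a a' a''

/-- Lookup in a table. -/
def look (tb : List (Qy × G)) (c : Qy) : G :=
  ((tb.find? fun e => decide (e.1 = c)).map fun e => e.2).getD (G.int 0)

/-- The product of the four windowed sums, from the table of the next level. -/
def prodG (P T r : ℕ) (as : List ℤ) (y : List Bool) (tb : List (Qy × G)) (p : Pat) : G :=
  G.add (G.mul (G.mul (pastG P T as (-(r : ℤ)) y p.1) (pastG P T as (-(r : ℤ)) y p.2.1))
      (G.mul (pastG P T as (-(r : ℤ)) y p.2.2.1) (pastG P T as (-(r : ℤ)) y p.2.2.2)))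
    (G.mul (G.sum ((kids P r as p).map fun c => look tb c)) (G.frac 1 (kids P r as p).length))

/-- `V(x) conj V(x)`. -/
def patP (u : ℕ) (L : SC) (x : ℕ) : Pat :=
  ((L, ((u * x : ℕ) : ℤ)), (cj L, -((u * x : ℕ) : ℤ)), (cone, 0), (cone, 0))

/-- `V(x' + t + 1) conj V(x') conj V(x + t) V(x)`. -/
def patQ (u : ℕ) (L : SC) (x' x t : ℕ) : Pat :=
  ((L, ((u * (x' + t + 1) : ℕ) : ℤ)), (cj L, -((u * x' : ℕ) : ℤ)),
    (cj L, -((u * (x + t) : ℕ) : ℤ)), (L, ((u * x : ℕ) : ℤ)))

/-- `V(x + t) conj V(x) conj V(t)`. -/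
def patT (u : ℕ) (L : SC) (x t : ℕ) : Pat :=
  ((L, ((u * (x + t) : ℕ) : ℤ)), (cj L, -((u * x : ℕ) : ℤ)), (cj L, -((u * t : ℕ) : ℤ)), (cone, 0))

/-- All patterns. -/
def pats (P u X : ℕ) (L : SC) : List Pat :=
  ((rng P (X + 1)).map fun x => patP u L x) ++
  (((rng P (X + 1)).flatMap fun x' => (rng P (X + 1)).flatMap fun x => (rng P (X + 1)).map fun t =>
      patQ u L x' x t) ++
    ((rng P (X + 1)).flatMap fun x => (rng P (X + 1)).map fun t => patT u L x t))

/-! ## Phase retrieval -/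

/-- `2 ^ k`, cut at `P`. -/
def p2 (P k : ℕ) : ℕ := 2 ^ min k P

/-- The pivot for the lag `t`. -/
def piv (P X : ℕ) (good : ℕ → Bool) (t : ℕ) : ℕ :=
  ((rng P (X + 1 - t)).find? fun x => good x && good (x + t)).getD 0

/-- The approximation of `V(piv t + t) conj V(piv t)`. -/
def lagY (P R X : ℕ) (good : ℕ → Bool) (p : ℕ → G) (q : ℕ → ℕ → ℕ → G) (t : ℕ) : G :=
  natRecC P (min t P)
    (fun s Y => G.rnd R (G.div (q (piv P X good (s + 1)) (piv P X good s) s) (G.conj Y)))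
    (G.rnd R (p (piv P X good 0)))

/-- Values of `V` on at least a tenth of `0, …, X`. -/
def march (P R X : ℕ) (th : G) (p : ℕ → G) (q : ℕ → ℕ → ℕ → G) (tr : ℕ → ℕ → G) :
    List (ℕ × G) :=
  if X ≤ 10 * ((rng P (X + 1)).filter fun x => !G.nle th (p x)).length then
    ((rng P (X + 1)).filter fun x => !G.nle th (p x)).map fun x => (x, G.int 0)
  else (rng P (X / 2 + 1)).map fun t =>
    (t, G.conj (G.div (tr (piv P X (fun x => G.nle th (p x)) t) t)
      (lagY P R X (fun x => G.nle th (p x)) p q t)))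

/-! ## Kaczmarz iteration -/

/-- Bilinear product. -/
def dotG (al f : List G) : G := G.sum ((al.zip f).map fun e => G.mul e.1 e.2)

/-- One step. -/
def kstep (R : ℕ) (ta th : G) (rows : List (List G × G)) (f : List G) : List G :=
  (rows.find? fun ro => !G.nle (G.sub (dotG ro.1 f) ro.2) th).elim f fun ro =>
    (f.zip ro.1).map fun e =>
      G.rnd R (G.sub e.1 (G.mul (G.mul ta (G.sub (dotG ro.1 f) ro.2)) (G.conj e.2)))

/-- The iteration: tolerance `3 / 2 ^ d`, step `1 / 4 ^ μ`, mesh `1 / 2 ^ ro`, `2 ^ ro` steps. -/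
def kacz (P d mu ro n1 : ℕ) (rows : List (List G × G)) : List G :=
  iterC P (min (p2 P ro) P)
    (kstep (p2 P ro) (G.frac 1 (p2 P (2 * mu))) (G.frac 3 (p2 P d)) rows)
    (List.replicate (min n1 P) (G.int 0))

/-! ## Parameters -/

/-- The numbers of a level: `a, N, W, r, u, X, D`. -/
abbrev Lv : Type := ℕ × ℕ × ℕ × ℕ × ℕ × ℕ × ℕ
/-- `T` and the levels `0, …, J`. -/
abbrev Par : Type := ℕ × List Lv

/-- The level `j`. -/
def Par.lv (π : Par) (j : ℕ) : Lv := π.2.getD j (0, 0, 0, 0, 0, 0, 0)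
/-- The frequency of the window. -/
def Par.a (π : Par) (j : ℕ) : ℕ := (π.lv j).1
/-- The power of the window. -/
def Par.N (π : Par) (j : ℕ) : ℕ := (π.lv j).2.1
/-- The cutoff. -/
def Par.W (π : Par) (j : ℕ) : ℕ := (π.lv j).2.2.1
/-- The damping. -/
def Par.r (π : Par) (j : ℕ) : ℕ := (π.lv j).2.2.2.1
/-- The step of the frequencies. -/
def Par.u (π : Par) (j : ℕ) : ℕ := (π.lv j).2.2.2.2.1
/-- The number of frequencies. -/
def Par.X (π : Par) (j : ℕ) : ℕ := (π.lv j).2.2.2.2.2.1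
/-- The accuracy. -/
def Par.D (π : Par) (j : ℕ) : ℕ := (π.lv j).2.2.2.2.2.2
/-- The top level. -/
def Par.J (π : Par) : ℕ := π.2.length - 1

/-- The angles of the window of level `j`. -/
def angs (P : ℕ) (π : Par) (j : ℕ) : List ℤ :=
  (π.2.drop j).flatMap fun v => List.replicate (min v.2.1 P) (v.1 : ℤ)

/-- The conditions on the parameters; `q = a / b`, `m` traces. -/
structure Good (n a b m : ℕ) (π : Par) : Prop where
  a_pos : 0 < a
  a_lt : a < b
  n_pos : 1 ≤ n
  J_pos : 1 ≤ π.J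
  r_zero : π.r 0 = 0
  N_top : π.N π.J = 0
  W_top : n ≤ π.W π.J
  D_succ : ∀ j < π.J, π.D (j + 1) = 2 ^ 40 * π.D j
  N_eq : ∀ j < π.J, π.N j = 2 ^ 19 * π.D j
  aW : ∀ j < π.J, 64 * π.a j * π.W j = π.1
  uX : ∀ j < π.J, π.u j * π.X j = 8 * π.N j * π.a j
  uT : ∀ j < π.J, π.u j * 2 ^ (2 ^ 37 * π.D j) = π.1
  NW : ∀ j < π.J, π.N j ≤ π.W j
  WW : ∀ j < π.J, π.W j ≤ π.W (j + 1)
  rW : ∀ j < π.J, 4 * π.r (j + 1) * π.W (j + 1) ≤ π.1 * π.D j
  reg : ∀ j < π.J, 6 * a * 4 ^ π.J * (25 * π.N j * π.a j) ^ 2 ≤ (b - a) * π.1 * π.r (j + 1)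
  damp : ∀ j < π.J, 16 * 4 ^ π.J * π.r (j + 1) * b ≤ (b - a) * π.1
  band : ∀ j < π.J, 2 * (π.N (j + 1) * π.a (j + 1)) ≤ π.N j * π.a j
  step : ∀ j, j + 1 < π.J → π.u j ≤ π.N (j + 1) * π.a (j + 1)
  X_pos : ∀ j < π.J, 2 ≤ π.X j
  X_even : 2 ∣ π.X 0
  D_zero : 16 ^ (π.J + 2) * (Nat.size n + 1) ≤ π.D 0
  D_p : b ≤ (b - a) * π.D 0
  base : 112 * π.W 0 * (3 * Nat.size n + 2) ≤ (π.D 0 - 3) * π.N 0
  T_two : 2 ≤ π.1
  T_le : π.1 ≤ 2 ^ π.D π.J
  budget : 2 ^ ((π.J + 10) * π.D π.J) ≤ m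

/-! ## The levels -/

/-- The queries of level `0`. -/
def qs0 (P : ℕ) (π : Par) : List Qy :=
  (rng P (π.X 0 / 2 + 1)).map fun x => (tau0, ((π.u 0 * x : ℕ) : ℤ))

/-- The queries of level `j + 1` below a query of level `j`. -/
def children (P : ℕ) (π : Par) (j : ℕ) (c : Qy) : List Qy :=
  (pats P (π.u j) (π.X j) c.1).flatMap fun p => kids P (π.r (j + 1)) (angs P π (j + 1)) p

/-- The queries of level `j`. -/
def qs (P : ℕ) (π : Par) (j : ℕ) : List Qy :=
  natRecC P (min j P) (fun i Q => Q.flatMap (children P π i)) (qs0 P π)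

/-- The statistic behind a query of the top level. -/
def topC (π : Par) (c : Qy) : SC := sP (((4 * π.r π.J : ℕ) : ℤ), -c.2) c.1

/-- The oracle of the top level. -/
def topG (P : ℕ) (π : Par) (a b n : ℕ) (ts : List (List Bool)) (y : List Bool) (c : Qy) : G :=
  G.rnd (p2 P (π.D π.J + 2))
    (G.sub (G.mul (wgtG P π.1 [] (-(4 * (π.r π.J : ℤ))) c.2 ((n - (y.length + 1) : ℕ) : ℤ))
        (est P π.1 a b (topC π c) ts))
      (pastG P π.1 [] (-(4 * (π.r π.J : ℤ))) y c))

/-- The row of weights `l = 0, …, min W (n - i1)`. -/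
def rowG (P T : ℕ) (as : List ℤ) (m e : ℤ) (W n : ℕ) (y : List Bool) : List G :=
  (rng P (min W (n - (y.length + 1)) + 1)).map fun l => wgtG P T as m e (l : ℤ)

/-- The windowed sum of the test `1` at frequency `0`. -/
def oneG (P : ℕ) (π : Par) (j n : ℕ) (y : List Bool) : G :=
  G.add (pastG P π.1 (angs P π (j + 1)) (-(π.r (j + 1) : ℤ)) y (cone, 0))
    (G.sum (rowG P π.1 (angs P π (j + 1)) (-(π.r (j + 1) : ℤ)) 0 (π.W (j + 1)) n y))

/-- The values of the windowed sums of the test `L`. -/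
def marchG (P : ℕ) (π : Par) (j n : ℕ) (y : List Bool) (tb : List (Qy × G)) (L : SC) :
    List (ℕ × G) :=
  march P (p2 P (π.D (j + 1))) (π.X j) (G.frac 2 (p2 P (2 * (2 ^ 36 * π.D j + 1))))
    (fun x => G.div (prodG P π.1 (π.r (j + 1)) (angs P π (j + 1)) y tb (patP (π.u j) L x))
      (G.mul (oneG P π j n y) (oneG P π j n y)))
    (fun x' x t => prodG P π.1 (π.r (j + 1)) (angs P π (j + 1)) y tb (patQ (π.u j) L x' x t))
    (fun x t => G.div (prodG P π.1 (π.r (j + 1)) (angs P π (j + 1)) y tb (patT (π.u j) L x t))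
      (oneG P π j n y))

/-- The oracle of level `j` from the table of level `j + 1`. -/
def stepG (P : ℕ) (π : Par) (j n : ℕ) (y : List Bool) (tb : List (Qy × G)) (c : Qy) : G :=
  G.rnd (p2 P (π.D (j + 1)))
    (dotG (rowG P π.1 (angs P π j) (-(4 * (π.r j : ℤ))) c.2 (π.W j) n y)
      (kacz P (2 ^ 36 * π.D j) (2 * π.D j) (π.D (j + 1))
        (min (π.W (j + 1)) (n - (y.length + 1)) + 1)
        ((marchG P π j n y tb c.1).map fun e =>
          (rowG P π.1 (angs P π (j + 1)) (-(π.r (j + 1) : ℤ)) ((π.u j * e.1 : ℕ) : ℤ)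
            (π.W (j + 1)) n y,
           G.sub e.2 (pastG P π.1 (angs P π (j + 1)) (-(π.r (j + 1) : ℤ)) y
            (c.1, ((π.u j * e.1 : ℕ) : ℤ)))))))

/-- The values of level `0`. -/
def tab0 (P : ℕ) (π : Par) (a b n : ℕ) (ts : List (List Bool)) (y : List Bool) : List G :=
  natRecC P (min π.J P)
    (fun i V => (qs P π (π.J - 1 - i)).map
      (stepG P π (π.J - 1 - i) n y ((qs P π (π.J - i)).zip V)))
    ((qs P π π.J).map (topG P π a b n ts y))

/-- The next bit from the values of level `0`. -/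
def bitOf (P : ℕ) (π : Par) (n : ℕ) (y : List Bool) (V : List G) : Bool :=
  G.nle (G.frac 1 2)
    (G.sub ((kacz P (π.D 0) (2 * π.D 0) (π.D 1) (min (π.W 0) (n - (y.length + 1)) + 1)
        (((qs0 P π).zip V).map fun e =>
          (rowG P π.1 (angs P π 0) 0 e.1.2 (π.W 0) n y, e.2))).headD (G.int 0))
      (G.int (y.filter fun c => c).length))

/-- The decoder for given parameters. -/
def core (P : ℕ) (π : Par) (a b n : ℕ) (ts : List (List Bool)) : List Bool :=
  iterC P (min n P) (fun y => bitOf P π n y (tab0 P π a b n ts y) :: y) []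

/-- The bound used for all cuts. -/
def pad (b : ℕ) (ts : List (List Bool)) : ℕ := (ts.length + 1) * (Nat.size b + 1)

/-- All statistics are close to their means. -/
def Close (P : ℕ) (π : Par) (a b : ℕ) (x : List Bool) (ts : List (List Bool)) : Prop :=
  ∀ c ∈ qs P π π.J, ‖(ts.map fun u => sevP π.1 (1 - (a : ℝ) / b) (topC π c) u).sum / ts.length -
    sev π.1 (topC π c) x‖ ≤ (1 / 2) ^ (2 * π.D π.J + 1)

end Vale.Agent.P321D
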