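import Vale.Agent.P321D.Win
import Vale.Agent.P321D.Kacz

/-!
# P321 decoder: the programs for values of tests, estimators and the past
-/

namespace Vale.Agent.P321D

open Complex Finset Vale.Agent.Lib.PolyTime Vale.Agent.P315.H155 Vale.Agent.P321.H778

/-- A node with an additional factor. -/
noncomputable def gd (w c : ℂ) (r : Bool) (τ : List Bool → ℂ) : List Bool → ℂ
  | [] => 0
  | b :: u => w * gd w c r τ u + c * (rd r b * τ u)

/-- A monomial with an additional factor at every node. -/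
noncomputable def GO (c : ℂ) : List Node → List Bool → ℂ
  | [] => fun _ => 1
  | v :: Z => gd v.1 c v.2 (GO c Z)

theorem GO_one (Z : List Node) : GO 1 Z = O Z := by
  induction Z with
  | nil => rfl
  | cons v Z ih =>
    funext y
    rw [GO, O, ih]
    induction y with
    | nil => rfl
    | cons b y ih => rw [gd, nd, ih, one_mul]

theorem GO_OP (r : ℝ) (Z : List Node) :
    GO (1 / (r : ℂ)) (Z.map fun v => ((v.1 - 1 + r) / r, v.2)) = OP r Z := by
  induction Z with
  | nil => rfl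
  | cons v Z ih =>
    funext y
    rw [List.map_cons, GO, OP, ih]
    induction y with
    | nil => rfl
    | cons b y ih => rw [gd, ndP, ih]

theorem gd_sfx (w c : ℂ) (r : Bool) (τ : List Bool → ℂ) (y : List Bool) {i : ℕ}
    (h : i ≤ y.length) : gd w c r τ (sfx y i) =
      ∑ l ∈ range i, w ^ (i - 1 - l) * c * (rd r (y.reverse.getD l false) * τ (sfx y l)) := by
  induction i with
  | zero => simp [sfx_zero, gd]
  | succ i ih =>
    rw [sfx_succ h, gd, sum_range_succ, ih (by omega), mul_sum]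
    congr 1
    · refine sum_congr rfl fun l hl => ?_
      have := mem_range.1 hl
      rw [show i + 1 - 1 - l = i - 1 - l + 1 by omega, pow_succ]
      ring
    · rw [List.getD_eq_getElem _ _ (by simpa using h), List.getElem_reverse]
      simp only [Nat.add_sub_cancel, Nat.sub_self, pow_zero, one_mul, Nat.sub_sub, add_comm 1 i]

namespace G

theorem hz_sum_le {l : List G} {h : ℕ} (hl : ∀ z ∈ l, hz z ≤ 2 ^ h) :
    hz (sum l) ≤ 2 ^ (l.length * h) := by
  refine (hz_foldl' hz_add l hl _).trans ?_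
  rw [hz_int, ← pow_mul, mul_comm h]
  simp

theorem hz_pow_le {z : G} {h : ℕ} (hz' : hz z ≤ 2 ^ h) (P k : ℕ) :
    hz (pow P z k) ≤ 2 ^ (k * h + 1) := by
  refine (hz_foldl' hz_mul _ (B := 2 ^ h) (fun w hw => List.eq_of_mem_replicate hw ▸ hz') _).trans ?_
  rw [hz_int, ← pow_mul, List.length_replicate, pow_succ']
  refine Nat.mul_le_mul (by simp) (Nat.pow_le_pow_right (by norm_num) ?_)
  rw [mul_comm]
  exact Nat.mul_le_mul_right _ (min_le_left _ _)

theorem hz_mul_le {z w : G} {h h' : ℕ} (h1 : hz z ≤ 2 ^ h) (h2 : hz w ≤ 2 ^ h') :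
    hz (mul z w) ≤ 2 ^ (h + h') :=
  (hz_mul z w).trans (pow_add 2 h h' ▸ Nat.mul_le_mul h1 h2)

theorem hz_sub_le {z w : G} {h h' : ℕ} (h1 : hz z ≤ 2 ^ h) (h2 : hz w ≤ 2 ^ h') :
    hz (sub z w) ≤ 2 ^ (h + h') :=
  (hz_sub z w).trans (pow_add 2 h h' ▸ Nat.mul_le_mul h1 h2)

theorem hz_mono {z : G} {h h' : ℕ} (h1 : hz z ≤ 2 ^ h) (hh : h ≤ h') : hz z ≤ 2 ^ h' :=
  h1.trans (Nat.pow_le_pow_right (by norm_num) hh)

theorem hz_zpow_le {z : G} {h : ℕ} (hz' : hz z ≤ 2 ^ h) (P : ℕ) (e : ℤ) :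
    hz (zpow P z e) ≤ 2 ^ (e.natAbs * (h + h) + 1) := by
  unfold zpow
  split_ifs
  · exact hz_pow_le ((hz_inv z).trans (pow_add 2 h h ▸ Nat.mul_le_mul hz' hz')) _ _
  · exact hz_pow_le (hz_mono hz' (Nat.le_add_right _ _)) _ _

end G

theorem hz_pw {P T Dm B : ℕ} (hT : T ≤ 2 ^ Dm) {w : Wt} (h1 : w.1.natAbs ≤ B)
    (h2 : w.2.natAbs ≤ B) : G.hz (pw P T w) ≤ 2 ^ (B * (6 * Dm + 8) + 2) := by
  have h0 : 1 ≤ 2 ^ Dm := Nat.one_le_two_pow
  have a : G.hz (rho T) ≤ 2 ^ (Dm + 2) := by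
    simp only [G.hz, rho, pow_add]
    omega
  have b : G.hz (zeta T) ≤ 2 ^ (Dm + Dm + 2 + 0) := by
    have e : ((T : ℤ) * T - 1).natAbs ≤ T * T + 1 := by
      have := Int.natAbs_sub_le ((T : ℤ) * T) 1
      simpa [Int.natAbs_mul] using this
    have e2 := Nat.mul_le_mul hT hT
    have e3 : 2 ^ Dm ≤ 2 ^ Dm * 2 ^ Dm := Nat.le_mul_self _
    have e4 : (2 * (T : ℤ)).natAbs = 2 * T := by omega
    rcases Nat.eq_zero_or_pos T with rfl | hT0
    · simp only [G.hz, zeta, pow_add]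
      simp
      nlinarith
    · have e5 : ((T : ℤ) * T - 1).natAbs + 1 = T * T := by
        have : 1 ≤ T * T := Nat.mul_pos hT0 hT0
        have e6 : ((T : ℤ) * T) = ((T * T : ℕ) : ℤ) := by push_cast; rfl
        rw [e6]
        omega
      simp only [G.hz, zeta, pow_add, e4]
      omega
  refine G.hz_mono (G.hz_mul_le (G.hz_zpow_le a P _) (G.hz_zpow_le b P _)) ?_
  have a1 := Nat.mul_le_mul_right (Dm + 2 + (Dm + 2)) h1
  have a2 := Nat.mul_le_mul_right (Dm + Dm + 2 + 0 + (Dm + Dm + 2 + 0)) h2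
  nlinarith

section

variable {P n h : ℕ} {c : G} {y : List Bool}

theorem ndG_val {w : G} {r : Bool} {vals : List G} {τ : List Bool → ℂ} (hP : y.length ≤ P)
    (hv : ∀ i ≤ y.length, ent vals i = τ (sfx y i)) {i : ℕ} (hi : i ≤ y.length) :
    ent (ndG P w c r y vals) i = gd (G.val w) (G.val c) r τ (sfx y i) := by
  rw [ndG, ent_map_range _ (by omega), G.val_sum_range, gd_sfx _ _ _ _ _ hi]
  refine sum_congr rfl fun l hl => ?_
  have := mem_range.1 hl
  rw [← hv l (by omega)]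
  split_ifs with h
  · rw [Bool.and_eq_true, Bool.not_eq_true'] at h
    rw [h.1, h.2]
    simp [rd]
  · have e : rd r (y.reverse.getD l false) = 1 := by
      revert h
      cases r <;> cases y.reverse.getD l false <;> simp [rd]
    rw [G.val_mul, G.val_mul, G.val_pow (by omega), e, one_mul]
    rfl

theorem ndG_hz {w : G} {r : Bool} {vals : List G} {v : ℕ} (hy : y.length ≤ n)
    (hw : G.hz w ≤ 2 ^ h) (hc : G.hz c ≤ 2 ^ h) (hv : ∀ z ∈ vals, G.hz z ≤ 2 ^ v) :
    ∀ z ∈ ndG P w c r y vals, G.hz z ≤ 2 ^ (n * (n * h + 1 + v)) := by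
  intro z hz
  obtain ⟨i, hi, rfl⟩ := List.mem_map.1 hz
  have hi' := List.mem_range.1 hi
  refine G.hz_mono (G.hz_sum_le (h := n * h + 1 + v) fun t ht => ?_) ?_
  · obtain ⟨l, hl, rfl⟩ := List.mem_map.1 ht
    have hl' := List.mem_range.1 hl
    have h0 : G.hz (vals.getD l (G.int 0)) ≤ 2 ^ v := by
      rw [List.getD_eq_getElem?_getD]
      rcases e : vals[l]? with _ | t
      · exact Nat.one_le_two_pow
      · exact hv t (List.mem_of_getElem? e)
    split_ifs
    · exact Nat.one_le_two_pow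
    · refine G.hz_mono (G.hz_mul_le (G.hz_mul_le (G.hz_pow_le hw P _) hc) h0) ?_
      have := Nat.mul_le_mul_right h (show i - 1 - l + 1 ≤ n by omega)
      rw [add_mul] at this
      omega
  · rw [List.length_map, List.length_range]
    exact Nat.mul_le_mul_right _ (by omega)

theorem monG_key (hy : y.length ≤ n) (hn : n ≤ P) (hc : G.hz c ≤ 2 ^ h) (R : List (G × Bool))
    (hR : ∀ v ∈ R, G.hz v.1 ≤ 2 ^ h) :
    ∀ V, V = R.foldl (fun vals v => ndG P v.1 c v.2 y vals)
        (List.replicate (y.length + 1) (G.int 1)) →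
      V.length = y.length + 1 ∧ (∀ z ∈ V, G.hz z ≤ 2 ^ ((2 * n + 1) ^ R.length * (n * h + 1))) ∧
      ∀ i ≤ y.length, ent V i =
        GO (G.val c) (R.reverse.map fun v => (G.val v.1, v.2)) (sfx y i) := by
  induction R using List.reverseRecOn with
  | nil =>
    rintro V rfl
    refine ⟨by simp, fun z hz => ?_, fun i hi => ?_⟩
    · rw [List.eq_of_mem_replicate hz]
      exact G.hz_mono (h := 1) (by simp [G.hz_int]) (by simp)
    · rw [List.foldl_nil, ent_of_lt (by simpa using Nat.lt_succ_of_le hi)]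
      simp [GO]
  | append_singleton R v ih =>
    rintro V rfl
    obtain ⟨-, h2, h3⟩ := ih (fun u hu => hR u (List.mem_append_left _ hu)) _ rfl
    rw [List.foldl_append, List.foldl_cons, List.foldl_nil]
    refine ⟨by simp [ndG], fun z hz => G.hz_mono (ndG_hz hy (hR v (by simp)) hc h2 z hz) ?_,
      fun i hi => ?_⟩
    · rw [List.length_append, List.length_singleton, pow_succ]
      have : 1 ≤ (2 * n + 1) ^ R.length := Nat.one_le_pow _ _ (by omega)
      generalize (2 * n + 1) ^ R.length = t at *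
      generalize n * h + 1 = A at *
      have := Nat.mul_le_mul_right (n * A) this
      nlinarith [Nat.zero_le (t * A)]
    · rw [ndG_val (hy.trans hn) h3 hi, List.reverse_append]
      rfl

theorem monG_val {k : ℕ} (hy : y.length ≤ n) (hc : G.hz c ≤ 2 ^ h) {Z : List (G × Bool)}
    (hZ : ∀ v ∈ Z, G.hz v.1 ≤ 2 ^ h) (hk : Z.length ≤ k)
    (hP : (n + 1) * (2 * (5 * ((2 * n + 1) ^ k * (n * h + 1)) + 14) + 1) ≤ P) {i : ℕ}
    (hi : i ≤ y.length) : G.val ((monG P c Z y).getD i (G.int 0)) =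
      GO (G.val c) (Z.map fun v => (G.val v.1, v.2)) (sfx y i) := by
  have hn : n ≤ P := (Nat.le_succ n).trans ((Nat.le_mul_of_pos_right _ (by omega)).trans hP)
  have := (monG_key hy hn hc Z.reverse (fun v hv => hZ v (List.mem_reverse.1 hv)) _ rfl).2.2 i hi
  rw [List.reverse_reverse] at this
  rw [monG, foldlC_eq, ← this, ent]
  intro j hj
  obtain ⟨h1, h2, -⟩ := monG_key hy hn hc (Z.reverse.take (j + 1))
    (fun v hv => hZ v (List.mem_reverse.1 (List.mem_of_mem_take hv))) _ rfl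
  refine (esize_list_le fun z hz => G.esize_le_of_hz (h2 z hz)).trans (le_trans ?_ hP)
  rw [h1]
  have : (2 * n + 1) ^ (Z.reverse.take (j + 1)).length ≤ (2 * n + 1) ^ k :=
    Nat.pow_le_pow_right (by omega) (by rw [List.length_take, List.length_reverse]; omega)
  gcongr

end

theorem Room.mon {P T n b Dm J k h : ℕ} (H : Room P T n b Dm J) (hk : k ≤ 3 * 4 ^ J)
    (hh : h ≤ 2 ^ (4 * Dm) * (Nat.size b + 1)) :
    (n + 1) * (2 * (5 * ((2 * n + 1) ^ k * (n * h + 1)) + 14) + 1) ≤ P := by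
  have h0 := H.big
  have h1 := H.n_lt
  have h2 : (2 * n + 1) ^ k ≤ 2 ^ Dm := by
    have a : 2 * n + 1 ≤ 2 ^ (Nat.size n + 1) := by
      have := Nat.lt_size_self n
      rw [pow_succ]
      omega
    refine (Nat.pow_le_pow_left a k).trans ?_
    rw [← pow_mul]
    refine Nat.pow_le_pow_right (by norm_num) (le_trans ?_ H.2.2.1)
    rw [mul_comm]
    refine Nat.mul_le_mul_right _ (hk.trans ?_)
    have : 4 ^ J ≤ 16 ^ J := Nat.pow_le_pow_left (by norm_num) J
    rw [pow_add]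
    omega
  refine le_trans ?_ H.2.2.2
  have h3 : Dm < 2 ^ Dm := Nat.lt_two_pow_self
  have h4 : 1 ≤ 2 ^ (4 * Dm) * (Nat.size b + 1) := Nat.mul_pos (by positivity) (by omega)
  have e : 2 ^ (8 * Dm) * (Nat.size b + 1) =
      2 ^ Dm * (2 ^ Dm * (2 ^ Dm * (2 ^ Dm * (2 ^ (4 * Dm) * (Nat.size b + 1))))) := by ring
  rw [e]
  generalize 2 ^ (4 * Dm) * (Nat.size b + 1) = H at *
  generalize 2 ^ Dm = E at *
  refine Nat.mul_le_mul h1 ?_
  have a1 : n * h + 1 ≤ E * H := by nlinarith [Nat.mul_le_mul_left n hh]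
  have a2 : (2 * n + 1) ^ k * (n * h + 1) ≤ E * (E * H) := Nat.mul_le_mul h2 a1
  have a3 : 1 ≤ E * (E * H) := Nat.mul_pos (by omega) (Nat.mul_pos (by omega) h4)
  have a4 := Nat.mul_le_mul_right (E * (E * H)) (show 256 ≤ E by omega)
  omega

theorem eval_ok : EVAL := by
  intro P T n b Dm J c1 c2 mm s k u len L H hm hL hs hk hu
  rw [inv_iff] at hL
  have hT := H.1
  have h0 := H.big
  have h3 : Dm < 2 ^ Dm := Nat.lt_two_pow_self
  have hJ : 16 ^ (J + 2) ≤ Dm := le_trans (Nat.le_mul_of_pos_right _ (by omega)) H.2.2.1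
  have hs' : s ≤ 16 ^ (J + 2) := by
    have : 4 ^ J ≤ 16 ^ J := Nat.pow_le_pow_left (by norm_num) J
    rw [pow_add]
    omega
  have ci : ∀ {t : ℕ} {w : Wt}, CI T t w → t ≤ 16 ^ (J + 2) →
      w.1.natAbs ≤ 2 ^ (2 * Dm) ∧ w.2.natAbs ≤ 2 ^ (2 * Dm) := fun {t w} hw ht => by
    have : t * T ≤ 2 ^ (2 * Dm) := by
      rw [two_mul, pow_add]
      exact Nat.mul_le_mul (by omega) H.2.1
    obtain ⟨a1, a2, a3⟩ := hw
    omega
  have hP2 : 2 ^ (2 * Dm) ≤ P := H.pow_le (by omega)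
  have vw : ∀ {t : ℕ} {w : Wt}, CI T t w → t ≤ 16 ^ (J + 2) → G.val (pw P T w) = wv T w :=
    fun hw ht => val_pw hT ((ci hw ht).1.trans hP2) ((ci hw ht).2.trans hP2)
  have hw : ∀ c ∈ L, ∀ v ∈ c.2, G.hz (pw P T v.1) ≤ 2 ^ (2 ^ (2 * Dm) * (6 * Dm + 8) + 2) :=
    fun c hc v hv => hz_pw H.2.1 (ci (((hL.2 c hc).2.2 v hv).ci hm) hs').1
      (ci (((hL.2 c hc).2.2 v hv).ci hm) hs').2
  have hh : 2 ^ (2 * Dm) * (6 * Dm + 8) + 2 + (Nat.size b + 1) + (Nat.size b + 1) ≤
      2 ^ (4 * Dm) * (Nat.size b + 1) := by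
    have e1 : 2 ^ (2 * Dm) = 2 ^ Dm * 2 ^ Dm := by ring
    have e2 : 2 ^ (4 * Dm) = 2 ^ Dm * 2 ^ Dm * (2 ^ Dm * 2 ^ Dm) := by ring
    rw [e1, e2]
    generalize 2 ^ Dm = E at *
    have a1 : 256 * E ≤ E * E := Nat.mul_le_mul_right _ (by omega)
    generalize E * E = F at *
    have a2 : F * (6 * Dm + 8 + 4) ≤ F * F := Nat.mul_le_mul_left _ (by omega)
    have a3 : 2 * Nat.size b ≤ F * F * Nat.size b := Nat.mul_le_mul_right _ (by nlinarith)
    nlinarith
  have hP := H.mon hk hh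
  refine ⟨fun y hy i hi => ?_, fun a hab ts hts hn => ?_⟩
  · rw [← ent, evL, ent_map_range _ (by omega), G.val_sum, List.map_map, sev_eq_sum]
    refine congrArg List.sum (List.map_congr_left fun c hc => ?_)
    rw [Function.comp_apply, G.val_mul, vw (hL.2 c hc).2.1 hu,
      monG_val hy (G.hz_mono (h := 1) (by simp [G.hz_int]) (by omega)) (fun v hv => ?_)
        (by simpa using (hL.2 c hc).1) hP hi, G.val_int, Int.cast_one, GO_one, List.map_map, nC]
    · congr 2
      exact List.map_congr_left fun v hv => by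
        simp only [Function.comp_apply, vw (((hL.2 c hc).2.2 v hv).ci hm) hs']
    · obtain ⟨v', hv', rfl⟩ := List.mem_map.1 hv
      exact G.hz_mono (hw c hc v' hv') (by omega)
  · have hb := Nat.lt_size_self b
    have f1 : G.hz (G.frac a b) ≤ 2 ^ (Nat.size b + 1) := by
      refine (G.hz_frac _ _).trans ?_
      rw [pow_succ]
      omega
    have f2 : G.hz (G.frac b (b - a)) ≤ 2 ^ (Nat.size b + 1) := by
      simp only [G.hz, G.frac, pow_succ]
      omega
    have hb0 : (b : ℂ) ≠ 0 := by exact_mod_cast (by omega : b ≠ 0)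
    have hba : (b : ℂ) - a ≠ 0 := by
      rw [← Nat.cast_sub hab.le]; exact_mod_cast (by omega : b - a ≠ 0)
    have v2 : G.val (G.frac b (b - a)) = 1 / ((1 - (a : ℝ) / b : ℝ) : ℂ) := by
      rw [G.val_frac _ (by omega), Nat.cast_sub hab.le]
      push_cast
      field_simp
    rw [est, G.val_mul, G.val_frac _ (List.length_pos_iff.2 hts), G.val_sum, List.map_map,
      Int.cast_one, mul_one_div]
    congr 1
    refine congrArg List.sum (List.map_congr_left fun t ht => ?_)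
    rw [Function.comp_apply, estOne, G.val_sum, List.map_map, sevP_eq_sum]
    refine congrArg List.sum (List.map_congr_left fun c hc => ?_)
    rw [Function.comp_apply, G.val_mul, vw (hL.2 c hc).2.1 hu,
      monG_val (hn t ht) (G.hz_mono f2 (by omega)) (fun v hv => ?_)
        (by simpa using (hL.2 c hc).1) hP le_rfl, sfx_length, ← GO_OP, v2, List.map_map, nC,
      List.map_map]
    · congr 2
      refine List.map_congr_left fun v hv => ?_
      simp only [Function.comp_apply, G.val_mul, G.val_sub, v2,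
        vw (((hL.2 c hc).2.2 v hv).ci hm) hs', G.val_frac _ (show 1 ≤ b by omega)]
      congr 1
      push_cast
      ring
    · obtain ⟨v', hv', rfl⟩ := List.mem_map.1 hv
      exact G.hz_mul_le (G.hz_sub_le (hw c hc v' hv') f1) f2

theorem past_ok : PAST := by
  intro P T n b Dm J c1 c2 mm j as m x i1 c H hj hm hc ha hm' hc2 hx h1 hi
  have hl : (sfx x (i1 - 1)).length = i1 - 1 := length_sfx (by omega)
  have h4 : 4 ^ j ≤ 4 ^ J := Nat.pow_le_pow_right (by norm_num) hj
  have ev := (eval_ok P T n b Dm J c1 c2 mm _ _ _ _ c.1 H hm hc h4 (by omega)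
    (Nat.pow_le_pow_right (by norm_num) (by omega))).1 (sfx x (i1 - 1)) (by omega)
  rw [pastG, G.val_sum_range, Past, hl, Nat.sub_add_cancel h1]
  refine sum_congr rfl fun i hi' => ?_
  have := mem_range.1 hi'
  have bd : ∀ t : ℤ, t.natAbs ≤ T → (t * ((i : ℤ) - i1)).natAbs ≤ P := fun t ht => by
    rw [Int.natAbs_mul]
    exact (Nat.mul_le_mul ht (by omega)).trans H.Tn_le
  rw [G.val_mul, ev i (by omega), sfx_sfx (by omega) (by omega),
    val_wgtG H.1 (fun a h => bd a (ha a h)) (bd m hm') (bd _ hc2)]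

end Vale.Agent.P321D
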