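import Vale.Agent.P321D.Spec

/-!
# P321 decoder: consequences of the conditions on the parameters
-/

namespace Vale.Agent.P321D

open Finset

variable {P n a b m : ℕ} {π : Par}

theorem Good.len (h : Good n a b m π) : π.2.length = π.J + 1 := by
  have := h.J_pos
  unfold Par.J at *
  omega

theorem Good.D_eq (h : Good n a b m π) {j : ℕ} (hj : j ≤ π.J) : π.D j = 2 ^ (40 * j) * π.D 0 := by
  induction j with
  | zero => simp
  | succ j ih =>
    rw [h.D_succ j (by omega), ih (by omega), ← mul_assoc, ← pow_add]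
    congr 2
    ring

theorem Good.D_mono (h : Good n a b m π) {i j : ℕ} (hij : i ≤ j) (hj : j ≤ π.J) :
    π.D i ≤ π.D j := by
  rw [h.D_eq hj, h.D_eq (hij.trans hj)]
  exact Nat.mul_le_mul_right _ (Nat.pow_le_pow_right (by norm_num) (by omega))

theorem Good.D_ge (h : Good n a b m π) {j : ℕ} (hj : j ≤ π.J) :
    16 ^ (π.J + 2) * (Nat.size n + 1) ≤ π.D j :=
  h.D_zero.trans (h.D_mono (Nat.zero_le _) hj)

theorem Good.D_ge' (h : Good n a b m π) {j : ℕ} (hj : j ≤ π.J) :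
    4096 * (Nat.size n + 1) ≤ π.D j := by
  refine le_trans (Nat.mul_le_mul_right _ ?_) (h.D_ge hj)
  have := h.J_pos
  calc 4096 = 16 ^ 3 := by norm_num
    _ ≤ 16 ^ (π.J + 2) := Nat.pow_le_pow_right (by norm_num) (by omega)

theorem Good.budget' (h : Good n a b m π) (hP : m * (Nat.size b + 1) ≤ P) :
    2 ^ ((π.J + 10) * π.D π.J) * (Nat.size b + 1) ≤ P :=
  (Nat.mul_le_mul_right _ h.budget).trans hP

theorem Good.pow_le (h : Good n a b m π) (hP : m * (Nat.size b + 1) ≤ P) {k : ℕ}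
    (hk : k ≤ (π.J + 10) * π.D π.J) : 2 ^ k ≤ P := by
  refine le_trans ?_ (h.budget' hP)
  calc 2 ^ k ≤ 2 ^ ((π.J + 10) * π.D π.J) := Nat.pow_le_pow_right (by norm_num) hk
    _ ≤ _ := Nat.le_mul_of_pos_right _ (by omega)

theorem Good.le_P (h : Good n a b m π) (hP : m * (Nat.size b + 1) ≤ P) {k : ℕ}
    (hk : k ≤ (π.J + 10) * π.D π.J) : k ≤ P :=
  (Nat.lt_two_pow_self).le.trans (h.pow_le hP hk)

theorem Good.room (h : Good n a b m π) (hP : m * (Nat.size b + 1) ≤ P) :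
    Room P π.1 n b (π.D π.J) π.J := by
  refine ⟨h.T_two, h.T_le, h.D_ge le_rfl, le_trans (Nat.mul_le_mul_right _ ?_) (h.budget' hP)⟩
  exact Nat.pow_le_pow_right (by norm_num) (Nat.mul_le_mul_right _ (by omega))

theorem Room.n_lt {T Dm J : ℕ} (h : Room P T n b Dm J) : n < 2 ^ Dm := by
  have h1 : Nat.size n ≤ Dm := by
    have h2 : 1 ≤ 16 ^ (J + 2) := Nat.one_le_pow _ _ (by norm_num)
    have h3 := h.2.2.1
    nlinarith
  exact (Nat.lt_size_self n).trans_le (Nat.pow_le_pow_right (by norm_num) h1)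

theorem Room.pow_le {T Dm J : ℕ} (h : Room P T n b Dm J) {k : ℕ} (hk : k ≤ 8 * Dm) :
    2 ^ k ≤ P := by
  refine le_trans ?_ h.2.2.2
  calc 2 ^ k ≤ 2 ^ (8 * Dm) := Nat.pow_le_pow_right (by norm_num) hk
    _ ≤ _ := Nat.le_mul_of_pos_right _ (by omega)

theorem Room.Tn_le {T Dm J : ℕ} (h : Room P T n b Dm J) : T * (n + 1) ≤ P := by
  calc T * (n + 1) ≤ 2 ^ Dm * 2 ^ Dm := Nat.mul_le_mul h.2.1 h.n_lt
    _ = 2 ^ (Dm + Dm) := by rw [pow_add]
    _ ≤ P := h.pow_le (by omega)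

theorem Room.n_le {T Dm J : ℕ} (h : Room P T n b Dm J) : n + 1 ≤ P :=
  le_trans (Nat.le_mul_of_pos_left _ (by have := h.1; omega)) h.Tn_le

theorem p2_eq {k : ℕ} (h : k ≤ P) : p2 P k = 2 ^ k := by
  unfold p2
  rw [min_eq_left h]

theorem Good.N_le (h : Good n a b m π) {j : ℕ} (hj : j ≤ π.J) : π.N j ≤ π.D π.J := by
  rcases hj.eq_or_lt with e | e
  · rw [e, h.N_top]; exact Nat.zero_le _
  · rw [h.N_eq j e]
    have h1 := h.D_mono (show j + 1 ≤ π.J by omega) le_rfl
    rw [h.D_succ j e] at h1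
    omega

theorem Good.N_le_P (h : Good n a b m π) (hP : m * (Nat.size b + 1) ≤ P) {j : ℕ}
    (hj : j ≤ π.J) : π.N j ≤ P :=
  h.le_P hP ((h.N_le hj).trans (Nat.le_mul_of_pos_left _ (by omega)))

theorem Good.angs_succ (h : Good n a b m π) (hP : m * (Nat.size b + 1) ≤ P) {j : ℕ}
    (hj : j ≤ π.J) :
    angs P π j = List.replicate (π.N j) (π.a j : ℤ) ++ angs P π (j + 1) := by
  have hl : j < π.2.length := by rw [h.len]; omega
  unfold angs
  rw [List.drop_eq_getElem_cons hl, List.flatMap_cons]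
  have e : π.lv j = π.2[j] := by
    unfold Par.lv
    rw [List.getD_eq_getElem _ _ hl]
  have h1 := h.N_le_P hP hj
  unfold Par.N at h1 ⊢
  unfold Par.a
  rw [e] at h1 ⊢
  rw [min_eq_left h1]

theorem Good.angs_end (h : Good n a b m π) : angs P π (π.J + 1) = [] := by
  unfold angs
  rw [List.drop_of_length_le (by rw [h.len])]
  rfl

theorem Good.angs_top (h : Good n a b m π) (hP : m * (Nat.size b + 1) ≤ P) :
    angs P π π.J = [] := by
  rw [h.angs_succ hP le_rfl, h.angs_end, h.N_top]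
  rfl

theorem Good.angs_sum (h : Good n a b m π) (hP : m * (Nat.size b + 1) ≤ P) {j : ℕ}
    (hj : j ≤ π.J) : ((angs P π j).map Int.natAbs).sum ≤ 2 * (π.N j * π.a j) := by
  induction hk : π.J - j generalizing j with
  | zero =>
    have e : j = π.J := by omega
    rw [e, h.angs_top hP]
    simp
  | succ k ih =>
    have hj' : j < π.J := by omega
    have h1 := ih (j := j + 1) (by omega) (by omega)
    have h2 := h.band j hj'
    rw [h.angs_succ hP hj, List.map_append, List.sum_append, List.map_replicate,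
      List.sum_replicate, smul_eq_mul, Int.natAbs_natCast]
    omega

theorem Good.angs_sum_succ (h : Good n a b m π) (hP : m * (Nat.size b + 1) ≤ P) {j : ℕ}
    (hj : j < π.J) : ((angs P π (j + 1)).map Int.natAbs).sum ≤ π.N j * π.a j :=
  (h.angs_sum hP (by omega)).trans (h.band j hj)

theorem Good.Na_le (h : Good n a b m π) {j : ℕ} (hj : j < π.J) : 64 * (π.N j * π.a j) ≤ π.1 := by
  have h1 := h.aW j hj
  have h2 := h.NW j hj
  calc 64 * (π.N j * π.a j) ≤ 64 * (π.W j * π.a j) := by gcongr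
    _ = π.1 := by rw [← h1]; ring

theorem Good.angs_sum_T (h : Good n a b m π) (hP : m * (Nat.size b + 1) ≤ P) {j : ℕ}
    (hj : j ≤ π.J) : ((angs P π j).map Int.natAbs).sum ≤ π.1 := by
  have h1 := h.angs_sum hP hj
  rcases hj.eq_or_lt with e | e
  · rw [e, h.angs_top hP]; simp
  · have := h.Na_le e
    omega

theorem Good.angs_mem (h : Good n a b m π) (hP : m * (Nat.size b + 1) ≤ P) {j : ℕ}
    (hj : j ≤ π.J) : ∀ e ∈ angs P π j, e.natAbs ≤ π.1 := fun _ he =>
  (List.single_le_sum (fun _ _ => Nat.zero_le _) _ (List.mem_map_of_mem he)).trans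
    (h.angs_sum_T hP hj)

theorem Good.angs_len (h : Good n a b m π) (hP : m * (Nat.size b + 1) ≤ P) {j : ℕ}
    (hj : j ≤ π.J) : 2 ^ 20 * (angs P π j).length + π.D j ≤ 2 * π.D π.J - π.D j := by
  induction hk : π.J - j generalizing j with
  | zero =>
    have e : j = π.J := by omega
    rw [e, h.angs_top hP]
    simp only [List.length_nil]
    omega
  | succ k ih =>
    have hj' : j < π.J := by omega
    have h1 := ih (j := j + 1) (by omega) (by omega)
    have h2 := h.D_succ j hj'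
    have h3 := h.N_eq j hj'
    have h4 := h.D_mono (show j + 1 ≤ π.J by omega) le_rfl
    rw [h.angs_succ hP hj, List.length_append, List.length_replicate]
    omega

theorem Good.angs_len' (h : Good n a b m π) (hP : m * (Nat.size b + 1) ≤ P) {j : ℕ}
    (hj : j ≤ π.J) : 2 ^ 19 * (angs P π j).length ≤ π.D π.J := by
  have := h.angs_len hP hj
  omega

theorem Good.b_pos (h : Good n a b m π) : 0 < b := by have := h.a_lt; omega

theorem Good.mm_le (h : Good n a b m π) : π.mm a b ≤ π.1 := by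
  unfold Par.mm
  have hb := h.b_pos
  have h1 : 1 ≤ 4 ^ π.J := Nat.one_le_pow _ _ (by norm_num)
  apply Nat.div_le_of_le_mul
  calc (b - a) * π.1 ≤ b * π.1 := Nat.mul_le_mul_right _ (Nat.sub_le _ _)
    _ ≤ 4 * 4 ^ π.J * b * π.1 := by
      apply Nat.mul_le_mul_right
      exact Nat.le_mul_of_pos_left _ (by positivity)

theorem Good.mm_damp (_h : Good n a b m π) : 4 * 4 ^ π.J * π.mm a b * b ≤ (b - a) * π.1 := by
  unfold Par.mm
  have := Nat.div_mul_le_self ((b - a) * π.1) (4 * 4 ^ π.J * b)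
  calc _ = (b - a) * π.1 / (4 * 4 ^ π.J * b) * (4 * 4 ^ π.J * b) := by ring
    _ ≤ _ := this

theorem Good.r_mm (h : Good n a b m π) {j : ℕ} (hj : j ≤ π.J) : 4 * π.r j ≤ π.mm a b := by
  rcases j with _ | j
  · rw [h.r_zero]; exact Nat.zero_le _
  · unfold Par.mm
    have hb := h.b_pos
    rw [Nat.le_div_iff_mul_le (by positivity)]
    have := h.damp j (by omega)
    calc 4 * π.r (j + 1) * (4 * 4 ^ π.J * b) = 16 * 4 ^ π.J * π.r (j + 1) * b := by ring
      _ ≤ _ := this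

theorem Good.r_T (h : Good n a b m π) {j : ℕ} (hj : j ≤ π.J) : 4 * π.r j ≤ π.1 :=
  (h.r_mm hj).trans h.mm_le

theorem Good.a_pos' (h : Good n a b m π) {j : ℕ} (hj : j < π.J) : 0 < π.a j := by
  have h1 := h.aW j hj
  have h2 := h.T_two
  rcases Nat.eq_zero_or_pos (π.a j) with e | e
  · rw [e] at h1; omega
  · exact e

theorem Good.W_pos (h : Good n a b m π) {j : ℕ} (hj : j < π.J) : 0 < π.W j := by
  have h1 := h.aW j hj
  have h2 := h.T_two
  rcases Nat.eq_zero_or_pos (π.W j) with e | e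
  · rw [e] at h1; omega
  · exact e

theorem Good.u_pos (h : Good n a b m π) {j : ℕ} (hj : j < π.J) : 0 < π.u j := by
  have h1 := h.uT j hj
  have h2 := h.T_two
  rcases Nat.eq_zero_or_pos (π.u j) with e | e
  · rw [e] at h1; omega
  · exact e

theorem Good.uX_le (h : Good n a b m π) {j : ℕ} (hj : j < π.J) : 8 * (π.u j * π.X j) ≤ π.1 := by
  have h1 := h.uX j hj
  have h2 := h.Na_le hj
  rw [h1, mul_assoc 8 (π.N j)]
  omega

theorem Good.X_le (h : Good n a b m π) {j : ℕ} (hj : j < π.J) :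
    8 * π.X j ≤ 2 ^ (2 ^ 37 * π.D j) := by
  have h1 := h.uX_le hj
  rw [← h.uT j hj] at h1
  have h2 := h.u_pos hj
  have h3 : π.u j * (8 * π.X j) ≤ π.u j * 2 ^ (2 ^ 37 * π.D j) := by
    calc π.u j * (8 * π.X j) = 8 * (π.u j * π.X j) := by ring
      _ ≤ _ := h1
  exact Nat.le_of_mul_le_mul_left h3 h2

theorem Good.v_le (h : Good n a b m π) {j : ℕ} (hj : j < π.J) :
    8 * (2 ^ 37 * π.D j) ≤ π.D π.J := by
  have h1 := h.D_mono (show j + 1 ≤ π.J by omega) le_rfl
  rw [h.D_succ j hj] at h1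
  omega

theorem Good.X_lt_P (h : Good n a b m π) (hP : m * (Nat.size b + 1) ≤ P) {j : ℕ}
    (hj : j < π.J) : π.X j + 1 ≤ P := by
  have h1 := h.X_le hj
  have h2 := h.v_le hj
  have h3 := h.X_pos j hj
  have h4 : 2 ^ (2 ^ 37 * π.D j) ≤ P :=
    h.pow_le hP (le_trans (by omega) (Nat.le_mul_of_pos_left (π.D π.J) (by omega)))
  omega

theorem Good.u_le (h : Good n a b m π) {j : ℕ} (hj : j < π.J) : π.u j ≤ 4 * (π.N j * π.a j) := by
  have h1 := h.uX j hj
  have h2 := h.X_pos j hj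
  have h3 : π.u j * 2 ≤ π.u j * π.X j := Nat.mul_le_mul_left _ h2
  rw [mul_assoc] at h1
  omega

/-- The nodes created at the step `j` are admissible. -/
theorem Good.adm (h : Good n a b m π) {j : ℕ} (hj : j < π.J) {k : ℕ} (hk : π.r (j + 1) ≤ k)
    (hk' : k ≤ 4 * π.r (j + 1)) {e : ℤ} (he : e.natAbs ≤ 25 * (π.N j * π.a j)) :
    Adm1 π.1 (π.c1 a) (π.c2 a b) (π.mm a b) ((k : ℤ), e) := by
  have h1 := h.r_mm (show j + 1 ≤ π.J by omega)
  have h2 := h.Na_le hj
  have h3 := h.reg j hj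
  refine ⟨Int.natCast_nonneg _, Int.ofNat_le.2 (hk'.trans h1), by simp only; omega, ?_⟩
  have h4 : π.c1 a * e.natAbs ^ 2 ≤ π.c2 a b * k := by
    unfold Par.c1 Par.c2
    calc 6 * a * 4 ^ π.J * e.natAbs ^ 2 ≤ 6 * a * 4 ^ π.J * (25 * π.N j * π.a j) ^ 2 := by
          rw [mul_assoc 25]; gcongr
      _ ≤ (b - a) * π.1 * π.r (j + 1) := h3
      _ ≤ (b - a) * π.1 * k := Nat.mul_le_mul_left _ hk
  have h5 : ((π.c1 a * e.natAbs ^ 2 : ℕ) : ℤ) ≤ ((π.c2 a b * k : ℕ) : ℤ) := by exact_mod_cast h4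
  push_cast at h5
  rw [sq_abs] at h5
  exact h5

end Vale.Agent.P321D
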