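import Vale.Agent.P321D.Kacz
import Vale.Agent.P321D.Par

/-!
# P321 decoder: phase retrieval
-/

namespace Vale.Agent.P321D

open Complex Finset Vale.Agent.Lib.PolyTime Vale.Agent.P315.H155

/-- The number and its inverse are close to `1`. -/
def Near (r : ℝ) (z : ℂ) : Prop := ‖z - 1‖ ≤ r ∧ ‖z⁻¹ - 1‖ ≤ r

theorem Near.mono {r r' : ℝ} {z : ℂ} (h : Near r z) (hr : r ≤ r') : Near r' z :=
  ⟨h.1.trans hr, h.2.trans hr⟩

theorem Near.lower {r : ℝ} {z : ℂ} (h : Near r z) : 1 - r ≤ ‖z‖ := by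
  have := norm_sub_norm_le (1 : ℂ) z
  rw [norm_one, norm_sub_rev] at this
  linarith [h.1]

theorem Near.upper {r : ℝ} {z : ℂ} (h : Near r z) : ‖z‖ ≤ 1 + r := by
  have := norm_sub_norm_le z (1 : ℂ)
  rw [norm_one] at this
  linarith [h.1]

theorem Near.inv_conj {r : ℝ} {z : ℂ} (h : Near r z) : Near r ((starRingEnd ℂ) z)⁻¹ := by
  have e : ∀ w : ℂ, ‖(starRingEnd ℂ) w - 1‖ = ‖w - 1‖ := fun w => by
    rw [← norm_conj (w - 1), map_sub, map_one]
  exact ⟨by rw [← map_inv₀, e]; exact h.2, by rw [inv_inv, e]; exact h.1⟩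

theorem Near.pert {r k : ℝ} {w z : ℂ} (h : Near r w) (hr : r ≤ 1 / 4) (hk : k ≤ 1 / 4)
    (hz : ‖z - w‖ ≤ k) : Near (r + 4 * k) z := by
  have k0 : 0 ≤ k := (norm_nonneg _).trans hz
  have w1 : 3 / 4 ≤ ‖w‖ := by linarith [h.lower]
  have z1 : 1 / 2 ≤ ‖z‖ := by
    have := norm_sub_norm_le w z
    rw [norm_sub_rev] at this
    linarith
  have w0 : w ≠ 0 := norm_pos_iff.1 (by linarith)
  have z0 : z ≠ 0 := norm_pos_iff.1 (by linarith)
  constructor
  · have := norm_add_le (z - w) (w - 1)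
    rw [sub_add_sub_cancel] at this
    linarith [h.1]
  · have := norm_add_le (z⁻¹ - w⁻¹) (w⁻¹ - 1)
    rw [sub_add_sub_cancel] at this
    have e : ‖z⁻¹ - w⁻¹‖ ≤ 4 * k := by
      rw [inv_sub_inv z0 w0, norm_div, norm_mul, norm_sub_rev, div_le_iff₀ (by positivity)]
      nlinarith [mul_le_mul z1 w1 (by norm_num) (norm_nonneg _)]
    linarith [h.2]

theorem lag_step {S S' Y q Z : ℂ} {g ε r : ℝ} (g0 : 0 < g) (g1 : g ≤ 1 / 4) (hS : g ≤ ‖S‖)
    (hS' : g ≤ ‖S'‖) (h : Near r (Y / S)) (hr : r ≤ 1 / 4) (hk : 2 * ε / g ^ 2 ≤ 1 / 4)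
    (hq : ‖q - S' * (starRingEnd ℂ) S‖ ≤ ε) (hZ : ‖Z - q / (starRingEnd ℂ) Y‖ ≤ 2 * ε) :
    Near (r + 4 * (2 * ε / g ^ 2)) (Z / S') := by
  have e0 : 0 ≤ ε := (norm_nonneg _).trans hq
  have S0 : S ≠ 0 := norm_pos_iff.1 (by linarith)
  have S0' : S' ≠ 0 := norm_pos_iff.1 (by linarith)
  have Y1 : 3 / 4 * g ≤ ‖Y‖ := by
    have := h.lower
    rw [norm_div, le_div_iff₀ (by linarith)] at this
    nlinarith
  have Y0 : Y ≠ 0 := norm_pos_iff.1 (by linarith)
  have c1 : (starRingEnd ℂ) Y ≠ 0 := (map_ne_zero _).2 Y0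
  refine h.inv_conj.pert hr hk ?_
  have e : Z / S' - ((starRingEnd ℂ) (Y / S))⁻¹ = (Z - q / (starRingEnd ℂ) Y) / S' +
      (q - S' * (starRingEnd ℂ) S) / ((starRingEnd ℂ) Y * S') := by
    rw [map_div₀, inv_div]
    field_simp
    ring
  rw [e]
  refine (norm_add_le _ _).trans ?_
  rw [norm_div, norm_div, norm_mul, norm_conj]
  have a1 : ‖Z - q / (starRingEnd ℂ) Y‖ / ‖S'‖ ≤ 2 * ε / g := by gcongr
  have a2 : ‖q - S' * (starRingEnd ℂ) S‖ / (‖Y‖ * ‖S'‖) ≤ ε / (3 / 4 * g * g) := by gcongr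
  have a3 : 2 * ε / g ^ 2 - 2 * ε / g - ε / (3 / 4 * g * g) = ε * (2 / 3 - 2 * g) / g ^ 2 := by
    field_simp
    ring
  have a4 : 0 ≤ ε * (2 / 3 - 2 * g) / g ^ 2 :=
    div_nonneg (mul_nonneg e0 (by linarith)) (by positivity)
  linarith

theorem piv_spec {P X t : ℕ} (good : ℕ → Bool) (hP : X + 1 ≤ P) (ht : t ≤ X / 2)
    (h : 10 * ((List.range (X + 1)).filter fun x => !good x).length < X) :
    piv P X good t + t ≤ X ∧ good (piv P X good t) = true ∧ good (piv P X good t + t) = true := by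
  have hB : ((range (X + 1)).filter fun x => good x = false).card =
      ((List.range (X + 1)).filter fun x => !good x).length := by
    rw [← List.toFinset_card_of_nodup (List.nodup_range.filter _)]
    congr 1
    ext x
    simp
  have ex : ∃ x ∈ List.range (X + 1 - t), (good x && good (x + t)) = true := by
    by_contra hn
    have : range (X + 1 - t) ⊆ ((range (X + 1)).filter fun x => good x = false) ∪
        ((range (X + 1)).filter fun x => good x = false).image (· - t) := fun x hx => by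
      have hx' := mem_range.1 hx
      by_cases h1 : good x = true
      · refine mem_union_right _ (mem_image.2 ⟨x + t, mem_filter.2 ⟨mem_range.2 (by omega), ?_⟩,
          Nat.add_sub_cancel _ _⟩)
        by_contra h2
        exact hn ⟨x, List.mem_range.2 hx', by simp [h1, h2]⟩
      · exact mem_union_left _ (mem_filter.2 ⟨mem_range.2 (by omega), by simpa using h1⟩)
    have h1 := (card_le_card this).trans ((card_union_le _ _).trans
      (Nat.add_le_add_left card_image_le _))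
    rw [card_range, hB] at h1
    omega
  obtain ⟨x, hx⟩ := Option.isSome_iff_exists.1 (List.find?_isSome.2 ex)
  have h1 := List.mem_range.1 (List.mem_of_find?_eq_some hx)
  have h2 := List.find?_some hx
  rw [piv, rng_eq (by omega), hx, Option.getD_some]
  rw [Bool.and_eq_true] at h2
  exact ⟨by omega, h2⟩

theorem march_ok : MARCH := by
  intro P X d v mu D V p q tr hX hP hD hc hV hp hq htr
  have hth : ‖G.val (G.frac 2 (p2 P (2 * (d + 1))))‖ = 2 * (1 / 2) ^ (2 * d + 2) := by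
    rw [val_p2 (by omega), norm_div, norm_pow, one_div_pow, mul_one_div, mul_add]
    simp
  have le2 : ∀ {i j : ℕ}, i ≤ j → (1 / 2 : ℝ) ^ j ≤ (1 / 2) ^ i := fun h =>
    pow_le_pow_of_le_one (by norm_num) (by norm_num) h
  have nV : ∀ x, ‖V x * (starRingEnd ℂ) (V x)‖ = ‖V x‖ ^ 2 := fun x => by
    rw [norm_mul, norm_conj, sq]
  have e1 : (1 / 2 : ℝ) ^ D ≤ (1 / 2) ^ (2 * d + 2) := le2 (by omega)
  generalize G.frac 2 (p2 P (2 * (d + 1))) = th at hth ⊢
  rw [march, rng_eq hP, rng_eq (show X / 2 + 1 ≤ P by omega), p2_eq (show D ≤ P by omega)]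
  split_ifs with hb
  · refine ⟨?_, by rwa [List.length_map], fun e he => ?_⟩
    · rw [List.map_map]
      exact (List.nodup_range.filter _).map fun _ _ h => h
    · obtain ⟨x, hx, rfl⟩ := List.mem_map.1 he
      obtain ⟨h1, h2⟩ := List.mem_filter.1 hx
      have h1' := Nat.lt_succ_iff.1 (List.mem_range.1 h1)
      rw [Bool.not_eq_true', G.nle_false_iff, hth] at h2
      have h3 := (norm_sub_norm_le _ _).trans ((norm_sub_rev _ _).trans_le (hp x h1'))
      rw [nV] at h3
      refine ⟨h1', ?_⟩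
      dsimp only
      rw [G.val_int, Int.cast_zero, zero_sub, norm_neg,
        ← sq_le_sq₀ (norm_nonneg _) (by positivity), ← pow_mul, mul_comm d]
      have : (1 / 2 : ℝ) ^ (2 * d) = 4 * (1 / 2) ^ (2 * d + 2) := by ring
      have : (0 : ℝ) < (1 / 2) ^ (2 * d + 2) := by positivity
      linarith
  · have pv := fun t ht => piv_spec (t := t) (fun x => G.nle th (p x)) hP ht (not_le.1 hb)
    set x := piv P X fun x => G.nle th (p x) with hx
    have gd : ∀ y ≤ X, G.nle th (p y) = true → (1 / 2) ^ (d + 1) ≤ ‖V y‖ := fun y hy h => by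
      rw [G.nle_iff, hth] at h
      have h3 := (norm_sub_norm_le _ _).trans (hp y hy)
      rw [nV] at h3
      rw [← sq_le_sq₀ (by positivity) (norm_nonneg _), ← pow_mul, add_mul, mul_comm d]
      linarith
    obtain ⟨S, hS⟩ : ∃ S : ℕ → ℂ, ∀ t, S t = V (x t + t) * (starRingEnd ℂ) (V (x t)) :=
      ⟨_, fun _ => rfl⟩
    have S1 : ∀ t ≤ X / 2, (1 / 2) ^ (2 * d + 2) ≤ ‖S t‖ ∧ ‖S t‖ ≤ 2 ^ mu * 2 ^ mu := fun t ht => by
      obtain ⟨h1, h2, h3⟩ := pv t ht
      rw [hS, norm_mul, norm_conj, show 2 * d + 2 = d + 1 + (d + 1) by omega, pow_add]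
      exact ⟨mul_le_mul (gd _ h1 h3) (gd _ (by omega) h2) (by positivity) (norm_nonneg _),
        mul_le_mul (hV _ h1) (hV _ (by omega)) (norm_nonneg _) (by positivity)⟩
    have g1 : (1 / 2 : ℝ) ^ (2 * d + 2) ≤ 1 / 4 := (le2 (i := 2) (by omega)).trans (by norm_num)
    obtain ⟨k, hk⟩ : ∃ k : ℝ, k = 2 * (1 / 2) ^ D / ((1 / 2) ^ (2 * d + 2)) ^ 2 := ⟨_, rfl⟩
    have k0 : 0 ≤ k := by rw [hk]; positivity
    have k1 : 2 ^ v * (4 * k) * 2 ^ mu ≤ (1 / 2) ^ (d + 7) := by
      have := le2 hD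
      rw [hk]
      calc (2 : ℝ) ^ v * (4 * (2 * (1 / 2) ^ D / ((1 / 2) ^ (2 * d + 2)) ^ 2)) * 2 ^ mu
          ≤ 2 ^ v * (4 * (2 * (1 / 2) ^ (5 * d + v + mu + 14) / ((1 / 2) ^ (2 * d + 2)) ^ 2))
            * 2 ^ mu := by gcongr
        _ = (1 / 2) ^ (d + 7) := by
          simp only [one_div_pow]
          field_simp
          ring
    have M1 : (1 : ℝ) ≤ 2 ^ mu := one_le_pow₀ one_le_two
    have k2 : ∀ t ≤ X / 2, (t + 1 : ℝ) * (4 * k) * 2 ^ mu ≤ (1 / 2) ^ (d + 7) := fun t ht => by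
      have h1 : 1 ≤ 2 ^ v := Nat.one_le_two_pow
      have : (t + 1 : ℝ) ≤ 2 ^ v := by exact_mod_cast (by omega : t + 1 ≤ 2 ^ v)
      exact le_trans (by gcongr) k1
    have k3 : ∀ t ≤ X / 2, (t + 1 : ℝ) * (4 * k) ≤ 1 / 4 := fun t ht =>
      (le_mul_of_one_le_right (by positivity) M1).trans ((k2 t ht).trans
        ((le2 (i := 2) (by omega)).trans (by norm_num)))
    have k4 : k ≤ 1 / 4 := by have := k3 0 (Nat.zero_le _); push_cast at this; linarith
    have hR : 1 ≤ 2 ^ D := Nat.one_le_two_pow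
    have rd : ∀ z, ‖G.val (G.rnd (2 ^ D) z) - G.val z‖ ≤ 2 * (1 / 2) ^ D := fun z => by
      have := G.rnd_err hR z
      rw [one_div_pow, mul_one_div]
      exact_mod_cast this
    obtain ⟨Y, hY⟩ : ∃ Y : ℕ → G, ∀ t, Y t = Nat.rec (motive := fun _ => G)
      (G.rnd (2 ^ D) (p (x 0))) (fun s Y => G.rnd (2 ^ D) (G.div (q (x (s + 1)) (x s) s)
        (G.conj Y))) t := ⟨_, fun _ => rfl⟩
    have Ys : ∀ s, Y (s + 1) = G.rnd (2 ^ D) (G.div (q (x (s + 1)) (x s) s) (G.conj (Y s))) :=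
      fun s => by rw [hY, hY]
    have key : ∀ t ≤ X / 2, Near ((t + 1) * (4 * k)) (G.val (Y t) / S t) := fun t ht => by
      induction t with
      | zero =>
        have h0 : Near 0 1 := by simp [Near]
        have h1 := (S1 0 ht).1
        have S0 : S 0 ≠ 0 := norm_pos_iff.1 (lt_of_lt_of_le (by positivity) h1)
        refine (h0.pert (by norm_num) k4 ?_).mono (by simp)
        have a1 := norm_add_le (G.val (Y 0) - G.val (p (x 0))) (G.val (p (x 0)) - S 0)
        have a2 : ‖G.val (Y 0) - G.val (p (x 0))‖ ≤ 2 * (1 / 2) ^ D := by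
          rw [hY]; exact rd (p (x 0))
        have a3 : ‖G.val (p (x 0)) - S 0‖ ≤ _ := hS 0 ▸ hp (x 0) (pv 0 ht).1
        rw [sub_add_sub_cancel] at a1
        rw [div_sub_one S0, norm_div, div_le_iff₀ (norm_pos_iff.2 S0)]
        refine le_trans ?_ (mul_le_mul_of_nonneg_left h1 k0)
        have a4 : (0 : ℝ) < (1 / 2) ^ (2 * d + 2) := by positivity
        have a5 : (0 : ℝ) < (1 / 2) ^ D := by positivity
        rw [hk, sq, div_mul_eq_mul_div, mul_div_mul_right _ _ a4.ne', le_div_iff₀ a4]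
        nlinarith [norm_nonneg (G.val (Y 0) - S 0)]
      | succ s ih =>
        have hs : s ≤ X / 2 := by omega
        have := lag_step (q := G.val (q (x (s + 1)) (x s) s)) (Z := G.val (Y (s + 1)))
          (by positivity) g1 (S1 s hs).1 (S1 _ ht).1 (ih hs) (k3 s hs) (hk ▸ k4) (by
            have := hq (x (s + 1)) (x s) s (pv _ ht).1 (pv s hs).1
            rw [hS, hS, map_mul, conj_conj, ← mul_assoc]
            exact this) (by
            have := rd (G.div (q (x (s + 1)) (x s) s) (G.conj (Y s)))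
            rwa [G.val_div, G.val_conj, ← Ys] at this)
        rw [← hk] at this
        exact this.mono (by push_cast; linarith)
    have lg : ∀ t ≤ X / 2, lagY P (2 ^ D) X (fun x => G.nle th (p x)) p q t = Y t := fun t ht => by
      rw [lagY, min_eq_left (show t ≤ P by omega), hY, ← hx]
      refine natRecC_eq fun j hj => ?_
      have hj' : j + 1 ≤ X / 2 := by omega
      have a1 := (key _ hj').upper
      have a2 := S1 _ hj'
      have a3 := k3 _ hj'
      have a4 := rd (G.div (q (x (j + 1)) (x j) j) (G.conj (Y j)))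
      have a5 : (1 / 2 : ℝ) ^ D ≤ 1 / 4 := e1.trans g1
      rw [norm_div, div_le_iff₀ (lt_of_lt_of_le (by positivity) a2.1)] at a1
      refine le_trans (le_of_eq (congrArg esize ((hY (j + 1)).symm.trans (Ys j)))) ?_
      rw [Ys] at a1
      have a6 := (norm_sub_norm_le _ _).trans ((norm_sub_rev _ _).trans_le a4)
      have a7 := G.hz_rnd (M := 2 * (2 ^ mu * 2 ^ mu)) hR
        (z := G.div (q (x (j + 1)) (x j) j) (G.conj (Y j))) (by
          push_cast at a1 a3 ⊢
          nlinarith [a2.2, norm_nonneg (S (j + 1))])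
      have a8 : (2 * (2 * (2 ^ mu * 2 ^ mu)) + 5) * 2 ^ D ≤ 2 ^ (mu + mu + 4 + D) := by
        rw [pow_add, pow_add, pow_add]
        have : 1 ≤ 2 ^ mu * 2 ^ mu := Nat.mul_pos (by positivity) (by positivity)
        exact Nat.mul_le_mul_right _ (by omega)
      have := G.esize_le_of_hz (a7.trans a8)
      omega
    refine ⟨?_, by rw [List.length_map, List.length_range]; omega, fun e he => ?_⟩
    · rw [List.map_map]
      exact List.nodup_range.map fun _ _ h => h
    · obtain ⟨t, ht, rfl⟩ := List.mem_map.1 he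
      have ht' := Nat.lt_succ_iff.1 (List.mem_range.1 ht)
      refine ⟨by omega, ?_⟩
      rw [lg t ht', G.val_conj, G.val_div, ← norm_conj, map_sub, conj_conj]
      have a1 := key t ht'
      have a2 := (S1 t ht').1
      have a3 := htr (x t) t (pv t ht').1
      have a4 := k2 t ht'
      have a5 := k3 t ht'
      have g0 : (0 : ℝ) < (1 / 2) ^ (2 * d + 2) := by positivity
      have S0 : S t ≠ 0 := norm_pos_iff.1 (g0.trans_le a2)
      have Y1 : 1 / 2 * (1 / 2) ^ (2 * d + 2) ≤ ‖G.val (Y t)‖ := by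
        have := a1.lower
        rw [norm_div, le_div_iff₀ (g0.trans_le a2)] at this
        nlinarith
      have Y0 : G.val (Y t) ≠ 0 := norm_pos_iff.1 (lt_of_lt_of_le (by positivity) Y1)
      rw [← hS] at a3
      have e : G.val (tr (x t) t) / G.val (Y t) - (starRingEnd ℂ) (V t) =
          (G.val (tr (x t) t) - S t * (starRingEnd ℂ) (V t)) / G.val (Y t) +
            ((G.val (Y t) / S t)⁻¹ - 1) * (starRingEnd ℂ) (V t) := by
        field_simp
        ring
      rw [e]
      refine (norm_add_le _ _).trans ?_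
      rw [norm_div, norm_mul, norm_conj]
      have b1 := mul_le_mul a1.2 (hV t (by omega)) (norm_nonneg _) (by positivity)
      have b2 : ‖G.val (tr (x t) t) - S t * (starRingEnd ℂ) (V t)‖ / ‖G.val (Y t)‖ ≤
          (1 / 2) ^ (d + 1) := by
        rw [div_le_iff₀ (norm_pos_iff.2 Y0)]
        refine (a3.trans (le2 (i := d + 1 + (1 + (2 * d + 2))) (by omega))).trans ?_
        rw [pow_add, pow_add _ 1 (2 * d + 2), pow_one]
        gcongr
      have b3 := le2 (show d + 1 ≤ d + 7 by omega)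
      rw [pow_succ _ d] at b2 b3
      linarith

end Vale.Agent.P321D
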