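import Vale.Agent.P321D.Qs
import Vale.Agent.P321D.Base

/-!
# P321 decoder: the values of the windowed sums
-/

namespace Vale.Agent.P321D.Mg

open Complex Finset

variable {T r W i1 : ℕ} {as : List ℤ} {x : List Bool}

theorem wgt_neg (T : ℕ) (as : List ℤ) (m e l : ℤ) :
    wgt T as m (-e) l = (starRingEnd ℂ) (wgt T as m e l) := by
  rw [wgt, wgt, map_mul, conj_ofReal, ← wv_wcj, wcj, neg_mul]

theorem UU_cj (L : SC) (e : ℤ) :
    UU T as r W x i1 (cj L, -e) = (starRingEnd ℂ) (UU T as r W x i1 (L, e)) := by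
  simp only [UU, map_sum, map_mul, sev_cj, wgt_neg]

/-- The windowed sum is the past plus the future. -/
theorem UU_split (c : Qy) : UU T as r W x i1 c = Past T as (-(r : ℤ)) x i1 c +
    ∑ l ∈ range (min W (x.length - i1) + 1),
      sev T c.1 (sfx x (i1 + l)) * wgt T as (-(r : ℤ)) c.2 l := by
  rw [UU, add_assoc, sum_range_add, Past]
  simp

theorem norm_wgt (T : ℕ) (as : List ℤ) (m e l : ℤ) :
    ‖wgt T as m e l‖ ≤ Real.exp (-(kap T * (m * l))) := by
  rw [wgt, norm_mul, norm_wv, Complex.norm_real, Real.norm_of_nonneg (Top.Gw_nonneg T as l)]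
  push_cast
  exact mul_le_of_le_one_left (Real.exp_pos _).le (Top.Gw_le T as l)

theorem one_le_UU : 1 ≤ ‖UU T as r W x i1 (cone, 0)‖ := by
  refine le_trans ?_ (re_le_norm _)
  have k : ∀ l : ℤ, (wgt T as (-(r : ℤ)) 0 l).re = Gw T as l * Real.exp (kap T * (r * l)) := by
    intro l
    have : wv T (-(r : ℤ) * l, 0 * l) = (Real.exp (kap T * (r * l)) : ℝ) := by
      rw [wv, ofReal_exp]
      congr 1
      push_cast
      ring
    rw [wgt, this, ← ofReal_mul, ofReal_re]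
  simp only [UU, sev_cone, one_mul, re_sum, k]
  refine le_trans (le_of_eq ?_) (single_le_sum (a := i1)
    (f := fun i : ℕ => Gw T as ((i : ℤ) - i1) * Real.exp (kap T * (r * (((i : ℤ) - i1 : ℤ) : ℝ))))
    (fun i _ => mul_nonneg (Top.Gw_nonneg _ _ _) (Real.exp_pos _).le) (mem_range.2 (by omega)))
  simp [Top.Gw_zero]

variable {P n a b m j : ℕ} {π : Par}

/-- The weights of the level `j + 1` with damping `r` are at most `2 ^ D j`. -/
theorem wgt_le (h : Good n a b m π) (hj : j < π.J) (as : List ℤ) (e : ℤ) {l : ℤ}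
    (hl : l ≤ π.W (j + 1)) : ‖wgt π.1 as (-(π.r (j + 1) : ℤ)) e l‖ ≤ 2 ^ π.D j := by
  have T0 : (0 : ℝ) < π.1 := by exact_mod_cast (by have := h.T_two; omega : 0 < π.1)
  have k1 : (4 * π.r (j + 1) * π.W (j + 1) : ℝ) ≤ π.1 * π.D j := by exact_mod_cast h.rW j hj
  have k2 : (l : ℝ) ≤ π.W (j + 1) := by exact_mod_cast hl
  have k3 : kap π.1 * (π.r (j + 1) * l) ≤ 2 / π.1 * (π.r (j + 1) * π.W (j + 1)) :=
    (mul_le_mul_of_nonneg_left (mul_le_mul_of_nonneg_left k2 (by positivity))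
      (kap_nonneg h.T_two)).trans (mul_le_mul_of_nonneg_right (Top.kap_le h.T_two) (by positivity))
  have k4 : 2 / (π.1 : ℝ) * (π.r (j + 1) * π.W (j + 1)) ≤ π.D j / 2 := by
    rw [div_mul_eq_mul_div, div_le_iff₀ T0]
    linarith
  refine (norm_wgt _ _ _ _ _).trans ?_
  rw [← Real.exp_log two_pos, ← Real.exp_nat_mul, Real.exp_le_exp]
  push_cast
  nlinarith [Real.log_two_gt_d9, Nat.cast_nonneg (α := ℝ) (π.D j)]

/-- The values of a test of level `j`, times `n + 1`, are at most `2 ^ D j`. -/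
theorem sev_le (h : Good n a b m π) (hj : j ≤ π.J) {L : SC}
    (hL : CInv π.1 (π.c1 a) (π.c2 a b) (π.mm a b) j L) {y : List Bool} (hy : y.length ≤ n) :
    ((n : ℝ) + 1) * ‖sev π.1 L y‖ ≤ 2 ^ π.D j := by
  have h1 := (norm_ok _ _ _ _ _ _ _ _ n L h.T_two h.mm_le hL).2.1 y hy
  have p2 : (n : ℝ) + 1 ≤ 2 ^ Nat.size n := by exact_mod_cast Nat.lt_size_self n
  have d := h.D_ge hj
  have g1 : 16 ^ (j + 1) ≤ 16 ^ (π.J + 1) := Nat.pow_le_pow_right (by norm_num) (by omega)
  have g4 : 4 ^ j ≤ 16 ^ j := Nat.pow_le_pow_left (by norm_num) _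
  have g6 : 1 ≤ 4 ^ j := Nat.one_le_pow _ _ (by norm_num)
  have g7 := Nat.mul_le_mul_left (Nat.size n)
    (show 3 * 4 ^ j - 2 + 1 ≤ 16 ^ (π.J + 1) by rw [pow_succ] at g1; omega)
  rw [pow_succ 16 (π.J + 1)] at d
  refine (mul_le_mul_of_nonneg_left h1 (by positivity)).trans ?_
  rw [mul_left_comm, ← pow_succ']
  refine (mul_le_mul_of_nonneg_left (pow_le_pow_left₀ (by positivity) p2 _)
    (by positivity)).trans ?_
  push_cast
  rw [← pow_mul, ← pow_add]
  exact pow_le_pow_right₀ one_le_two (by nlinarith)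

theorem UU_le (h : Good n a b m π) (hj : j < π.J) (hx : x.length = n) (i2 : i1 ≤ n) {c : Qy}
    (hL : CInv π.1 (π.c1 a) (π.c2 a b) (π.mm a b) j c.1) :
    ‖UU π.1 as (π.r (j + 1)) (π.W (j + 1)) x i1 c‖ ≤ 2 ^ (2 * π.D j) := by
  have n0 : (0 : ℝ) < (n : ℝ) + 1 := by positivity
  refine (norm_sum_le_of_le _ (n := fun _ => 2 ^ π.D j / ((n : ℝ) + 1) * 2 ^ π.D j)
    fun i hi => ?_).trans ?_
  · rw [norm_mul]
    have := mem_range.1 hi
    exact mul_le_mul ((le_div_iff₀' n0).2 (sev_le h hj.le hL (hx ▸ length_sfx_le x i)))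
      (wgt_le h hj _ _ (by omega)) (norm_nonneg _) (by positivity)
  · have : ((i1 + min (π.W (j + 1)) (x.length - i1) + 1 : ℕ) : ℝ) ≤ n + 1 := by
      exact_mod_cast (by omega)
    rw [sum_const, card_range, nsmul_eq_mul, two_mul, pow_add]
    refine (mul_le_mul_of_nonneg_right this (by positivity)).trans_eq ?_
    field_simp

/-- The rows of weights. -/
theorem val_row (hW : WIN) {Dm J : ℕ} (R : Room P T n b Dm J) (has : ∀ e ∈ as, e.natAbs ≤ T)
    {k e : ℤ} (hk : k.natAbs ≤ T) (he : e.natAbs ≤ T) (hx : x.length = n) (i0 : 1 ≤ i1)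
    (i2 : i1 ≤ n) : (rowG P T as k e W n (sfx x (i1 - 1))).map G.val =
      (List.range (min W (n - i1) + 1)).map fun l : ℕ => wgt T as k e l := by
  have l1 : (sfx x (i1 - 1)).length + 1 = i1 := by rw [length_sfx (by omega)]; omega
  rw [Top.rowG_eq, l1, rng_eq (by have := R.n_le; omega), List.map_map]
  refine List.map_congr_left fun l hl => ?_
  have := List.mem_range.1 hl
  have pT : ∀ e : ℤ, e.natAbs ≤ T → (e * (l : ℕ)).natAbs ≤ P := fun e he => by
    rw [Int.natAbs_mul, Int.natAbs_natCast]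
    exact (Nat.mul_le_mul he (by omega)).trans R.Tn_le
  exact hW.1 P T as k e l R.1 (fun e he => pT e (has e he)) (pT _ hk) (pT _ he)

theorem val_oneG (hW : WIN) (hA : PAST) (h : Good n a b m π) (hP : m * (Nat.size b + 1) ≤ P)
    (hj : j < π.J) (hx : x.length = n) (i0 : 1 ≤ i1) (i2 : i1 ≤ n) :
    G.val (oneG P π j n (sfx x (i1 - 1))) =
      UU π.1 (angs P π (j + 1)) (π.r (j + 1)) (π.W (j + 1)) x i1 (cone, 0) := by
  have rT := h.r_T (show j + 1 ≤ π.J from hj)
  rw [oneG, G.val_add, G.val_sum, UU_split, val_row hW (h.room hP) (h.angs_mem hP hj) (by omega)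
    (by simp) hx i0 i2, hA P π.1 n b _ _ (π.c1 a) (π.c2 a b) _ j _ _ x i1 _ (h.room hP) hj.le
    h.mm_le (cinv_cone j) (h.angs_mem hP hj) (by omega) (by simp) hx i0 i2, hx]
  simp only [sev_cone, one_mul]
  rfl

theorem div_err {z v o : ℂ} {ε : ℝ} (ho : 1 ≤ ‖o‖) (h : ‖z - v * o‖ ≤ ε) : ‖z / o - v‖ ≤ ε := by
  have h0 : o ≠ 0 := norm_pos_iff.1 (by linarith)
  rw [div_sub' h0, norm_div, mul_comm]
  exact (div_le_self (norm_nonneg _) ho).trans h

/-- **MARG.** -/
theorem marg_ok (hW : WIN) (hA : PAST) (hR : PROD) (hM : MARCH) : MARG := by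
  intro P n a b m π j x i1 tb c h hP hj hx i0 i2 hc H
  have XP := h.X_lt_P hP hj
  have d0 := h.D_ge' hj.le
  have d1 := h.D_succ j hj
  have d2 := h.D_mono (show j + 1 ≤ π.J from hj) le_rfl
  have rT := h.r_T (show j + 1 ≤ π.J from hj)
  have fT : π.u j * (2 * π.X j + 1) ≤ π.1 := by
    have := h.uX_le hj
    have := Nat.mul_le_mul_left (π.u j) (h.X_pos j hj)
    rw [mul_add, mul_left_comm]
    omega
  have key := fun p (hp : p ∈ pats P (π.u j) (π.X j) c.1) =>
    have f := pats_facts XP hc.1 hp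
    hR P π.1 n b _ _ _ _ _ j (π.r (j + 1)) (π.W (j + 1)) (angs P π (j + 1)) x i1 tb p _
      (h.room hP) hj h.mm_le (h.angs_len_D hP hj) (h.angs_sum_T hP hj) (by omega) f.1
      (f.2.1.1.trans fT) (f.2.1.2.1.trans fT) (f.2.1.2.2.1.trans fT) (f.2.1.2.2.2.trans fT)
      (fun e he => h.padm hj f.2.1 (he.trans (h.angs_sum_succ hP hj))) hx i0 i2
      fun c' hc' => H c' (List.mem_flatMap.2 ⟨p, hp, hc'⟩)
  have o1 := one_le_UU (T := π.1) (as := angs P π (j + 1)) (r := π.r (j + 1)) (W := π.W (j + 1))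
    (x := x) (i1 := i1)
  have o2 := val_oneG hW hA h hP hj hx i0 i2
  refine hM P (π.X j) _ (2 ^ 37 * π.D j) (2 * π.D j) _
    (fun k => UU π.1 (angs P π (j + 1)) (π.r (j + 1)) (π.W (j + 1)) x i1
      (c.1, ((π.u j * k : ℕ) : ℤ))) _ _ _ (by have := h.X_le hj; omega) XP (by omega) ?_
    (fun k _ => UU_le h hj hx i2 hc.1) (fun k hk => ?_) (fun k' k t h1 h2 => ?_) fun k t h1 => ?_
  · have h1 : π.D π.J < 2 ^ π.D π.J := Nat.lt_two_pow_self
    have h2 := h.pow_le hP (k := π.D π.J + 7) (by nlinarith)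
    rw [pow_add] at h2
    omega
  · have := key (patP (π.u j) c.1 k) (by
      simp only [pats, rng_eq XP, List.mem_append, List.mem_map, List.mem_range]
      exact Or.inl ⟨k, by omega, rfl⟩)
    rw [G.val_div, G.val_mul, o2]
    refine div_err (by rw [norm_mul]; exact one_le_mul_of_one_le_of_one_le o1 o1) ?_
    rw [← mul_assoc, ← UU_cj]
    exact this
  · have := key (patQ (π.u j) c.1 k' k t) (by
      simp only [pats, rng_eq XP, List.mem_append, List.mem_map, List.mem_flatMap, List.mem_range]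
      exact Or.inr (Or.inl ⟨k', by omega, k, by omega, t, by omega, rfl⟩))
    rw [← UU_cj, ← UU_cj]
    exact this
  · have := key (patT (π.u j) c.1 k t) (by
      simp only [pats, rng_eq XP, List.mem_append, List.mem_map, List.mem_flatMap, List.mem_range]
      exact Or.inr (Or.inr ⟨k, by omega, t, by omega, rfl⟩))
    rw [G.val_div, o2]
    refine div_err o1 ?_
    rw [← UU_cj, ← UU_cj]
    exact this

end Vale.Agent.P321D.Mg
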