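import Vale.Agent.P321D.Num2

/-!
# P321 decoder: existence of good parameters
-/

namespace Vale.Agent.P321D

open Vale.Agent.Lib.PolyTime Filter

theorem wN_ge_one (l zm j : ℕ) : min (zm + 2 ^ j) l ≤ wN l (41 + zm) 0 zm j := by
  induction j with
  | zero => simp only [wN]; omega
  | succ j ih =>
    simp only [wN]
    rw [pow_succ]
    omega

theorem wN_ge_two (l w0 zp j : ℕ) : min (2 ^ j * zp) l ≤ wN l w0 zp 0 (j + 1) := by
  induction j with
  | zero => simp only [wN]; omega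
  | succ j ih =>
    have e : wN l w0 zp 0 (j + 1 + 1) = max (wN l w0 zp 0 (j + 1) + 41)
      (min (2 * wN l w0 zp 0 (j + 1) + zp - 0) l) := rfl
    have e2 : 2 ^ (j + 1) * zp = 2 * (2 ^ j * zp) := by ring
    rw [e, e2]
    omega

theorem good_one {a b n g : ℕ} {ts : List (List Bool)} (ha : 0 < a) (hab : a < b) (hn : 2 ≤ n)
    (hg : b ≤ (b - a) * 2 ^ g)
    (hm : (Nat.size (Nat.size n) + 10) * 2 ^ (72 + 83 * Nat.size (Nat.size n) + g) <
      Nat.size ts.length) : Good n a b ts.length (sel (a, b, n, ts)) := by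
  set l := Nat.size n with hl
  set J := Nat.size l with hJ
  have hl1 : 0 < l := Nat.size_pos.2 (by omega)
  have hJ1 : 0 < J := Nat.size_pos.2 hl1
  have hlJ : l < 2 ^ J := Nat.lt_size_self l
  have hlt : ∀ k : ℕ, k < 2 ^ k := fun k => Nat.lt_two_pow_self
  set d0 := 72 + 43 * J + g with hd0
  have e0 : d0 + 40 * J = 72 + 83 * J + g := by omega
  have hE : 11 * 2 ^ (72 + 83 * J + g) < Nat.size ts.length :=
    lt_of_le_of_lt (Nat.mul_le_mul_right _ (show 11 ≤ J + 10 by omega)) hm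
  have k1 := hlt (72 + 83 * J + g)
  refine good_sel (e := (J, d0, 41 + (40 + 2 * J + (d0 + 40 * J) + g), 0,
    40 + 2 * J + (d0 + 40 * J) + g)) ⟨⟨ha, hab, by omega, hJ1⟩, ?_, ?_, ?_, ?_, ?_, ?_, ?_, ?_,
      ?_, ?_⟩ (by dsimp only; omega) (by dsimp only; omega) (by dsimp only; omega)
      (by dsimp only; omega) (by dsimp only; omega)
  · dsimp only; omega
  · dsimp only
    have := wN_ge_one l (40 + 2 * J + (d0 + 40 * J) + g) J
    rw [← hl]
    omega
  · dsimp only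
    calc a * 2 ^ (40 + 2 * J + (d0 + 40 * J) + 0) ≤
          (b - a) * 2 ^ g * 2 ^ (40 + 2 * J + (d0 + 40 * J) + 0) :=
          Nat.mul_le_mul_right _ (hab.le.trans hg)
      _ = _ := by ring
  · dsimp only; omega
  · dsimp only
    calc b * 2 ^ (2 + 2 * J + d0) ≤ (b - a) * 2 ^ g * 2 ^ (2 + 2 * J + d0) :=
          Nat.mul_le_mul_right _ hg
      _ = (b - a) * 2 ^ (g + (2 + 2 * J + d0)) := by ring
      _ ≤ _ := Nat.mul_le_mul_left _ (pw_le (by omega))
  · dsimp only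
    have k2 := hlt d0
    have k3 : 2 ^ J ≤ 2 ^ d0 := pw_le (by omega)
    have k4 : 2 ^ (37 + d0) = 2 ^ 37 * 2 ^ d0 := pow_add _ _ _
    omega
  · dsimp only
    calc 2 ^ (4 * (J + 2)) * (l + 1) ≤ 2 ^ (4 * (J + 2)) * 2 ^ J := Nat.mul_le_mul_left _ hlJ
      _ = 2 ^ (4 * (J + 2) + J) := by rw [← pow_add]
      _ ≤ _ := pw_le (by omega)
  · dsimp only
    exact hg.trans (Nat.mul_le_mul_left _ (pw_le (by omega)))
  · dsimp only
    have k2 : 2 ^ (d0 - 1) ≤ 2 ^ d0 - 3 := by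
      have k3 : 2 ^ d0 = 2 * 2 ^ (d0 - 1) := by
        rw [← pow_succ']; congr 1; omega
      have k4 := hlt (d0 - 1)
      omega
    calc 112 * 2 ^ (41 + (40 + 2 * J + (d0 + 40 * J) + g)) * (3 * l + 2)
        ≤ 2 ^ 7 * 2 ^ (41 + (40 + 2 * J + (d0 + 40 * J) + g)) * 2 ^ (J + 2) := by
          apply Nat.mul_le_mul (Nat.mul_le_mul_right _ (by norm_num))
          rw [pow_add]
          omega
      _ = 2 ^ (7 + (41 + (40 + 2 * J + (d0 + 40 * J) + g)) + (J + 2)) := by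
          rw [← pow_add, ← pow_add]
      _ ≤ 2 ^ ((d0 - 1) + (d0 + 19)) := pw_le (by omega)
      _ = 2 ^ (d0 - 1) * 2 ^ (d0 + 19) := pow_add _ _ _
      _ ≤ _ := Nat.mul_le_mul_right _ k2
  · dsimp only
    rw [e0]
    exact hm

theorem good_two {a b n k : ℕ} {ts : List (List Bool)} (ha : 0 < a) (hab : a < b) (hn : 2 ≤ n)
    (hk : 1 ≤ k)
    (hq : a * 2 ^ (107 + 46 * k + Nat.size (Nat.size n) + Nat.size n / k) ≤ b - a)
    (hm : (k + 11) * 2 ^ (64 + 44 * k + Nat.size (Nat.size n)) < Nat.size ts.length) :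
    Good n a b ts.length (sel (a, b, n, ts)) := by
  set l := Nat.size n with hl
  set s := Nat.size l with hs
  have hls : l < 2 ^ s := Nat.lt_size_self l
  have hlt : ∀ k : ℕ, k < 2 ^ k := fun k => Nat.lt_two_pow_self
  set d0 := s + 4 * k + 24 with hd0
  have hE : 11 * 2 ^ (64 + 44 * k + s) < Nat.size ts.length :=
    lt_of_le_of_lt (Nat.mul_le_mul_right _ (show 11 ≤ k + 11 by omega)) hm
  have k1 := hlt (64 + 44 * k + s)
  have k0 : 2 ^ s ≤ 2 ^ (64 + 44 * k + s) := pw_le (by omega)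
  have hzl : l / k ≤ l := Nat.div_le_self _ _
  have hab2 : a ≤ b - a := le_trans (Nat.le_mul_of_pos_right _ (by positivity)) hq
  refine good_sel (e := (k + 1, d0, d0 + 19 + 2 * (k + 1), l / k + 1, 0))
    ⟨⟨ha, hab, by omega, by dsimp only; omega⟩, ?_, ?_, ?_, ?_, ?_, ?_, ?_, ?_,
      ?_, ?_⟩ (by dsimp only; omega) (by dsimp only; omega) (by dsimp only; omega)
      (by dsimp only; omega) (by dsimp only; omega)
  · dsimp only; omega
  · dsimp only
    have k2 := wN_ge_two l (d0 + 19 + 2 * (k + 1)) (l / k + 1) k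
    have k3 : l ≤ 2 ^ k * (l / k + 1) := by
      have k4 : l < k * (l / k + 1) := Nat.lt_mul_div_succ l (by omega)
      exact k4.le.trans (Nat.mul_le_mul_right _ (hlt k).le)
    rw [← hl]
    omega
  · dsimp only
    rw [pow_zero, mul_one]
    refine le_trans (Nat.mul_le_mul_left _ (pw_le ?_)) hq
    generalize l / k = z
    omega
  · dsimp only
    generalize l / k = z
    omega
  · dsimp only
    calc b * 2 ^ (2 + 2 * (k + 1) + d0) ≤ (b - a) * 2 * 2 ^ (2 + 2 * (k + 1) + d0) :=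
          Nat.mul_le_mul_right _ (by omega)
      _ = (b - a) * 2 ^ (1 + (2 + 2 * (k + 1) + d0)) := by ring
      _ ≤ _ := Nat.mul_le_mul_left _ (pw_le (by omega))
  · dsimp only
    have k2 := hlt d0
    have k3 : 2 ^ s ≤ 2 ^ d0 := pw_le (by omega)
    have k4 : 2 ^ (37 + d0) = 2 ^ 37 * 2 ^ d0 := pow_add _ _ _
    omega
  · dsimp only
    calc 2 ^ (4 * (k + 1 + 2)) * (l + 1) ≤ 2 ^ (4 * (k + 1 + 2)) * 2 ^ s :=
          Nat.mul_le_mul_left _ hls
      _ = 2 ^ (4 * (k + 1 + 2) + s) := by rw [← pow_add]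
      _ ≤ _ := pw_le (by omega)
  · dsimp only
    calc b ≤ (b - a) * 2 ^ 1 := by omega
      _ ≤ _ := Nat.mul_le_mul_left _ (pw_le (by omega))
  · dsimp only
    have k2 : 2 ^ (d0 - 1) ≤ 2 ^ d0 - 3 := by
      have k3 : 2 ^ d0 = 2 * 2 ^ (d0 - 1) := by
        rw [← pow_succ']; congr 1
      have k4 := hlt (d0 - 1)
      omega
    calc 112 * 2 ^ (d0 + 19 + 2 * (k + 1)) * (3 * l + 2)
        ≤ 2 ^ 7 * 2 ^ (d0 + 19 + 2 * (k + 1)) * 2 ^ (s + 2) := by
          apply Nat.mul_le_mul (Nat.mul_le_mul_right _ (by norm_num))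
          rw [pow_add]
          omega
      _ = 2 ^ (7 + (d0 + 19 + 2 * (k + 1)) + (s + 2)) := by rw [← pow_add, ← pow_add]
      _ ≤ 2 ^ ((d0 - 1) + (d0 + 19)) := pw_le (by omega)
      _ = 2 ^ (d0 - 1) * 2 ^ (d0 + 19) := pow_add _ _ _
      _ ≤ _ := Nat.mul_le_mul_right _ k2
  · dsimp only
    have e0 : d0 + 40 * (k + 1) = 64 + 44 * k + s := by omega
    rw [e0]
    exact hm

theorem two_pow_size_le {l : ℕ} (hl : 0 < l) : 2 ^ Nat.size l ≤ 2 * l := by
  have h1 : 0 < Nat.size l := Nat.size_pos.2 hl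
  have h2 : 2 ^ (Nat.size l - 1) ≤ l := Nat.lt_size.1 (by omega)
  have h3 : 2 ^ Nat.size l = 2 * 2 ^ (Nat.size l - 1) := by
    rw [← pow_succ']; congr 1; omega
  omega

theorem size_le_log {n : ℕ} (hn : 2 ≤ n) : (Nat.size n : ℝ) ≤ 3 * Real.log n := by
  have h1 : ((2 ^ Nat.size n : ℕ) : ℝ) ≤ ((2 * n : ℕ) : ℝ) := by
    exact_mod_cast two_pow_size_le (show 0 < n by omega)
  push_cast at h1
  have hn2 : (2 : ℝ) ≤ n := by exact_mod_cast hn
  have h2 := Real.log_le_log (by positivity) h1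
  rw [Real.log_pow, Real.log_mul (by norm_num) (by positivity)] at h2
  have h3 := Real.log_le_log (by norm_num) hn2
  have h4 := Real.log_two_gt_d9
  have h5 : (0 : ℝ) ≤ Nat.size n := Nat.cast_nonneg _
  nlinarith

theorem lt_size_of_exp {E m : ℕ} {x : ℝ} (h : (E : ℝ) ≤ x) (hm : Real.exp x ≤ m) :
    E < Nat.size m := by
  rw [Nat.lt_size]
  have h1 : ((2 ^ E : ℕ) : ℝ) ≤ m := by
    push_cast
    calc (2 : ℝ) ^ E ≤ (Real.exp 1) ^ E := by
          apply pow_le_pow_left₀ (by norm_num)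
          linarith [Real.add_one_le_exp (1 : ℝ)]
      _ = Real.exp E := by rw [← Real.exp_nat_mul, mul_one]
      _ ≤ Real.exp x := Real.exp_le_exp.2 h
      _ ≤ m := hm
  exact_mod_cast h1

theorem num_one {a b n : ℕ} {ts : List (List Bool)} (ha : 0 < a) (hab : a < b) (hn : 2 ≤ n)
    (hm : Real.exp (11 * 2 ^ 74 * 6 ^ 84 * (Real.log n) ^ 84 / (1 - (a : ℝ) / b)) ≤ ts.length) :
    Good n a b ts.length (sel (a, b, n, ts)) := by
  have hba : 0 < b - a := by omega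
  have hdiv : 0 < b / (b - a) := Nat.div_pos (by omega) hba
  refine good_one (g := Nat.size (b / (b - a))) ha hab hn ?_ (lt_size_of_exp ?_ hm)
  · have h1 : b < (b - a) * (b / (b - a) + 1) := Nat.lt_mul_div_succ b hba
    exact h1.le.trans (Nat.mul_le_mul_left _ (Nat.lt_size_self _))
  · set J := Nat.size (Nat.size n) with hJ
    have hl1 : 0 < Nat.size n := Nat.size_pos.2 (by omega)
    have habR : (a : ℝ) < b := by exact_mod_cast hab
    have hb0 : (0 : ℝ) < b := by linarith [(Nat.cast_nonneg a : (0 : ℝ) ≤ a)]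
    have hp : 0 < 1 - (a : ℝ) / b := by
      rw [sub_pos, div_lt_one hb0]; exact habR
    have h1 : (2 : ℝ) ^ J ≤ 6 * Real.log n := by
      have h2 : ((2 ^ J : ℕ) : ℝ) ≤ ((2 * Nat.size n : ℕ) : ℝ) := by
        exact_mod_cast two_pow_size_le hl1
      push_cast at h2
      linarith [size_le_log hn]
    have h2 : (2 : ℝ) ^ Nat.size (b / (b - a)) ≤ 2 / (1 - (a : ℝ) / b) := by
      have h3 : ((2 ^ Nat.size (b / (b - a)) : ℕ) : ℝ) ≤ ((2 * (b / (b - a)) : ℕ) : ℝ) := by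
        exact_mod_cast two_pow_size_le hdiv
      have h4 : ((b / (b - a) : ℕ) : ℝ) ≤ (b : ℝ) / ((b - a : ℕ) : ℝ) := Nat.cast_div_le
      rw [Nat.cast_sub hab.le] at h4
      have h5 : (b : ℝ) / ((b : ℝ) - a) = 1 / (1 - (a : ℝ) / b) := by
        field_simp
      push_cast at h3
      rw [h5] at h4
      have h6 : 2 / (1 - (a : ℝ) / b) = 2 * (1 / (1 - (a : ℝ) / b)) := by ring
      linarith
    have h3 : ((J : ℝ) + 10) ≤ 11 * 2 ^ J := by
      have h4 : (J : ℝ) < 2 ^ J := by exact_mod_cast (Nat.lt_two_pow_self : J < 2 ^ J)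
      have h5 : (1 : ℝ) ≤ 2 ^ J := one_le_pow₀ (by norm_num)
      linarith
    push_cast
    calc ((J : ℝ) + 10) * 2 ^ (72 + 83 * J + Nat.size (b / (b - a)))
        = ((J : ℝ) + 10) * (2 ^ 72 * (2 ^ J) ^ 83 * 2 ^ Nat.size (b / (b - a))) := by ring
      _ ≤ (11 * 2 ^ J) * (2 ^ 72 * (2 ^ J) ^ 83 * (2 / (1 - (a : ℝ) / b))) := by gcongr
      _ = 11 * 2 ^ 73 * (2 ^ J) ^ 84 / (1 - (a : ℝ) / b) := by ring
      _ ≤ 11 * 2 ^ 74 * (6 * Real.log n) ^ 84 / (1 - (a : ℝ) / b) := by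
          gcongr
          · norm_num
          · norm_num
      _ = _ := by rw [mul_pow]; ring

theorem num_large {δ : ℝ} (hδ : 0 < δ) : ∃ (n0 : ℕ) (C : ℝ), 0 < C ∧
    ∀ (a b n : ℕ) (ts : List (List Bool)), 0 < a → a < b → 2 ≤ n → n0 ≤ n →
      (a : ℝ) / b ≤ (n : ℝ) ^ (-δ) → (n : ℝ) ^ C ≤ ts.length →
      Good n a b ts.length (sel (a, b, n, ts)) := by
  set k := ⌈2 / δ⌉₊ + 1 with hk
  have hk1 : 1 ≤ k := by omega
  have hkR : (1 : ℝ) ≤ k := by exact_mod_cast hk1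
  have hkδ : 1 / (k : ℝ) ≤ δ / 2 := by
    have h1 : 2 / δ ≤ (k : ℝ) := by
      rw [hk]; push_cast; linarith [Nat.le_ceil (2 / δ)]
    rw [div_le_iff₀ hδ] at h1
    rw [div_le_iff₀ (by linarith)]
    linarith
  set K : ℝ := 2 ^ (107 + 46 * k) * 12 + 2 with hK
  have hK0 : 0 < K := by positivity
  have ev : ∀ᶠ x : ℝ in atTop, K * Real.log x ≤ x ^ (δ / 2) := by
    have h1 := ((isLittleO_log_rpow_atTop (r := δ / 2) (by linarith)).const_mul_left K).bound
      one_pos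
    filter_upwards [h1, eventually_ge_atTop 0] with x hx hx0
    rw [Real.norm_eq_abs, Real.norm_eq_abs, abs_of_nonneg (Real.rpow_nonneg hx0 _), one_mul] at hx
    exact (le_abs_self _).trans hx
  obtain ⟨n0, hn0⟩ := eventually_atTop.1 (tendsto_natCast_atTop_atTop.eventually ev)
  refine ⟨n0, (k + 11) * 2 ^ (64 + 44 * k) * 6, by positivity,
    fun a b n ts ha hab hn hn' hq hm => ?_⟩
  have hnR : (2 : ℝ) ≤ n := by exact_mod_cast hn
  have hn0' : (0 : ℝ) < n := by linarith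
  have hL : 0.69 ≤ Real.log n := by
    have := Real.log_le_log (by norm_num) hnR
    linarith [Real.log_two_gt_d9]
  have hl1 : 0 < Nat.size n := Nat.size_pos.2 (by omega)
  have hs : (2 : ℝ) ^ Nat.size (Nat.size n) ≤ 6 * Real.log n := by
    have h2 : ((2 ^ Nat.size (Nat.size n) : ℕ) : ℝ) ≤ ((2 * Nat.size n : ℕ) : ℝ) := by
      exact_mod_cast two_pow_size_le hl1
    push_cast at h2
    linarith [size_le_log hn]
  rw [Real.rpow_def_of_pos hn0'] at hm
  refine good_two ha hab hn hk1 ?_ (lt_size_of_exp ?_ hm)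
  · have hz : (2 : ℝ) ^ (Nat.size n / k) ≤ 2 * (n : ℝ) ^ (δ / 2) := by
      have h1 : ((2 : ℝ) ^ (Nat.size n / k)) ^ k ≤ 2 * n := by
        rw [← pow_mul]
        have h2 : ((2 ^ Nat.size n : ℕ) : ℝ) ≤ ((2 * n : ℕ) : ℝ) := by
          exact_mod_cast two_pow_size_le (show 0 < n by omega)
        push_cast at h2
        exact (pow_le_pow_right₀ (by norm_num) (Nat.div_mul_le_self _ _)).trans h2
      have h2 : 2 * (n : ℝ) ≤ (2 * (n : ℝ) ^ (δ / 2)) ^ k := by
        rw [mul_pow, ← Real.rpow_natCast ((n : ℝ) ^ (δ / 2)), ← Real.rpow_mul hn0'.le]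
        have h3 : (2 : ℝ) ≤ 2 ^ k := by
          calc (2 : ℝ) = 2 ^ 1 := by norm_num
            _ ≤ 2 ^ k := pow_le_pow_right₀ (by norm_num) hk1
        have h4 : (n : ℝ) ≤ (n : ℝ) ^ (δ / 2 * k) := by
          conv_lhs => rw [← Real.rpow_one (n : ℝ)]
          apply Real.rpow_le_rpow_of_exponent_le (by linarith)
          rw [div_le_iff₀ (by linarith)] at hkδ
          exact hkδ
        exact mul_le_mul h3 h4 hn0'.le (by positivity)
      exact le_of_pow_le_pow_left₀ (by omega) (by positivity) (h1.trans h2)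
    have hb0 : (0 : ℝ) < b := by
      have : 0 < b := by omega
      exact_mod_cast this
    have h1 := hn0 n hn'
    have hy : 0 < (n : ℝ) ^ (δ / 2) := Real.rpow_pos_of_pos hn0' _
    have hy1 : 1 ≤ (n : ℝ) ^ (δ / 2) := Real.one_le_rpow (by linarith) (by linarith)
    have h2 : (a : ℝ) * ((n : ℝ) ^ (δ / 2) * (n : ℝ) ^ (δ / 2)) ≤ b := by
      rw [← Real.rpow_add hn0', add_halves]
      rw [Real.rpow_neg hn0'.le, div_le_iff₀ hb0, ← div_eq_inv_mul,
        le_div_iff₀ (Real.rpow_pos_of_pos hn0' _)] at hq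
      exact hq
    have h3 : (2 : ℝ) ^ (107 + 46 * k + Nat.size (Nat.size n) + Nat.size n / k) + 1 ≤
        (n : ℝ) ^ (δ / 2) * (n : ℝ) ^ (δ / 2) := by
      calc (2 : ℝ) ^ (107 + 46 * k + Nat.size (Nat.size n) + Nat.size n / k) + 1
          = 2 ^ (107 + 46 * k) * 2 ^ Nat.size (Nat.size n) * 2 ^ (Nat.size n / k) + 1 := by
            rw [pow_add, pow_add]
        _ ≤ 2 ^ (107 + 46 * k) * (6 * Real.log n) * (2 * (n : ℝ) ^ (δ / 2)) +
              2 * Real.log n * (n : ℝ) ^ (δ / 2) := by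
            gcongr
            nlinarith
        _ = K * Real.log n * (n : ℝ) ^ (δ / 2) := by rw [hK]; ring
        _ ≤ _ := mul_le_mul_of_nonneg_right h1 hy.le
    have h4 : (a : ℝ) * ((2 : ℝ) ^ (107 + 46 * k + Nat.size (Nat.size n) + Nat.size n / k) + 1)
        ≤ b := (mul_le_mul_of_nonneg_left h3 (Nat.cast_nonneg a)).trans h2
    have h5 : a * (2 ^ (107 + 46 * k + Nat.size (Nat.size n) + Nat.size n / k) + 1) ≤ b := by
      exact_mod_cast h4
    rw [mul_add, mul_one] at h5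
    omega
  · push_cast
    calc ((k : ℝ) + 11) * 2 ^ (64 + 44 * k + Nat.size (Nat.size n))
        = ((k : ℝ) + 11) * 2 ^ (64 + 44 * k) * 2 ^ Nat.size (Nat.size n) := by
          rw [pow_add _ (64 + 44 * k)]; ring
      _ ≤ ((k : ℝ) + 11) * 2 ^ (64 + 44 * k) * (6 * Real.log n) := by gcongr
      _ = _ := by ring

theorem num : NUM := by
  refine ⟨sel, PT_sel, ⟨11 * 2 ^ 74 * 6 ^ 84, by positivity,
    fun a b n ts ha hab hn hm => num_one ha hab hn hm⟩, fun δ hδ => ?_,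
    fun a b n ts ts' h => by simp only [sel, h]⟩
  obtain ⟨n0, C, hC, h⟩ := num_large hδ
  have h2δ : (2 : ℝ) ^ (-δ) < 1 := Real.rpow_lt_one_of_one_lt_of_neg (by norm_num) (by linarith)
  set p0 : ℝ := 1 - (2 : ℝ) ^ (-δ) with hp0
  have hp0' : 0 < p0 := by linarith
  set C1 : ℝ := 11 * 2 ^ 74 * 6 ^ 84 * (n0 : ℝ) ^ 83 / p0 with hC1
  have hC10 : 0 ≤ C1 := by positivity
  refine ⟨C + C1, by positivity, fun a b n ts ha hab hn hq hm => ?_⟩
  have hnR : (2 : ℝ) ≤ n := by exact_mod_cast hn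
  have hn0' : (0 : ℝ) < n := by linarith
  rcases le_or_gt n0 n with h1 | h1
  · refine h a b n ts ha hab hn h1 hq (le_trans ?_ hm)
    exact Real.rpow_le_rpow_of_exponent_le (by linarith) (by linarith)
  · refine num_one ha hab hn (le_trans ?_ hm)
    rw [Real.rpow_def_of_pos hn0']
    apply Real.exp_le_exp.2
    have hL0 : 0 < Real.log n := Real.log_pos (by linarith)
    have hL1 : Real.log n ≤ n0 := by
      have h2 : (n : ℝ) ≤ n0 := by exact_mod_cast h1.le
      linarith [Real.log_le_sub_one_of_pos hn0']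
    have hp : p0 ≤ 1 - (a : ℝ) / b := by
      have h2 : (n : ℝ) ^ (-δ) ≤ (2 : ℝ) ^ (-δ) :=
        Real.rpow_le_rpow_of_nonpos (by norm_num) hnR (by linarith)
      linarith
    calc 11 * 2 ^ 74 * 6 ^ 84 * (Real.log n) ^ 84 / (1 - (a : ℝ) / b)
        ≤ 11 * 2 ^ 74 * 6 ^ 84 * (Real.log n) ^ 84 / p0 := by gcongr
      _ = Real.log n * (11 * 2 ^ 74 * 6 ^ 84 * (Real.log n) ^ 83 / p0) := by ring
      _ ≤ Real.log n * C1 := by rw [hC1]; gcongr
      _ ≤ Real.log n * (C + C1) := by gcongr; linarith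

end Vale.Agent.P321D
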