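import Vale.Agent.P321D.Comb

/-!
# P321 decoder: the product step
-/

namespace Vale.Agent.P321D

namespace Pr

open Complex Finset

theorem swap {α : Type} (E : List α) (s : Finset ℕ) (f : α → ℕ → ℂ) :
    (E.map fun a => ∑ l ∈ s, f a l).sum = ∑ l ∈ s, (E.map fun a => f a l).sum := by
  induction E with
  | nil => simp
  | cons a E ih => simp [ih, sum_add_distrib]

theorem sum_fm {α β : Type} (E : List α) (f : α → List β) (g : β → ℂ) :
    ((E.flatMap f).map g).sum = (E.map fun a => ((f a).map g).sum).sum := by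
  induction E with
  | nil => rfl
  | cons a E ih => simp [ih]

theorem swap3 {α β : Type} (E : List α) (s : Finset ℕ) (ch : α → α → α → β) (g : β → ℂ)
    (f : α → α → α → ℕ → ℂ)
    (e : ∀ a ∈ E, ∀ a' ∈ E, ∀ a'' ∈ E, g (ch a a' a'') = ∑ l ∈ s, f a a' a'' l) :
    ((E.flatMap fun a => E.flatMap fun a' => E.map fun a'' => ch a a' a'').map g).sum =
      ∑ l ∈ s, (E.map fun a => (E.map fun a' => (E.map fun a'' => f a a' a'' l).sum).sum).sum := by
  rw [sum_fm, ← swap]
  refine congrArg List.sum (List.map_congr_left fun a h1 => ?_)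
  rw [sum_fm, ← swap]
  refine congrArg List.sum (List.map_congr_left fun a' h2 => ?_)
  rw [List.map_map, ← swap]
  exact congrArg List.sum (List.map_congr_left fun a'' h3 => e a h1 a' h2 a'' h3)

theorem alg {α : Type} (E : List α) (t1 t2 t3 t4 : ℂ) (B2 B3 B4 C1 C2 C3 : α → ℂ) :
    (E.map fun a => (E.map fun a' => (E.map fun a'' =>
      t1 * B2 a * B3 a' * B4 a'' + C1 a * t2 * B3 a' * B4 a'' + C1 a * C2 a' * t3 * B4 a'' +
        C1 a * C2 a' * C3 a'' * t4).sum).sum).sum =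
      t1 * (E.map B2).sum * (E.map B3).sum * (E.map B4).sum +
        (E.map C1).sum * t2 * (E.map B3).sum * (E.map B4).sum +
        (E.map C1).sum * (E.map C2).sum * t3 * (E.map B4).sum +
        (E.map C1).sum * (E.map C2).sum * (E.map C3).sum * t4 := by
  simp only [List.sum_map_add, List.sum_map_mul_left, List.sum_map_mul_right]

variable (T : ℕ) (as : List ℤ) (r : ℕ) (x : List Bool) (i1 : ℕ)

/-- One term of a windowed sum. -/
noncomputable def tm (c : Qy) (i : ℕ) : ℂ :=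
  sev T c.1 (sfx x i) * wgt T as (-(r : ℤ)) c.2 ((i : ℤ) - i1)

/-- The phase of a factor. -/
noncomputable def ph (c : Qy) (a : ℤ) (l : ℕ) : ℂ := wv T (-(r : ℤ) * l, (a + c.2) * l)

variable {T as r x i1}

theorem part {E : List ℤ} {M : ℂ} (hM : M ≠ 0)
    (h : ∀ l : ℤ, (Gw T as l : ℂ) = (E.map fun e => wv T (0, e * l)).sum / M) (c : Qy) (l k : ℕ)
    (hk : k ≤ i1 + l + 1) :
    (E.map fun a => ph T r c a l * ∑ i ∈ range k,
      wv T (nz r c a) ^ (i1 + l - i) * sev T c.1 (sfx x i)).sum =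
      M * ∑ i ∈ range k, tm T as r x i1 c i := by
  simp only [mul_sum]
  rw [swap]
  refine sum_congr rfl fun i hi => ?_
  have hi' : i ≤ i1 + l := by have := mem_range.1 hi; omega
  rw [tm, wgt, h, mul_left_comm, ← mul_assoc M, mul_div_cancel₀ _ hM, ← List.sum_map_mul_right,
    ← List.sum_map_mul_left]
  refine congrArg List.sum (List.map_congr_left fun a _ => ?_)
  rw [ph, wv_pow, ← mul_assoc, ← wv_add, ← wv_add, mul_comm, nz]
  push_cast [Nat.cast_sub hi']
  congr 3 <;> ring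

theorem ident (hC : CHILD) {P n b Dm J c1 c2 mm j : ℕ} (W : ℕ) {p : Pat} (hR : Room P T n b Dm J)
    (hj : j < J) (hm : mm ≤ T) (hp : PInv T c1 c2 mm j p)
    (ha : ∀ a ∈ exL P as, PAdm T c1 c2 mm r p a) {M : ℂ} (hM : M ≠ 0)
    (h : ∀ l : ℤ, (Gw T as l : ℂ) = ((exL P as).map fun e => wv T (0, e * l)).sum / M)
    (hi : i1 ≤ x.length) :
    ((kids P r as p).map (Tf T as r W x i1)).sum = M ^ 3 *
      (UU T as r W x i1 p.1 * UU T as r W x i1 p.2.1 * UU T as r W x i1 p.2.2.1 *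
        UU T as r W x i1 p.2.2.2 -
      Past T as (-(r : ℤ)) x i1 p.1 * Past T as (-(r : ℤ)) x i1 p.2.1 *
        Past T as (-(r : ℤ)) x i1 p.2.2.1 * Past T as (-(r : ℤ)) x i1 p.2.2.2) := by
  set u : Qy → ℕ → ℂ := fun c k => ∑ i ∈ range k, tm T as r x i1 c i with hu
  have tel := sum_range_sub (fun l => u p.1 (i1 + l) * u p.2.1 (i1 + l) * u p.2.2.1 (i1 + l) *
    u p.2.2.2 (i1 + l)) (min W (x.length - i1) + 1)
  refine Eq.trans ?_ (congrArg (M ^ 3 * ·) tel)
  have e : ∀ a ∈ exL P as, ∀ a' ∈ exL P as, ∀ a'' ∈ exL P as,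
      Tf T as r W x i1 (child P r p a a' a'') = ∑ l ∈ range (min W (x.length - i1) + 1),
        (tm T as r x i1 p.1 (i1 + l) *
          (ph T r p.2.1 a l * sev T (sM (nz r p.2.1 a) p.2.1.1) (sfx x (i1 + l))) *
          (ph T r p.2.2.1 a' l * sev T (sM (nz r p.2.2.1 a') p.2.2.1.1) (sfx x (i1 + l))) *
          (ph T r p.2.2.2 a'' l * sev T (sM (nz r p.2.2.2 a'') p.2.2.2.1) (sfx x (i1 + l))) +
        (ph T r p.1 a l * sev T (sP (nz r p.1 a) p.1.1) (sfx x (i1 + l))) *
          tm T as r x i1 p.2.1 (i1 + l) *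
          (ph T r p.2.2.1 a' l * sev T (sM (nz r p.2.2.1 a') p.2.2.1.1) (sfx x (i1 + l))) *
          (ph T r p.2.2.2 a'' l * sev T (sM (nz r p.2.2.2 a'') p.2.2.2.1) (sfx x (i1 + l))) +
        (ph T r p.1 a l * sev T (sP (nz r p.1 a) p.1.1) (sfx x (i1 + l))) *
          (ph T r p.2.1 a' l * sev T (sP (nz r p.2.1 a') p.2.1.1) (sfx x (i1 + l))) *
          tm T as r x i1 p.2.2.1 (i1 + l) *
          (ph T r p.2.2.2 a'' l * sev T (sM (nz r p.2.2.2 a'') p.2.2.2.1) (sfx x (i1 + l))) +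
        (ph T r p.1 a l * sev T (sP (nz r p.1 a) p.1.1) (sfx x (i1 + l))) *
          (ph T r p.2.1 a' l * sev T (sP (nz r p.2.1 a') p.2.1.1) (sfx x (i1 + l))) *
          (ph T r p.2.2.1 a'' l * sev T (sP (nz r p.2.2.1 a'') p.2.2.1.1) (sfx x (i1 + l))) *
          tm T as r x i1 p.2.2.2 (i1 + l)) := by
    intro a h1 a' h2 a'' h3
    refine sum_congr rfl fun l _ => ?_
    rw [(hC P T n b Dm J c1 c2 mm j r p a a' a'' hR hj hm hp (ha a h1) (ha a' h2) (ha a'' h3)).2]
    have f : ∀ e1 e2 e3 e4 : ℤ, e1 + e2 + e3 + e4 = (child P r p a a' a'').2 →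
        wv T (-(4 * (r : ℤ)) * l, (child P r p a a' a'').2 * l) =
          wv T (-(r : ℤ) * l, e1 * l) * wv T (-(r : ℤ) * l, e2 * l) *
            wv T (-(r : ℤ) * l, e3 * l) * wv T (-(r : ℤ) * l, e4 * l) := fun e1 e2 e3 e4 he => by
      rw [← wv_add, ← wv_add, ← wv_add, ← he]
      congr 2 <;> ring
    have f1 := f p.1.2 (a + p.2.1.2) (a' + p.2.2.1.2) (a'' + p.2.2.2.2) (by simp only [child]; ring)
    have f2 := f (a + p.1.2) p.2.1.2 (a' + p.2.2.1.2) (a'' + p.2.2.2.2) (by simp only [child]; ring)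
    have f3 := f (a + p.1.2) (a' + p.2.1.2) p.2.2.1.2 (a'' + p.2.2.2.2) (by simp only [child]; ring)
    have f4 := f (a + p.1.2) (a' + p.2.1.2) (a'' + p.2.2.1.2) p.2.2.2.2 (by simp only [child]; ring)
    simp only [tm, ph, wgt, Nat.cast_add, add_sub_cancel_left, add_mul _ _ (_ * wv T _)]
    refine congrArg₂ _ (congrArg₂ _ (congrArg₂ _ ?_ ?_) ?_) ?_
    · rw [f1]; ring
    · rw [f2]; ring
    · rw [f3]; ring
    · rw [f4]; ring
  rw [kids, swap3 _ _ _ _ _ e, mul_sum]
  refine sum_congr rfl fun l hl => ?_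
  have hl' : i1 + l ≤ x.length := by have := mem_range.1 hl; omega
  rw [alg]
  simp only [sev_sM_sfx T _ _ x hl', sev_sP_sfx T _ _ x hl', part hM h _ l _ (Nat.le_succ _),
    part hM h _ l _ le_rfl]
  simp only [hu, ← add_assoc, sum_range_succ _ (i1 + l)]
  ring

end Pr

theorem prod_ok (hW : WIN) (hP : PAST) (hC : CHILD) : PROD := by
  intro P T n b Dm J c1 c2 mm j r W as x i1 tb p ε hR hj hm h1 h2 hr hp e1 e2 e3 e4 ha hx i0 hi hε
  obtain ⟨w1, w2, w3⟩ := hW.2 P T n b Dm J as hR h1 h2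
  have hM : (4 : ℂ) ^ as.length ≠ 0 := pow_ne_zero _ (by norm_num)
  have key := Pr.ident hC W hR hj hm hp (fun a h => ha a (w2 a h)) hM w3 (hx ▸ hi)
  have hl : (kids P r as p).length = (4 ^ as.length) ^ 3 := by
    simp [kids, List.length_flatMap, w1]
    ring
  have hl' : ((kids P r as p).length : ℂ) = (4 ^ as.length) ^ 3 := by exact_mod_cast hl
  have hl0 : 1 ≤ (kids P r as p).length := hl ▸ Nat.one_le_pow _ _ (by positivity)
  have past : ∀ c : Qy, CInv T c1 c2 mm j c.1 → c.2.natAbs ≤ T → _ := fun c g1 g2 =>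
    hP P T n b Dm J c1 c2 mm j as (-(r : ℤ)) x i1 c hR hj.le hm g1
      (fun a h => (List.single_le_sum (fun _ _ => Nat.zero_le _) _
        (List.mem_map_of_mem h)).trans h2) (by simpa using hr) g2 hx i0 hi
  have hb := norm_list_sum_le _ _ hε
  have hs : ((kids P r as p).map fun c => G.val (look tb c) - Tf T as r W x i1 c).sum =
      ((kids P r as p).map fun c => G.val (look tb c)).sum -
        ((kids P r as p).map (Tf T as r W x i1)).sum := by
    generalize kids P r as p = l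
    induction l with
    | nil => simp
    | cons c l ih => simp only [List.map_cons, List.sum_cons, ih]; ring
  rw [hs, key, ← hl'] at hb
  have h0 : (0 : ℝ) < (kids P r as p).length := by exact_mod_cast hl0
  have h0' : ((kids P r as p).length : ℂ) ≠ 0 := by exact_mod_cast h0.ne'
  rw [prodG, G.val_add, G.val_mul, G.val_mul, G.val_mul, G.val_mul, past _ hp.1 e1,
    past _ hp.2.1 e2, past _ hp.2.2.1 e3, past _ hp.2.2.2 e4, G.val_sum, G.val_frac _ hl0,
    List.map_map]
  refine le_of_mul_le_mul_left (le_trans (le_of_eq ?_) hb) h0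
  rw [← Complex.norm_natCast, ← norm_mul]
  congr 1
  simp only [Function.comp_def]
  field_simp
  push_cast
  ring

end Vale.Agent.P321D
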