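import Vale.Agent.P321D.PtcA

/-!
# P321 decoder: running time, part B (tables, phase retrieval, levels)
-/

namespace Vale.Agent.P321D

open Vale.Agent.Lib.PolyTime Vale.Agent.P315.H155

variable {α : Type*} [Enc α]

theorem list_eq_iff {β : Type*} [DecidableEq β] : ∀ l l' : List β,
    (decide (l.length = l'.length) && (l.zip l').all fun e => decide (e.1 = e.2)) = decide (l = l')
  | [], [] => by simp
  | [], _ :: _ => by simp
  | _ :: _, [] => by simp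
  | a :: l, b :: l' => by
    have h := list_eq_iff l l'
    rw [Bool.eq_iff_iff] at h ⊢
    simp only [Bool.and_eq_true, decide_eq_true_eq, List.length_cons, List.zip_cons_cons,
      List.all_cons, List.cons.injEq, Nat.add_right_cancel_iff] at h ⊢
    rw [← h]
    tauto

theorem PT_decEqList {β : Type*} [Enc β] [DecidableEq β]
    (h : PT ∅ (fun p : β × β => decide (p.1 = p.2))) :
    PT ∅ (fun p : List β × List β => decide (p.1 = p.2)) :=
  (PT.and (PT.eqNat PT.fst'.length PT.snd'.length)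
    (PT.all (f := fun _ e => decide (e.1 = e.2)) (PT.zip PT.fst' PT.snd')
      (h.comp PT.snd'))).congr fun p => list_eq_iff p.1 p.2

theorem PT_decEqBool : PT ∅ (fun p : Bool × Bool => decide (p.1 = p.2)) :=
  (PT.xor PT.fst' PT.snd').not.congr fun p => by rcases p with ⟨_ | _, _ | _⟩ <;> rfl

theorem PT_decEqInt : PT ∅ (fun p : ℤ × ℤ => decide (p.1 = p.2)) := PT.intEq PT.fst' PT.snd'

theorem PT_decEqWt : PT ∅ (fun p : Wt × Wt => decide (p.1 = p.2)) :=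
  PT_decEqPair PT_decEqInt PT_decEqInt

theorem PT_decEqQy : PT ∅ (fun p : Qy × Qy => decide (p.1 = p.2)) :=
  PT_decEqPair (PT_decEqList (PT_decEqPair PT_decEqWt
    (PT_decEqList (PT_decEqPair PT_decEqWt PT_decEqBool)))) PT_decEqInt

@[fun_prop] theorem PT_look {tb : α → List (Qy × G)} {c : α → Qy} (htb : PT ∅ tb) (hc : PT ∅ c) :
    PT ∅ (fun a => look (tb a) (c a)) := by
  have h : PT ∅ (fun p : α × (Qy × G) => decide (p.2.1 = c p.1)) :=
    PT_decEqQy.comp (PT.pair PT.snd'.fst (hc.comp PT.fst'))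
  exact PT.optGetD (PT_optMap (g := fun _ e => e.2)
    (PT.find? (f := fun a e => decide (e.1 = c a)) htb h) PT.snd'.snd) (PT.const _)

@[fun_prop] theorem PT_prodG {P T r : α → ℕ} {as : α → List ℤ} {y : α → List Bool}
    {tb : α → List (Qy × G)} {p : α → Pat} (hP : PT ∅ P) (hb : PBd P) (hT : PT ∅ T) (hr : PT ∅ r)
    (has : PT ∅ as) (hy : PT ∅ y) (htb : PT ∅ tb) (hp : PT ∅ p) :
    PT ∅ (fun a => prodG (P a) (T a) (r a) (as a) (y a) (tb a) (p a)) := by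
  unfold prodG; fun_prop

@[fun_prop] theorem PT_patP {u x : α → ℕ} {L : α → SC} (hu : PT ∅ u) (hL : PT ∅ L) (hx : PT ∅ x) :
    PT ∅ (fun a => patP (u a) (L a) (x a)) := by
  unfold patP; fun_prop

@[fun_prop] theorem PT_patQ {u x' x t : α → ℕ} {L : α → SC} (hu : PT ∅ u) (hL : PT ∅ L)
    (hx' : PT ∅ x') (hx : PT ∅ x) (ht : PT ∅ t) :
    PT ∅ (fun a => patQ (u a) (L a) (x' a) (x a) (t a)) := by
  unfold patQ; fun_prop

@[fun_prop] theorem PT_patT {u x t : α → ℕ} {L : α → SC} (hu : PT ∅ u) (hL : PT ∅ L)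
    (hx : PT ∅ x) (ht : PT ∅ t) : PT ∅ (fun a => patT (u a) (L a) (x a) (t a)) := by
  unfold patT; fun_prop

@[fun_prop] theorem PT_pats {P u X : α → ℕ} {L : α → SC} (hP : PT ∅ P) (hb : PBd P) (hu : PT ∅ u)
    (hX : PT ∅ X) (hL : PT ∅ L) : PT ∅ (fun a => pats (P a) (u a) (X a) (L a)) := by
  unfold pats; fun_prop

@[fun_prop] theorem PT_piv {P X t : α → ℕ} {g : α → ℕ → Bool} (hP : PT ∅ P) (hb : PBd P)
    (hX : PT ∅ X) (hg : PT ∅ fun q : α × ℕ => g q.1 q.2) (ht : PT ∅ t) :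
    PT ∅ (fun a => piv (P a) (X a) (g a) (t a)) := by
  have h : PT ∅ (fun q : α × ℕ => g q.1 q.2 && g q.1 (q.2 + t q.1)) :=
    hg.and (hg.comp (f := fun q : α × ℕ => (q.1, q.2 + t q.1)) (by fun_prop))
  exact PT.optGetD (PT.find? (f := fun a x => g a x && g a (x + t a)) (by fun_prop) h) (PT.const _)

@[fun_prop] theorem PT_lagY {P R X t : α → ℕ} {g : α → ℕ → Bool} {p : α → ℕ → G}
    {q : α → ℕ → ℕ → ℕ → G} (hP : PT ∅ P) (hb : PBd P) (hR : PT ∅ R) (hX : PT ∅ X)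
    (hg : PT ∅ fun e : α × ℕ => g e.1 e.2) (hp : PT ∅ fun e : α × ℕ => p e.1 e.2)
    (hq : PT ∅ fun e : α × ℕ × ℕ × ℕ => q e.1 e.2.1 e.2.2.1 e.2.2.2) (ht : PT ∅ t) :
    PT ∅ (fun a => lagY (P a) (R a) (X a) (g a) (p a) (q a) (t a)) := by
  have h0 : PT ∅ fun e : α × ℕ => piv (P e.1) (X e.1) (g e.1) e.2 :=
    PT_piv (g := fun e : α × ℕ => g e.1) (hP.comp PT.fst') (hb.comp (A := ∅) PT.fst')
      (hX.comp PT.fst') (hg.comp (PT.pair PT.fst'.fst PT.snd')) PT.snd'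
  have h1 : PT ∅ fun e : α × ℕ × G => piv (P e.1) (X e.1) (g e.1) (e.2.1 + 1) :=
    h0.comp (f := fun e : α × ℕ × G => (e.1, e.2.1 + 1)) (by fun_prop)
  have h2 : PT ∅ fun e : α × ℕ × G => piv (P e.1) (X e.1) (g e.1) e.2.1 :=
    h0.comp (f := fun e : α × ℕ × G => (e.1, e.2.1)) (by fun_prop)
  have h3 : PT ∅ fun e : α × ℕ × G => q e.1 (piv (P e.1) (X e.1) (g e.1) (e.2.1 + 1))
      (piv (P e.1) (X e.1) (g e.1) e.2.1) e.2.1 :=
    hq.comp (PT.pair PT.fst' (PT.pair h1 (PT.pair h2 PT.snd'.fst)))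
  have h4 : PT ∅ fun a => p a (piv (P a) (X a) (g a) 0) :=
    hp.comp (PT.pair PT.id (PT_piv hP hb hX hg (PT.const 0)))
  exact PT_natRecC hP hb (PT.min ht hP) (PBd_min_right hb)
    (G.PT_rnd (hR.comp PT.fst') (G.PT_div h3 (G.PT_conj PT.snd'.snd))) (G.PT_rnd hR h4)

@[fun_prop] theorem PT_march {P R X : α → ℕ} {th : α → G} {p : α → ℕ → G}
    {q : α → ℕ → ℕ → ℕ → G} {tr : α → ℕ → ℕ → G} (hP : PT ∅ P) (hb : PBd P) (hR : PT ∅ R)
    (hX : PT ∅ X) (hth : PT ∅ th) (hp : PT ∅ fun e : α × ℕ => p e.1 e.2)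
    (hq : PT ∅ fun e : α × ℕ × ℕ × ℕ => q e.1 e.2.1 e.2.2.1 e.2.2.2)
    (htr : PT ∅ fun e : α × ℕ × ℕ => tr e.1 e.2.1 e.2.2) :
    PT ∅ (fun a => march (P a) (R a) (X a) (th a) (p a) (q a) (tr a)) := by
  have hg : PT ∅ fun e : α × ℕ => G.nle (th e.1) (p e.1 e.2) := G.PT_nle (hth.comp PT.fst') hp
  have hf : PT ∅ fun a => (rng (P a) (X a + 1)).filter fun x => !G.nle (th a) (p a x) :=
    PT.filter (f := fun a x => !G.nle (th a) (p a x)) (by fun_prop) hg.not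
  have hg' : PT ∅ fun e : (α × ℕ) × ℕ => G.nle (th e.1.1) (p e.1.1 e.2) :=
    hg.comp (PT.pair PT.fst'.fst PT.snd')
  have hP' : PT ∅ fun e : α × ℕ => P e.1 := hP.comp PT.fst'
  have hb' : PBd fun e : α × ℕ => P e.1 := hb.comp (A := ∅) PT.fst'
  have h0 : PT ∅ fun e : α × ℕ => piv (P e.1) (X e.1) (fun x => G.nle (th e.1) (p e.1 x)) e.2 :=
    PT_piv (g := fun (e : α × ℕ) x => G.nle (th e.1) (p e.1 x)) hP' hb' (hX.comp PT.fst') hg'
      PT.snd'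
  have h1 : PT ∅ fun e : α × ℕ => lagY (P e.1) (R e.1) (X e.1)
      (fun x => G.nle (th e.1) (p e.1 x)) (p e.1) (q e.1) e.2 :=
    PT_lagY (g := fun (e : α × ℕ) x => G.nle (th e.1) (p e.1 x)) (p := fun e : α × ℕ => p e.1)
      (q := fun e : α × ℕ => q e.1) hP' hb' (hR.comp PT.fst') (hX.comp PT.fst') hg'
      (hp.comp (PT.pair PT.fst'.fst PT.snd')) (hq.comp (PT.pair PT.fst'.fst PT.snd')) PT.snd'
  have h2 : PT ∅ fun e : α × ℕ =>
      tr e.1 (piv (P e.1) (X e.1) (fun x => G.nle (th e.1) (p e.1 x)) e.2) e.2 :=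
    htr.comp (PT.pair PT.fst' (PT.pair h0 PT.snd'))
  unfold march
  refine PT.ite (PT.le hX (PT.mul (PT.const 10) hf.length))
    (PT.map (f := fun _ x => (x, G.int 0)) hf (by fun_prop)) (PT.map (by fun_prop) ?_)
  exact PT.pair PT.snd' (G.PT_conj (G.PT_div h2 h1))

section
variable {π : α → Par} {j : α → ℕ}

@[fun_prop] theorem PT_lv (hπ : PT ∅ π) (hj : PT ∅ j) : PT ∅ (fun a => (π a).lv (j a)) :=
  PT.getD hπ.snd hj (PT.const _)

@[fun_prop] theorem PT_W (hπ : PT ∅ π) (hj : PT ∅ j) : PT ∅ (fun a => (π a).W (j a)) :=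
  (PT_lv hπ hj).snd.snd.fst

@[fun_prop] theorem PT_r (hπ : PT ∅ π) (hj : PT ∅ j) : PT ∅ (fun a => (π a).r (j a)) :=
  (PT_lv hπ hj).snd.snd.snd.fst

@[fun_prop] theorem PT_u (hπ : PT ∅ π) (hj : PT ∅ j) : PT ∅ (fun a => (π a).u (j a)) :=
  (PT_lv hπ hj).snd.snd.snd.snd.fst

@[fun_prop] theorem PT_X (hπ : PT ∅ π) (hj : PT ∅ j) : PT ∅ (fun a => (π a).X (j a)) :=
  (PT_lv hπ hj).snd.snd.snd.snd.snd.fst

@[fun_prop] theorem PT_D (hπ : PT ∅ π) (hj : PT ∅ j) : PT ∅ (fun a => (π a).D (j a)) :=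
  (PT_lv hπ hj).snd.snd.snd.snd.snd.snd

@[fun_prop] theorem PT_J (hπ : PT ∅ π) : PT ∅ (fun a => (π a).J) :=
  PT.sub hπ.snd.length (PT.const 1)

variable {P : α → ℕ}

@[fun_prop] theorem PT_angs (hP : PT ∅ P) (hb : PBd P) (hπ : PT ∅ π) (hj : PT ∅ j) :
    PT ∅ (fun a => angs (P a) (π a) (j a)) := by
  unfold angs; fun_prop

@[fun_prop] theorem PT_qs0 (hP : PT ∅ P) (hb : PBd P) (hπ : PT ∅ π) :
    PT ∅ (fun a => qs0 (P a) (π a)) := by
  unfold qs0; fun_prop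

@[fun_prop] theorem PT_children {c : α → Qy} (hP : PT ∅ P) (hb : PBd P) (hπ : PT ∅ π)
    (hj : PT ∅ j) (hc : PT ∅ c) : PT ∅ (fun a => children (P a) (π a) (j a) (c a)) := by
  unfold children; fun_prop

@[fun_prop] theorem PT_qs (hP : PT ∅ P) (hb : PBd P) (hπ : PT ∅ π) (hj : PT ∅ j) :
    PT ∅ (fun a => qs (P a) (π a) (j a)) := by
  unfold qs; fun_prop

@[fun_prop] theorem PT_topC {c : α → Qy} (hπ : PT ∅ π) (hc : PT ∅ c) :
    PT ∅ (fun a => topC (π a) (c a)) := by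
  unfold topC; fun_prop

@[fun_prop] theorem PT_topG {s b n : α → ℕ} {ts : α → List (List Bool)} {y : α → List Bool}
    {c : α → Qy} (hP : PT ∅ P) (hb : PBd P) (hπ : PT ∅ π) (hs : PT ∅ s) (hb' : PT ∅ b)
    (hn : PT ∅ n) (hts : PT ∅ ts) (hy : PT ∅ y) (hc : PT ∅ c) :
    PT ∅ (fun a => topG (P a) (π a) (s a) (b a) (n a) (ts a) (y a) (c a)) := by
  unfold topG; fun_prop

@[fun_prop] theorem PT_rowG {T W n : α → ℕ} {as : α → List ℤ} {m e : α → ℤ} {y : α → List Bool}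
    (hP : PT ∅ P) (hb : PBd P) (hT : PT ∅ T) (has : PT ∅ as) (hm : PT ∅ m) (he : PT ∅ e)
    (hW : PT ∅ W) (hn : PT ∅ n) (hy : PT ∅ y) :
    PT ∅ (fun a => rowG (P a) (T a) (as a) (m a) (e a) (W a) (n a) (y a)) := by
  have h : PT ∅ (fun a => (rng (P a) (min (W a) (n a - ((y a).length + 1)) + 1)).map
      fun l : ℕ => wgtG (P a) (T a) (as a) (m a) (e a) (l : ℤ)) := by fun_prop
  refine h.congr fun a => ?_
  simp [rowG, List.flatMap_assoc, List.map_eq_flatMap]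

@[fun_prop] theorem PT_oneG {n : α → ℕ} {y : α → List Bool} (hP : PT ∅ P) (hb : PBd P)
    (hπ : PT ∅ π) (hj : PT ∅ j) (hn : PT ∅ n) (hy : PT ∅ y) :
    PT ∅ (fun a => oneG (P a) (π a) (j a) (n a) (y a)) := by
  unfold oneG; fun_prop

@[fun_prop] theorem PT_marchG {n : α → ℕ} {y : α → List Bool} {tb : α → List (Qy × G)}
    {L : α → SC} (hP : PT ∅ P) (hb : PBd P) (hπ : PT ∅ π) (hj : PT ∅ j) (hn : PT ∅ n)
    (hy : PT ∅ y) (htb : PT ∅ tb) (hL : PT ∅ L) :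
    PT ∅ (fun a => marchG (P a) (π a) (j a) (n a) (y a) (tb a) (L a)) := by
  unfold marchG
  exact PT_march hP hb (by fun_prop) (by fun_prop) (by fun_prop) (by fun_prop) (by fun_prop)
    (by fun_prop)

@[fun_prop] theorem PT_stepG {n : α → ℕ} {y : α → List Bool} {tb : α → List (Qy × G)}
    {c : α → Qy} (hP : PT ∅ P) (hb : PBd P) (hπ : PT ∅ π) (hj : PT ∅ j) (hn : PT ∅ n)
    (hy : PT ∅ y) (htb : PT ∅ tb) (hc : PT ∅ c) :
    PT ∅ (fun a => stepG (P a) (π a) (j a) (n a) (y a) (tb a) (c a)) := by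
  unfold stepG; fun_prop

@[fun_prop] theorem PT_tab0 {s b n : α → ℕ} {ts : α → List (List Bool)} {y : α → List Bool}
    (hP : PT ∅ P) (hb : PBd P) (hπ : PT ∅ π) (hs : PT ∅ s) (hb' : PT ∅ b) (hn : PT ∅ n)
    (hts : PT ∅ ts) (hy : PT ∅ y) :
    PT ∅ (fun a => tab0 (P a) (π a) (s a) (b a) (n a) (ts a) (y a)) := by
  unfold tab0; fun_prop

@[fun_prop] theorem PT_bitOf {n : α → ℕ} {y : α → List Bool} {V : α → List G} (hP : PT ∅ P)
    (hb : PBd P) (hπ : PT ∅ π) (hn : PT ∅ n) (hy : PT ∅ y) (hV : PT ∅ V) :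
    PT ∅ (fun a => bitOf (P a) (π a) (n a) (y a) (V a)) := by
  unfold bitOf; fun_prop

@[fun_prop] theorem PT_core {s b n : α → ℕ} {ts : α → List (List Bool)} (hP : PT ∅ P)
    (hb : PBd P) (hπ : PT ∅ π) (hs : PT ∅ s) (hb' : PT ∅ b) (hn : PT ∅ n) (hts : PT ∅ ts) :
    PT ∅ (fun a => core (P a) (π a) (s a) (b a) (n a) (ts a)) := by
  unfold core; fun_prop

end

theorem PT_pad {b : α → ℕ} {ts : α → List (List Bool)} (hb : PT ∅ b) (hts : PT ∅ ts) :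
    PT ∅ (fun a => pad (b a) (ts a)) ∧ PBd (fun a => pad (b a) (ts a)) := by
  have e : ∀ a, (ts a).length.succ * (esize (b a) + 1) = pad (b a) (ts a) := fun a => by
    rw [esize_nat]; rfl
  exact ⟨((hts.length.add (PT.const 1)).mul (hb.size.add (PT.const 1))).congr e,
    (((PBd.length hts).add (PBd.const 1)).mul (hb.pbd.add (PBd.const 1))).mono fun a => (e a).ge⟩

theorem ptc_ok : PTC := by
  have h := PT_pad (α := Par × ℕ × ℕ × ℕ × List (List Bool)) PT.snd'.snd.fst PT.snd'.snd.snd.snd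
  exact PT_core h.1 h.2 PT.fst' PT.snd'.fst PT.snd'.snd.fst PT.snd'.snd.snd.fst
    PT.snd'.snd.snd.snd

end Vale.Agent.P321D
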