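import Vale.Agent.P321D.Spec

/-!
# P321 decoder: the statistics with high probability
-/

namespace Vale.Agent.P321D

open scoped unitInterval

/-- The statistics are close to their means with probability at least `1 - exp (-n)`. -/
def STATX : Prop :=
  ∀ (P n a b m : ℕ) (π : Par) (q : I) (x : List Bool), Good n a b m π →
    m * (Nat.size b + 1) ≤ P → (q : ℝ) = (a : ℝ) / b → x.length = n →
    ENNReal.ofReal (1 - Real.exp (-n)) ≤ (P321.tracesLaw q x m).toOuterMeasure
      {ts | ts.length = m ∧ (∀ t ∈ ts, t.length ≤ n) ∧ Close P π a b x ts}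

end Vale.Agent.P321D
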