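import Vale.Agent.P321D.Top
import Vale.Agent.P321D.SpecX

/-!
# P321 decoder: the statistics with high probability
-/

namespace Vale.Agent.P321D.Top

open Complex Finset Vale.Agent.P321 Vale.Agent.P321.UB Vale.Agent.P321.H778
open scoped unitInterval ENNReal

variable {q : I} {x : List Bool}

theorem EE_prod {ι : Type} (S : Finset ι) (g : ι → List Bool → ℝ) (m : ℕ) (c : ι → ℝ) :
    EE q x m (fun ts => ∑ s ∈ S, c s * (ts.map (g s)).prod) =
      ∑ s ∈ S, c s * E1 q x (g s) ^ m := by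
  induction m generalizing c with
  | zero => simp [EE]
  | succ m ih =>
    simp only [EE, List.map_cons, List.prod_cons, ← mul_assoc, ih]
    simp only [pow_succ]
    generalize hE : (fun s => E1 q x (g s) ^ m) = E
    simp only [show ∀ s, E1 q x (g s) ^ m = E s from congrFun hE]
    simp only [E1, mul_sum]
    rw [sum_comm]
    exact sum_congr rfl fun s _ => sum_congr rfl fun u _ => by ring

theorem E1_exp {φ : List Bool → ℂ} (hφ : ∀ u, ‖φ u‖ ≤ 1) {ω : ℂ} (hω : ‖ω‖ = 1) {l : ℝ}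
    (l0 : 0 ≤ l) (l1 : l ≤ 1 / 2) :
    E1 q x (fun u => Real.exp (l * (ω * (φ u - FE (1 - q) φ x)).re)) ≤ Real.exp (4 * l ^ 2) := by
  have s1 := sum_words_traceLaw q x.length x le_rfl
  have m1 : ‖FE (1 - q) φ x‖ ≤ 1 :=
    FE_norm_le (by linarith [q.2.2]) (by linarith [q.2.1]) φ x fun u _ => hφ u
  have c0 : ∑ u ∈ words x.length, ((traceLaw q x u).toReal : ℂ) * (φ u - FE (1 - q) φ x) = 0 := by
    simp only [mul_sub, sum_sub_distrib, ← sum_mul]
    rw [← FE_sum, ← Complex.ofReal_sum, s1]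
    simp
  have c1 : ∑ u ∈ words x.length, (traceLaw q x u).toReal *
      (ω * (φ u - FE (1 - q) φ x)).re = 0 := by
    have := congrArg (fun z => (ω * z).re) c0
    simpa only [mul_sum, Complex.re_sum, mul_left_comm ω, Complex.re_ofReal_mul, mul_zero,
      Complex.zero_re] using this
  refine (E1_mono (ψ := fun u => 1 + 4 * l ^ 2 + l * (ω * (φ u - FE (1 - q) φ x)).re)
    fun u => ?_).trans (le_of_eq_of_le ?_ (Real.add_one_le_exp _))
  · have k : |l * (ω * (φ u - FE (1 - q) φ x)).re| ≤ l * 2 := by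
      rw [abs_mul, abs_of_nonneg l0]
      refine mul_le_mul_of_nonneg_left ((abs_re_le_norm _).trans ?_) l0
      rw [norm_mul, hω, one_mul]
      linarith [norm_sub_le (φ u) (FE (1 - q) φ x), hφ u]
    have k1 := (abs_le.1 (Real.abs_exp_sub_one_sub_id_le (k.trans (by linarith)))).2
    have k2 := pow_le_pow_left₀ (abs_nonneg _) k 2
    rw [sq_abs] at k2
    linarith
  · simp only [E1, mul_add, sum_add_distrib, mul_left_comm _ l, ← mul_sum, ← sum_mul, s1, c1]
    ring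

theorem prod_exp (l : ℝ) (ω : ℂ) (f : List Bool → ℂ) (ts : List (List Bool)) :
    (ts.map fun t => Real.exp (l * (ω * f t).re)).prod =
      Real.exp (l * (ω * (ts.map f).sum).re) := by
  induction ts with
  | nil => simp
  | cons t ts ih =>
    rw [List.map_cons, List.prod_cons, ih, List.map_cons, List.sum_cons, mul_add, add_re, mul_add,
      Real.exp_add]

/-- The exponential bound and the union bound. -/
theorem hoef {ι : Type} (S : Finset ι) {φ : ι → List Bool → ℂ} (hφ : ∀ s u, ‖φ s u‖ ≤ 1) {m : ℕ}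
    {δ η : ℝ} (hδ : 0 < δ) (δ1 : δ ≤ 1) (m0 : 0 < m)
    (hm : 4 * S.card * Real.exp (-(m * δ ^ 2 / 64)) ≤ η) (Ev : Set (List (List Bool)))
    (h : ∀ ts, ts.length = m → (∀ t ∈ ts, t.length ≤ x.length) →
      (∀ s ∈ S, ‖avg ts (φ s) - FE (1 - q) (φ s) x‖ ≤ δ) → ts ∈ Ev) :
    ENNReal.ofReal (1 - η) ≤ (tracesLaw q x m).toOuterMeasure Ev := by
  classical
  obtain ⟨ω, ω1, ω2⟩ : ∃ ω : Fin 4 → ℂ, (∀ k, ‖ω k‖ = 1) ∧ ∀ z : ℂ, ∃ k, ‖z‖ ≤ 2 * (ω k * z).re := by
    refine ⟨![1, -1, Complex.I, -Complex.I], fun k => by fin_cases k <;> simp, fun z => ?_⟩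
    have k := norm_le_abs_re_add_abs_im z
    rcases le_total |z.re| |z.im| with a | a
    · rcases abs_cases z.im with b | b
      · exact ⟨3, by simp; linarith⟩
      · exact ⟨2, by simp; linarith⟩
    · rcases abs_cases z.re with b | b
      · exact ⟨0, by simp; linarith⟩
      · exact ⟨1, by simp; linarith⟩
  obtain ⟨Ψ, hΨ⟩ : ∃ Ψ : List (List Bool) → ℝ, ∀ ts, Ψ ts = ∑ s ∈ S ×ˢ (univ : Finset (Fin 4)),
      Real.exp (-(m * δ ^ 2 / 32)) * (ts.map fun t =>
        Real.exp (δ / 16 * (ω s.2 * (φ s.1 t - FE (1 - q) (φ s.1) x)).re)).prod := ⟨_, fun _ => rfl⟩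
  have Ψ0 : ∀ ts, 0 ≤ Ψ ts := fun ts => hΨ ts ▸ sum_nonneg fun _ _ => by rw [prod_exp]; positivity
  have h2 : ∀ ts, tracesLaw q x m ts ≤ Ev.indicator (tracesLaw q x m) ts +
      tracesLaw q x m ts * ENNReal.ofReal (Ψ ts) := by
    intro ts
    by_cases k0 : tracesLaw q x m ts = 0
    · exact k0.trans_le zero_le
    obtain ⟨l1, l2⟩ := law_supp k0
    by_cases k : ts ∈ Ev
    · rw [Set.indicator_of_mem k]
      exact le_self_add
    · obtain ⟨s, hs, k1⟩ : ∃ s ∈ S, δ < ‖avg ts (φ s) - FE (1 - q) (φ s) x‖ := by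
        by_contra k2
        exact k (h ts l1 l2 fun s hs => not_lt.1 fun k3 => k2 ⟨s, hs, k3⟩)
      obtain ⟨j, hj⟩ := ω2 (ts.map fun t => φ s t - FE (1 - q) (φ s) x).sum
      refine le_trans (le_mul_of_one_le_right zero_le (ENNReal.one_le_ofReal.2 ?_)) le_add_self
      rw [hΨ]
      refine le_trans ?_ (single_le_sum (fun _ _ => by rw [prod_exp]; positivity)
        (mk_mem_product hs (mem_univ j)))
      rw [prod_exp, ← Real.exp_add, Real.one_le_exp_iff]
      have k2 : m * δ ≤ ‖(ts.map fun t => φ s t - FE (1 - q) (φ s) x).sum‖ := by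
        rw [avg_sub (by rintro rfl; simp at l1; omega), norm_mul, l1, Complex.norm_natCast]
        gcongr
      linarith [mul_le_mul_of_nonneg_left (k2.trans hj) hδ.le]
  have h3 := ENNReal.tsum_le_tsum h2
  rw [PMF.tsum_coe, ENNReal.tsum_add, tsum_EE m Ψ0, ← PMF.toOuterMeasure_apply] at h3
  have h4 : EE q x m Ψ ≤ η := by
    rw [funext hΨ, EE_prod]
    refine (sum_le_card_nsmul _ _ (Real.exp (-(m * δ ^ 2 / 64))) fun s _ => ?_).trans
      (le_of_eq_of_le ?_ hm)
    · refine (mul_le_mul_of_nonneg_left (pow_le_pow_left₀ (sum_nonneg fun _ _ => by positivity)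
        (E1_exp (hφ s.1) (ω1 s.2) (by positivity) (by linarith)) m) (by positivity)).trans_eq ?_
      rw [← Real.exp_nat_mul, ← Real.exp_add]
      congr 1
      ring
    · simp [mul_comm]
  rw [ENNReal.ofReal_sub _ (le_trans (by positivity) hm), ENNReal.ofReal_one, tsub_le_iff_right]
  exact h3.trans (add_le_add le_rfl (ENNReal.ofReal_le_ofReal h4))

/-- **STATX.** -/
theorem statx_ok (hQ : QS) (hN : NORM) : STATX := by
  classical
  intro P n a b m π q x h hP hq hx
  obtain ⟨hl, hi⟩ := (hQ P n a b m π h hP).2.2 π.J le_rfl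
  have b0 : (0 : ℝ) < b := by exact_mod_cast h.b_pos
  have ab : (a : ℝ) < b := by exact_mod_cast h.a_lt
  have hr : (0 : ℝ) < 1 - q := by rw [hq, sub_pos, div_lt_one b0]; exact ab
  obtain ⟨D, hD⟩ : ∃ D, D = π.D π.J := ⟨_, rfl⟩
  have D2 : 4096 ≤ D := hD ▸ (Nat.le_mul_of_pos_right _ (by omega)).trans (h.D_ge' le_rfl)
  have nD : n < 2 ^ D := hD ▸ (h.room hP).n_lt
  have bd := fun c hc y hy => (((hN _ _ _ _ _ _ _ _ n _ h.T_two h.mm_le (inv_top h (hi c hc))).2.2
    a b (4 ^ π.J) h.a_lt le_rfl rfl rfl h.mm_damp y hy).trans (big h))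
  rw [← hq, ← hD] at bd
  have hm : (2 : ℝ) ^ ((π.J + 10) * D) ≤ m := by exact_mod_cast hD ▸ h.budget
  have m0 : 0 < m := by exact_mod_cast (by positivity : (0 : ℝ) < _).trans_le hm
  have c1 : ((qs P π π.J).toFinset.card : ℝ) ≤ 2 ^ ((π.J + 1) * D) := by
    exact_mod_cast hD ▸ (List.toFinset_card_le _).trans hl
  refine hoef (q := q) (x := x) (qs P π π.J).toFinset (φ := fun c u =>
    if c ∈ qs P π π.J ∧ u.length ≤ n then sevP π.1 (1 - q) (topC π c) u / 2 ^ D else 0)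
    (fun c u => ?_) (δ := (1 / 2) ^ (3 * D + 1)) (by positivity)
    (pow_le_one₀ (by norm_num) (by norm_num)) m0 ?_ _ fun ts l1 l2 l3 => ⟨l1, hx ▸ l2, fun c hc => ?_⟩
  · split_ifs with k
    · rw [norm_div, norm_pow, Complex.norm_ofNat, div_le_one (by positivity)]
      exact bd c k.1 u k.2
    · simp
  · obtain ⟨K, hK⟩ : ∃ K, K = (π.J + 1) * D := ⟨_, rfl⟩
    rw [← hK] at c1
    have e : (2 : ℝ) ^ ((π.J + 10) * D) * ((1 / 2) ^ (3 * D + 1)) ^ 2 =
        2 ^ (3 * D - 2) * 2 ^ K := by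
      rw [← pow_mul, one_div, inv_pow, ← div_eq_mul_inv, div_eq_iff (by positivity), ← pow_add,
        ← pow_add]
      congr 1
      have : (π.J + 10) * D = (π.J + 1) * D + 9 * D := by ring
      omega
    have e2 : (2 : ℝ) ^ 8 ≤ 2 ^ (3 * D - 2) := pow_le_pow_right₀ one_le_two (by omega)
    have e3 := mul_le_mul_of_nonneg_right hm (sq_nonneg ((1 / 2 : ℝ) ^ (3 * D + 1)))
    have e4 := mul_le_mul_of_nonneg_right e2 (by positivity : (0 : ℝ) ≤ 2 ^ K)
    have e5 : (n : ℝ) ≤ 2 ^ K := by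
      exact_mod_cast nD.le.trans (Nat.pow_le_pow_right two_pos
        (hK ▸ Nat.le_mul_of_pos_left _ (by omega)))
    have e6 : (K : ℝ) + 1 ≤ 2 ^ K := by exact_mod_cast Nat.lt_two_pow_self
    have e7 : (2 : ℝ) ^ (K + 2) ≤ Real.exp 1 ^ (K + 2) :=
      pow_le_pow_left₀ (by norm_num) (by linarith [Real.add_one_le_exp (1 : ℝ)]) _
    rw [pow_add, ← Real.exp_nat_mul] at e7
    refine (mul_le_mul_of_nonneg_right (le_trans (by linarith) e7) (Real.exp_nonneg _)).trans ?_
    rw [← Real.exp_add, Real.exp_le_exp]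
    push_cast
    linarith [Nat.cast_nonneg (α := ℝ) K]
  · have k := l3 c (List.mem_toFinset.2 hc)
    have e1 : avg ts (fun u => if c ∈ qs P π π.J ∧ u.length ≤ n then
        sevP π.1 (1 - q) (topC π c) u / 2 ^ D else 0) =
        avg ts (sevP π.1 (1 - q) (topC π c)) / 2 ^ D := by
      rw [avg, avg, div_right_comm, List.map_congr_left fun t ht => if_pos ⟨hc, hx ▸ l2 t ht⟩]
      simp only [div_eq_mul_inv, List.sum_map_mul_right]
    have e2 : FE (1 - q) (fun u => if c ∈ qs P π π.J ∧ u.length ≤ n then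
        sevP π.1 (1 - q) (topC π c) u / 2 ^ D else 0) x = sev π.1 (topC π c) x / 2 ^ D := by
      rw [sev, ← FE_evP hr, FE_sum, FE_sum, sum_div]
      refine sum_congr rfl fun u hu => ?_
      rw [if_pos ⟨hc, hx ▸ mem_words.1 hu⟩, mul_div_assoc]
      rfl
    rw [e1, e2, ← sub_div, norm_div, norm_pow, Complex.norm_ofNat, div_le_iff₀ (by positivity)] at k
    rw [← hq, ← hD]
    refine k.trans_eq ?_
    rw [show 3 * D + 1 = 2 * D + 1 + D by ring, pow_add, mul_assoc, ← mul_pow]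
    simp

end Vale.Agent.P321D.Top
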