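import Vale.Agent.P321D.Tc

/-!
The transfer of smallness on a tenth of a grid to a window with any rate and frequency.
-/

open Complex Finset
open scoped Real

noncomputable section

namespace Vale.Agent.P321D

/-- The window, by induction on its degree. -/
theorem window {n N : ℕ} {b : ℕ → ℂ} {h B τ : ℝ} (h0 : 0 ≤ h)
    (hB : ∀ t : ℝ, |t| ≤ τ → ‖∑ l ∈ range n, b l * cexp (I * (t * l))‖ ≤ B) (θ : ℝ)
    (hθ : |θ| + N * h ≤ τ) :
    ‖∑ l ∈ range n, b l * (Real.cos (h * l / 2) ^ (2 * N) : ℝ) * cexp (I * (θ * l))‖ ≤ B := by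
  induction N generalizing θ with
  | zero => simpa using hB θ (by simpa using hθ)
  | succ N ih =>
    push_cast at hθ
    have a1 := ih θ (by linarith)
    have a2 := ih (θ + h) (by linarith [abs_add_le θ h, abs_of_nonneg h0])
    have a3 := ih (θ - h) (by linarith [abs_sub θ h, abs_of_nonneg h0])
    set u : ℝ → ℂ := fun θ =>
      ∑ l ∈ range n, b l * (Real.cos (h * l / 2) ^ (2 * N) : ℝ) * cexp (I * (θ * l)) with hu
    have e : ∑ l ∈ range n, b l * (Real.cos (h * l / 2) ^ (2 * (N + 1)) : ℝ) * cexp (I * (θ * l)) =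
        (1 / 2 : ℝ) * u θ + (1 / 4 : ℝ) * u (θ + h) + (1 / 4 : ℝ) * u (θ - h) := by
      simp only [hu, mul_sum, ← sum_add_distrib]
      refine sum_congr rfl fun l _ => ?_
      have c : (Real.cos (h * l / 2) ^ 2 : ℝ) = 1 / 2 + Real.cos (h * l) / 2 := by
        rw [Real.cos_sq, mul_div_cancel₀ _ two_ne_zero]
      have p : cexp (I * (((θ + h : ℝ) : ℂ) * l)) = cexp (I * (θ * l)) * cexp (h * l * I) := by
        rw [← exp_add]; congr 1; push_cast; ring
      have m : cexp (I * (((θ - h : ℝ) : ℂ) * l)) = cexp (I * (θ * l)) * cexp (-(h * l) * I) := by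
        rw [← exp_add]; congr 1; push_cast; ring
      rw [mul_add, mul_one, pow_add, c, p, m]
      have t := two_cos (x := (h : ℂ) * l)
      push_cast
      linear_combination (b l * cos (h * l / 2) ^ (2 * N) * cexp (I * (θ * l)) / 4) * t
    rw [e]
    refine (norm_add₃_le ..).trans ?_
    simp only [norm_mul, norm_real, Real.norm_eq_abs]
    rw [abs_of_pos (by norm_num : (0 : ℝ) < 1 / 2), abs_of_pos (by norm_num : (0 : ℝ) < 1 / 4)]
    linarith

/-- The Taylor polynomial of the exponential function. -/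
def TK (K : ℕ) (x : ℝ) : ℝ := ∑ k ∈ range (K + 1), x ^ k / k.factorial

theorem TK_nonneg (K : ℕ) {x : ℝ} (h : 0 ≤ x) : 0 ≤ TK K x := sum_nonneg fun _ _ => by positivity
theorem TK_le (K : ℕ) {x : ℝ} (h : 0 ≤ x) : TK K x ≤ Real.exp x := Real.sum_le_exp_of_nonneg h _

theorem TK_le' (K : ℕ) {x : ℝ} (h : 0 ≤ x) : TK K x ≤ 4 ^ K * Real.exp (x / 4) := by
  refine le_trans ?_ (mul_le_mul_of_nonneg_left (TK_le K (by positivity : 0 ≤ x / 4))
    (by positivity))
  rw [TK, TK, mul_sum]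
  refine sum_le_sum fun k hk => ?_
  have : (4 : ℝ) ^ k ≤ 4 ^ K := pow_le_pow_right₀ (by norm_num) (Nat.lt_succ_iff.1 (mem_range.1 hk))
  refine le_trans (le_of_eq ?_) (mul_le_mul_of_nonneg_right this (by positivity))
  rw [div_pow]
  field_simp

theorem TK_tail (K : ℕ) {x : ℝ} (h : 0 ≤ x) :
    Real.exp x - TK K x ≤ Real.exp (4 * x) / 4 ^ (K + 1) := by
  have s : ∀ y : ℝ, HasSum (fun k : ℕ => y ^ (k + (K + 1)) / (k + (K + 1)).factorial)
      (Real.exp y - TK K y) := fun y => (hasSum_nat_add_iff' (K + 1)).2 (by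
    rw [Real.exp_eq_exp_ℝ]; exact NormedSpace.expSeries_div_hasSum_exp y)
  refine (hasSum_le (fun k => ?_) (s x) ((s (4 * x)).div_const (4 ^ (K + 1)))).trans ?_
  · rw [le_div_iff₀ (by positivity), mul_pow, mul_div_assoc, mul_comm]
    exact mul_le_mul_of_nonneg_right (pow_le_pow_right₀ (by norm_num) (by omega)) (by positivity)
  · exact div_le_div_of_nonneg_right (sub_le_self _ (TK_nonneg K (by positivity))) (by positivity)

theorem cos_le {x : ℝ} (h : |x| ≤ π) (N : ℕ) :
    Real.cos (x / 2) ^ (2 * N) ≤ Real.exp (-(N * x ^ 2 / 10)) := by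
  have c : Real.cos (x / 2) ^ 2 = 1 / 2 + Real.cos x / 2 := by
    rw [Real.cos_sq, mul_div_cancel₀ _ two_ne_zero]
  have u := Real.cos_le_one_sub_mul_cos_sq h
  have v : x ^ 2 / 10 ≤ 1 / π ^ 2 * x ^ 2 := by
    rw [div_eq_inv_mul, one_div]
    exact mul_le_mul_of_nonneg_right (inv_anti₀ (by positivity)
      (by nlinarith [Real.pi_lt_d2, Real.pi_pos])) (sq_nonneg _)
  have w : Real.cos (x / 2) ^ 2 ≤ Real.exp (-(x ^ 2 / 10)) := by
    have e : 2 / π ^ 2 * x ^ 2 = 2 * (1 / π ^ 2 * x ^ 2) := by ring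
    linarith [Real.add_one_le_exp (-(x ^ 2 / 10))]
  rw [pow_mul]
  refine (pow_le_pow_left₀ (sq_nonneg _) w N).trans (le_of_eq ?_)
  rw [← Real.exp_nat_mul]
  congr 1
  ring

theorem cos_pow_le (x : ℝ) (N : ℕ) : Real.cos x ^ (2 * N) ≤ 1 := by
  rw [pow_mul]; exact pow_le_one₀ (sq_nonneg _) (Real.cos_sq_le_one x)

/-- The error of the approximation at one index. -/
theorem err {σ α h0 : ℝ} {L W N K l : ℕ} (σ0 : 0 < σ) (LW : L ≤ W) (h0p : 0 < h0)
    (hα : |α| ≤ σ / 2) (hK : 12 * σ * W ≤ K + 1) (hN : 20 * |α| ≤ N * h0 ^ 2 * W)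
    (hl : L < l → L = W) :
    |(if l ≤ L then Real.exp (α * l) else 0) - Real.exp (-(σ * l)) * TK K ((α + σ) * l)| *
      Real.cos (h0 * l / 2) ^ (2 * N) ≤ Real.exp (-(K + 1) / 2) +
      Real.exp (-(N * h0 ^ 2 * W ^ 2) / 20) + 4 ^ K * Real.exp (-(σ * π) / (2 * h0)) := by
  obtain ⟨α1, α2⟩ := abs_le.1 hα
  have l0 : (0 : ℝ) ≤ l := Nat.cast_nonneg l
  have x0 : 0 ≤ (α + σ) * l := mul_nonneg (by linarith) l0
  have e0 := Real.exp_pos (-(σ * l))
  have ee : Real.exp (α * l) = Real.exp (-(σ * l)) * Real.exp ((α + σ) * l) := by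
    rw [← Real.exp_add]; congr 1; ring
  have c0 : 0 ≤ Real.cos (h0 * l / 2) ^ (2 * N) := by rw [pow_mul]; positivity
  have p1 := Real.exp_pos (-((K : ℝ) + 1) / 2)
  have p2 := Real.exp_pos (-(N * h0 ^ 2 * (W : ℝ) ^ 2) / 20)
  have p3 : 0 < 4 ^ K * Real.exp (-(σ * π) / (2 * h0)) := by positivity
  have t0 := TK_nonneg K x0
  split_ifs with c
  · have lW : (l : ℝ) ≤ W := by exact_mod_cast c.trans LW
    have a1 : Real.exp (4 * ((α + σ) * l)) / 4 ^ (K + 1) ≤ Real.exp (-(K + 1) / 2) := by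
      have b : Real.exp (K + 1) ≤ 4 ^ (K + 1) := by
        rw [← Nat.cast_succ, ← mul_one ((K + 1 : ℕ) : ℝ), Real.exp_nat_mul]
        exact pow_le_pow_left₀ (Real.exp_pos _).le (by linarith [Real.exp_one_lt_d9]) _
      refine (div_le_div_of_nonneg_left (Real.exp_pos _).le (Real.exp_pos _) b).trans ?_
      rw [← Real.exp_sub]
      exact Real.exp_le_exp.2 (by nlinarith)
    rw [ee, ← mul_sub, abs_of_nonneg (mul_nonneg e0.le (sub_nonneg.2 (TK_le K x0)))]
    refine (mul_le_of_le_one_right (mul_nonneg e0.le (sub_nonneg.2 (TK_le K x0)))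
      (cos_pow_le _ _)).trans ((mul_le_of_le_one_left (sub_nonneg.2 (TK_le K x0))
      (Real.exp_le_one_iff.2 (neg_nonpos.2 (by positivity)))).trans ?_)
    linarith [TK_tail K x0]
  · have lW : (W : ℝ) ≤ l := by rw [← hl (not_le.1 c)]; exact_mod_cast (not_le.1 c).le
    have W0 : (0 : ℝ) ≤ W := Nat.cast_nonneg W
    rw [zero_sub, abs_neg, abs_of_nonneg (by positivity)]
    rcases le_total (h0 * l) π with d | d
    · have a1 := mul_le_mul (mul_le_mul_of_nonneg_left (TK_le K x0) e0.le)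
        (cos_le (x := h0 * l) (by rwa [abs_of_nonneg (by positivity)]) N) c0 (by positivity)
      rw [← ee, ← Real.exp_add] at a1
      have n0 : 0 ≤ N * h0 ^ 2 := by positivity
      have a2 := mul_le_mul_of_nonneg_right ((mul_le_mul_of_nonneg_left (le_abs_self α)
        (by norm_num : (0 : ℝ) ≤ 20)).trans hN) l0
      have a3 := mul_le_mul_of_nonneg_left (mul_le_mul_of_nonneg_right lW l0) n0
      have a4 := mul_le_mul_of_nonneg_left (pow_le_pow_left₀ W0 lW 2) n0
      have a5 : α * l + -(N * (h0 * l) ^ 2 / 10) ≤ -(N * h0 ^ 2 * W ^ 2) / 20 := by nlinarith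
      linarith [Real.exp_le_exp.2 a5]
    · have a1 := mul_le_mul_of_nonneg_left (TK_le' K x0) e0.le
      rw [mul_left_comm, ← Real.exp_add] at a1
      have a2 : -(σ * l) + (α + σ) * l / 4 ≤ -(σ * π) / (2 * h0) := by
        rw [le_div_iff₀ (by positivity)]
        have := mul_le_mul_of_nonneg_left d σ0.le
        have := mul_le_mul_of_nonneg_right α2 (mul_nonneg h0p.le l0)
        have := mul_nonneg σ0.le (mul_nonneg h0p.le l0)
        nlinarith
      have a3 := mul_le_mul_of_nonneg_left (Real.exp_le_exp.2 a2) (by positivity : (0 : ℝ) ≤ 4 ^ K)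
      have a4 := mul_le_of_le_one_right (mul_nonneg e0.le t0) (cos_pow_le (h0 * l / 2) N)
      linarith

/-- The transfer to the window with the rate α and the frequency θ. -/
theorem transfer {a : ℕ → ℂ} {M η η' φ h0 α θ : ℝ} {L L' W N K X : ℕ} {E : Finset ℕ}
    (hM : ∑ l ∈ range (L' + 1), ‖a l‖ ≤ M) (M1 : 1 ≤ M) (φ0 : 0 < φ) (X1 : 1 ≤ X)
    (σ1 : X * φ ≤ 1) (hE : ∀ x ∈ E, x ≤ X)
    (hη : ∀ x ∈ E, ‖∑ l ∈ range (L' + 1), a l * cexp (I * (φ * x * l))‖ ≤ η)
    (η0 : 0 < η') (ηη : η + φ * L' * M ≤ η') (η1 : η' ≤ 1) (hc : X ≤ 10 * E.card)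
    (LL : L ≤ L') (LW : L ≤ W) (hL : L = W ∨ L = L') (h0p : 0 < h0)
    (hθ : |θ| + N * h0 ≤ X * φ) (hα : |α| ≤ X * φ / 2) (hK : 12 * (X * φ) * W ≤ K + 1)
    (hN : 20 * |α| ≤ N * h0 ^ 2 * W) :
    ‖∑ l ∈ range (L + 1), a l * (Real.exp (α * l) * Real.cos (h0 * l / 2) ^ (2 * N) : ℝ) *
      cexp (I * (θ * l))‖ ≤ 4 ^ K * η' ^ (1 / 4000 : ℝ) * M + M * (Real.exp (-(K + 1) / 2) +
        Real.exp (-(N * h0 ^ 2 * W ^ 2) / 20) + 4 ^ K * Real.exp (-(X * φ * π) / (2 * h0))) := by
  have reg := fun s => region hM M1 φ0 X1 σ1 hE hη η0 ηη η1 hc (s := s)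
  have X1' : (1 : ℝ) ≤ X := by exact_mod_cast X1
  set σ := X * φ with hσ
  have σ0 : 0 < σ := by positivity
  set B := η' ^ (1 / 4000 : ℝ) * M with hB
  have B0 : 0 ≤ B := by positivity
  obtain ⟨α1, α2⟩ := abs_le.1 hα
  have w := window (n := L' + 1) (N := N) (τ := σ) (B := 4 ^ K * B)
    (b := fun l => a l * (Real.exp (-(σ * l)) * TK K ((α + σ) * l) : ℝ)) h0p.le (fun t ht => by
      have e : ∑ l ∈ range (L' + 1), a l * (Real.exp (-(σ * l)) * TK K ((α + σ) * l) : ℝ) *
          cexp (I * (t * l)) = ∑ k ∈ range (K + 1), ((α + σ) ^ k / k.factorial : ℝ) *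
          ∑ l ∈ range (L' + 1), a l * ((l : ℂ) ^ k * cexp (-((σ - t * I) * l))) := by
        simp only [mul_sum]
        rw [sum_comm]
        refine sum_congr rfl fun l _ => ?_
        have : cexp (-((σ - t * I) * l)) = cexp (-(σ * l)) * cexp (I * (t * l)) := by
          rw [← exp_add]; congr 1; ring
        rw [this, TK]
        push_cast
        simp only [mul_sum, sum_mul]
        exact sum_congr rfl fun k _ => by rw [mul_pow]; ring
      rw [e]
      refine (norm_sum_le _ _).trans ((sum_le_sum (g := fun k => (3 : ℝ) ^ k * B)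
        fun k _ => ?_).trans ?_)
      · have m := mom (n := L' + 1) (a := a) (s := σ - t * I) (η := B) (half_pos σ0) (fun z hz =>
          reg z (by simpa [hz] using abs_re_le_norm (z - (σ - t * I))) (by
            have i : |z.im + t| ≤ σ / 2 := by simpa [hz] using abs_im_le_norm (z - (σ - t * I))
            have := abs_sub (z.im + t) t
            rw [add_sub_cancel_right] at this
            linarith)) k
        have f : (0 : ℝ) < k.factorial := by positivity
        rw [norm_mul, norm_real, Real.norm_of_nonneg (div_nonneg (pow_nonneg (by linarith) _) f.le)]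
        refine (mul_le_mul (div_le_div_of_nonneg_right (pow_le_pow_left₀ (by linarith)
          (show α + σ ≤ 3 * (σ / 2) by linarith) k) f.le) m (norm_nonneg _)
          (by positivity)).trans (le_of_eq ?_)
        rw [mul_pow]
        field_simp
      · rw [← sum_mul]
        refine mul_le_mul_of_nonneg_right ?_ B0
        rw [show (4 : ℝ) = 3 + 1 by norm_num, add_pow]
        refine sum_le_sum fun k hk => ?_
        rw [one_pow, mul_one]
        exact le_mul_of_one_le_right (by positivity) (by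
          exact_mod_cast Nat.choose_pos (Nat.lt_succ_iff.1 (mem_range.1 hk)))) θ hθ
  have e : ∑ l ∈ range (L + 1), a l * (Real.exp (α * l) * Real.cos (h0 * l / 2) ^ (2 * N) : ℝ) *
      cexp (I * (θ * l)) = ∑ l ∈ range (L' + 1), a l * (Real.exp (-(σ * l)) *
        TK K ((α + σ) * l) : ℝ) * (Real.cos (h0 * l / 2) ^ (2 * N) : ℝ) * cexp (I * (θ * l)) +
      ∑ l ∈ range (L' + 1), a l * ((((if l ≤ L then Real.exp (α * l) else 0) -
        Real.exp (-(σ * l)) * TK K ((α + σ) * l)) * Real.cos (h0 * l / 2) ^ (2 * N) : ℝ) *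
        cexp (I * (θ * l))) := by
    rw [← sum_add_distrib, ← sum_subset (range_subset_range.2 (Nat.succ_le_succ LL))
      fun l _ hl => by
        rw [if_neg fun h => hl (mem_range.2 (Nat.lt_succ_iff.2 h))]; push_cast; ring]
    exact sum_congr rfl fun l hl => by
      rw [if_pos (Nat.lt_succ_iff.1 (mem_range.1 hl))]; push_cast; ring
  rw [e, mul_assoc]
  refine (norm_add_le _ _).trans (add_le_add w ((norm_sum_le _ _).trans ((sum_le_sum
    (g := fun l => ‖a l‖ * (Real.exp (-(K + 1) / 2) + Real.exp (-(N * h0 ^ 2 * W ^ 2) / 20) +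
      4 ^ K * Real.exp (-(σ * π) / (2 * h0)))) fun l hl => ?_).trans ?_)))
  · have n1 : ‖cexp (I * (θ * l))‖ = 1 := by rw [norm_exp]; simp
    rw [norm_mul, norm_mul, n1, mul_one, norm_real, Real.norm_eq_abs, abs_mul,
      abs_of_nonneg (by rw [pow_mul]; positivity : 0 ≤ Real.cos (h0 * l / 2) ^ (2 * N))]
    exact mul_le_mul_of_nonneg_left (err σ0 LW h0p hα hK hN fun h =>
      hL.resolve_right fun e => by have := mem_range.1 hl; omega) (norm_nonneg _)
  · rw [← sum_mul]
    exact mul_le_mul_of_nonneg_right hM (by positivity)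

end Vale.Agent.P321D
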