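import Vale.Agent.P321D.Base
import Vale.Agent.P321D.Eval
import Vale.Agent.P321D.Transfer

/-!
# P321 decoder: one level
-/

namespace Vale.Agent.P321D

open Complex Finset

variable {P n a b m : ℕ} {π : Par}

theorem exp_neg_le {z : ℝ} {k : ℕ} (h : (k : ℝ) ≤ z) : Real.exp (-z) ≤ (1 / 2) ^ k := by
  calc Real.exp (-z) ≤ Real.exp (-k) := Real.exp_le_exp.2 (by linarith)
    _ = Real.exp (-1) ^ k := by rw [← Real.exp_nat_mul]; congr 1; ring
    _ ≤ (1 / 2) ^ k := by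
      apply pow_le_pow_left₀ (Real.exp_pos _).le
      rw [Real.exp_neg, ← one_div]
      apply one_div_le_one_div_of_le (by norm_num)
      linarith [Real.add_one_le_exp (1 : ℝ)]

theorem Good.sev_le0 (h : Good n a b m π) {j : ℕ} (hj : j ≤ π.J) {c : Qy} (hc : QInv π a b j c)
    {y : List Bool} (hy : y.length ≤ n) : ‖sev π.1 c.1 y‖ ≤ 2 ^ π.D j := by
  have h1 := (norm_ok _ _ _ _ _ _ _ _ n c.1 h.T_two h.mm_le hc.1).2.1 y hy
  refine h1.trans ?_
  have h2 : 2 ^ 16 ^ (j + 1) * (n + 1) ^ (3 * 4 ^ j - 2) ≤ 2 ^ π.D j := by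
    have g0 : n + 1 ≤ 2 ^ Nat.size n := Nat.lt_size_self n
    have g1 : 16 ^ (j + 1) ≤ 16 ^ (π.J + 1) := Nat.pow_le_pow_right (by norm_num) (by omega)
    have g4 : 4 ^ j ≤ 16 ^ j := Nat.pow_le_pow_left (by norm_num) _
    have g5 : 16 ^ (j + 1) = 16 * 16 ^ j := by ring
    have g6 := h.D_ge hj
    have g7 : Nat.size n * (3 * 4 ^ j - 2) ≤ Nat.size n * 16 ^ (π.J + 1) :=
      Nat.mul_le_mul_left _ (by omega)
    have g8 : 16 ^ (π.J + 2) * (Nat.size n + 1) =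
      16 * (Nat.size n * 16 ^ (π.J + 1)) + 16 * 16 ^ (π.J + 1) := by ring
    calc 2 ^ 16 ^ (j + 1) * (n + 1) ^ (3 * 4 ^ j - 2)
        ≤ 2 ^ 16 ^ (j + 1) * (2 ^ Nat.size n) ^ (3 * 4 ^ j - 2) :=
          Nat.mul_le_mul_left _ (Nat.pow_le_pow_left g0 _)
      _ = 2 ^ (16 ^ (j + 1) + Nat.size n * (3 * 4 ^ j - 2)) := by rw [← pow_mul, ← pow_add]
      _ ≤ _ := Nat.pow_le_pow_right (by norm_num) (by omega)
  exact_mod_cast h2

theorem Good.row_spec (h : Good n a b m π) (hP : m * (Nat.size b + 1) ≤ P) {j : ℕ} (hj : j ≤ π.J)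
    {mm e : ℤ} (hm : mm.natAbs ≤ π.1) (he : e.natAbs ≤ π.1) (W : ℕ) {y : List Bool} {i1 : ℕ}
    (hy : y.length + 1 = i1) :
    (rowG P π.1 (angs P π j) mm e W n y).length = min W (n - i1) + 1 ∧
      ∀ l < min W (n - i1) + 1, ent (rowG P π.1 (angs P π j) mm e W n y) l =
        wgt π.1 (angs P π j) mm e l := by
  have R := h.room hP
  have pT : ∀ e : ℤ, e.natAbs ≤ π.1 → ∀ l < min W (n - i1) + 1, (e * (l : ℕ)).natAbs ≤ P :=
    fun e he l hl => by
      rw [Int.natAbs_mul, Int.natAbs_natCast]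
      exact (Nat.mul_le_mul he (by omega)).trans R.Tn_le
  rw [Top.rowG_eq, hy, rng_eq (by have := R.n_le; omega)]
  refine ⟨by simp, fun l hl => ?_⟩
  rw [ent_map_range _ hl]
  exact val_wgtG h.T_two (fun c hc => pT c (h.angs_mem hP hj c hc) l hl) (pT _ hm l hl)
    (pT e he l hl)

theorem UU_split (T : ℕ) (as : List ℤ) (r W : ℕ) (x : List Bool) (i1 : ℕ) (c : Qy) :
    UU T as r W x i1 c = Past T as (-(r : ℤ)) x i1 c +
      ∑ l ∈ range (min W (x.length - i1) + 1),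
        wgt T as (-(r : ℤ)) c.2 l * sev T c.1 (sfx x (i1 + l)) := by
  unfold UU Past
  rw [add_assoc, sum_range_add]
  congr 1
  refine sum_congr rfl fun l _ => ?_
  rw [mul_comm]
  congr 2
  push_cast
  ring

theorem Gw_replicate (T N : ℕ) (e l : ℤ) :
    Gw T (List.replicate N e) l = Real.cos (ang T * e * l / 2) ^ (2 * N) := by
  induction N with
  | zero => simp [Gw_nil]
  | succ N ih => rw [List.replicate_succ, Gw_cons, ih]; ring

theorem step_num {D : ℕ} (hD : 4096 ≤ D) {z1 z2 : ℝ} (h1 : (6 * D : ℝ) ≤ z1)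
    (h2 : (12 * (2 ^ 19 * D) : ℝ) ≤ z2) :
    (4 : ℝ) ^ (3 * (2 ^ 19 * D)) * ((1 / 2 : ℝ) ^ (2 ^ 36 * D - 3)) ^ (1 / 4000 : ℝ) *
        2 ^ (4 * D) + 2 ^ (4 * D) * (Real.exp (-((3 * (2 ^ 19 * D) : ℕ) + 1) / 2) +
        Real.exp (-z1) + 4 ^ (3 * (2 ^ 19 * D)) * Real.exp (-z2)) ≤ (1 / 2) ^ (D + 1) := by
  have hDR : (4096 : ℝ) ≤ D := by exact_mod_cast hD
  have e4 : (4 : ℝ) ^ (3 * (2 ^ 19 * D)) = 2 ^ (6 * (2 ^ 19 * D)) := by
    rw [show (4 : ℝ) = 2 ^ 2 by norm_num, ← pow_mul]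
    congr 1
    ring
  have k : ∀ u v : ℕ, (2 : ℝ) ^ u * (1 / 2) ^ (u + v) = (1 / 2) ^ v := by
    intro u v
    rw [pow_add, ← mul_assoc, ← mul_pow]
    norm_num
  have t1 : ((1 / 2 : ℝ) ^ (2 ^ 36 * D - 3)) ^ (1 / 4000 : ℝ) ≤
      (1 / 2) ^ (6 * (2 ^ 19 * D) + (4 * D + (D + 3))) := by
    rw [← Real.rpow_natCast, ← Real.rpow_natCast, ← Real.rpow_mul (by norm_num)]
    refine Real.rpow_le_rpow_of_exponent_ge (by norm_num) (by norm_num) ?_
    rw [Nat.cast_sub (by omega)]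
    push_cast
    linarith
  have t2 : Real.exp (-((3 * (2 ^ 19 * D) : ℕ) + 1) / 2) ≤ (1 / 2) ^ (4 * D + (D + 3)) := by
    rw [neg_div]
    apply exp_neg_le
    push_cast
    linarith
  have t3 : Real.exp (-z1) ≤ (1 / 2) ^ (4 * D + (D + 3)) := by
    apply exp_neg_le
    push_cast
    linarith
  have t4 : Real.exp (-z2) ≤ (1 / 2) ^ (6 * (2 ^ 19 * D) + (4 * D + (D + 3))) := by
    apply exp_neg_le
    push_cast
    linarith
  rw [e4]
  have s1 := mul_le_mul_of_nonneg_left t1 (show (0 : ℝ) ≤ 2 ^ (6 * (2 ^ 19 * D)) by positivity)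
  have s4 := mul_le_mul_of_nonneg_left t4 (show (0 : ℝ) ≤ 2 ^ (6 * (2 ^ 19 * D)) by positivity)
  rw [k] at s1 s4
  have e5 : (1 / 2 : ℝ) ^ (D + 1) = 2 ^ (4 * D) * (4 * (1 / 2) ^ (4 * D + (D + 3))) := by
    rw [mul_left_comm, k, show D + 3 = D + 1 + 2 by omega, pow_add _ (D + 1) 2]
    ring
  rw [e5, mul_comm _ ((2 : ℝ) ^ (4 * D)), ← mul_add]
  apply mul_le_mul_of_nonneg_left _ (by positivity)
  linarith

theorem step_real {T h k a W W' r r' N D X u e : ℝ} (a1 : h * T ≤ 2) (a2 : 1 ≤ h * T) (a0 : 0 < h)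
    (k0 : 0 ≤ k) (k1 : k * T ≤ 2) (aR : 0 < a) (WR : 0 < W) (WW : W ≤ W') (r0 : 0 ≤ r)
    (r0' : 0 ≤ r') (DR : 4096 ≤ D) (NR : N = 2 ^ 19 * D) (uX : u * X = 8 * N * a)
    (aW : 64 * a * W = T) (Na : 64 * (N * a) ≤ T) (rW : 4 * r' * W' ≤ T * D)
    (rW0 : 4 * r * W ≤ T * D) (he : |e| ≤ 7 * N * a) :
    X * (u * h) ≤ 1 ∧ |h * e| + N * (h * a) ≤ X * (u * h) ∧
    |(4 * r - r') * k| ≤ X * (u * h) / 2 ∧ 12 * (X * (u * h)) * W ≤ 3 * (2 ^ 19 * D) + 1 ∧
    20 * |(4 * r - r') * k| ≤ N * (h * a) ^ 2 * W ∧ 6 * D ≤ N * (h * a) ^ 2 * W ^ 2 / 20 ∧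
    12 * (2 ^ 19 * D) ≤ X * (u * h) * Real.pi / (2 * (h * a)) := by
  have uX' : X * (u * h) = 8 * N * (h * a) := by linear_combination h * uX
  have hT : h * T = 64 * (h * a * W) := by rw [← aW]; ring
  have hw1 : 1 / 64 ≤ h * a * W := by linarith
  have hw2 : h * a * W ≤ 1 / 32 := by linarith
  have D0 : 0 ≤ D := by linarith
  have hal : |(4 * r - r') * k| * W ≤ 2 * D := by
    have b2 : r' * W ≤ T * D := by
      have := mul_le_mul_of_nonneg_left WW r0'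
      have : 0 ≤ r' * W' := mul_nonneg r0' (by linarith)
      linarith
    have b3 : |4 * r - r'| * W ≤ T * D := by
      have b4 : 0 ≤ r' * W := by positivity
      have b5 : 0 ≤ r * W := by positivity
      rw [← abs_of_pos WR, ← abs_mul, abs_le]
      constructor <;> linarith
    rw [abs_mul, abs_of_nonneg k0, mul_right_comm]
    have b6 := mul_le_mul_of_nonneg_right b3 k0
    have b7 := mul_le_mul_of_nonneg_right k1 D0
    linarith
  have b2 : (1 / 64 : ℝ) ^ 2 ≤ (h * a * W) ^ 2 := pow_le_pow_left₀ (by norm_num) hw1 2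
  have c1 := mul_le_mul_of_nonneg_left hw1 D0
  have c2 := mul_le_mul_of_nonneg_left hw2 D0
  have c3 := mul_le_mul_of_nonneg_left b2 D0
  rw [uX']
  refine ⟨?_, ?_, ?_, ?_, ?_, ?_, ?_⟩
  · have := mul_le_mul_of_nonneg_right Na a0.le
    linarith
  · rw [abs_mul, abs_of_pos a0]
    have := mul_le_mul_of_nonneg_left he a0.le
    linarith
  · apply le_of_mul_le_mul_right _ WR
    rw [NR]
    linarith
  · rw [NR]
    linarith
  · apply le_of_mul_le_mul_right _ WR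
    rw [NR]
    linarith
  · rw [NR]
    linarith
  · rw [le_div_iff₀ (by positivity), NR]
    have b3 : 0 ≤ D * (h * a) := by positivity
    have b4 := mul_le_mul_of_nonneg_left Real.pi_gt_three.le b3
    linarith

theorem step_exp {T k r' W' l : ℝ} {D : ℕ} (k0 : 0 ≤ k) (k1 : k * T ≤ 2) (r0' : 0 ≤ r')
    (rW : 4 * r' * W' ≤ T * D) (b1 : l ≤ W') : Real.exp (k * r' * l) ≤ 2 ^ D := by
  have b2 : k * r' * l ≤ D * (1 / 2) := by
    have b3 : k * r' * l ≤ k * r' * W' := by gcongr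
    have b4 := mul_le_mul_of_nonneg_left rW k0
    have b5 := mul_le_mul_of_nonneg_right k1 (Nat.cast_nonneg (α := ℝ) D)
    linarith
  calc _ ≤ Real.exp (D * (1 / 2)) := Real.exp_le_exp.2 b2
    _ = Real.exp (1 / 2) ^ D := Real.exp_nat_mul _ _
    _ ≤ 2 ^ D := by
      apply pow_le_pow_left₀ (Real.exp_pos _).le
      have b6 : Real.exp (1 / 2) * Real.exp (1 / 2) = Real.exp 1 := by
        rw [← Real.exp_add]; norm_num
      have b7 := Real.exp_one_lt_d9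
      nlinarith [Real.exp_pos (1 / 2 : ℝ)]

theorem step_eta {T h u L' : ℝ} {D : ℕ} (hD : 4096 ≤ D) (a1 : h * T ≤ 2) (b0 : 0 ≤ u * h)
    (b1 : u * 2 ^ (2 ^ 37 * D) = T) (b3 : L' ≤ 2 ^ D) :
    4 * (1 / 2 : ℝ) ^ (2 ^ 36 * D) + u * h * L' * 2 ^ (4 * D) ≤ (1 / 2) ^ (2 ^ 36 * D - 3) := by
  have b4 : (2 : ℝ) ^ (2 ^ 36 * D) * (2 ^ D * 2 ^ (4 * D)) ≤ 2 ^ (2 ^ 37 * D) := by
    rw [← pow_add, ← pow_add]
    exact pow_le_pow_right₀ one_le_two (by omega)
  have b5 := mul_le_mul_of_nonneg_left b4 b0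
  have b6 : u * h * L' * 2 ^ (4 * D) ≤ u * h * 2 ^ D * 2 ^ (4 * D) := by gcongr
  have b7 : (1 / 2 : ℝ) ^ (2 ^ 36 * D - 3) = 8 * (1 / 2) ^ (2 ^ 36 * D) := by
    conv_rhs => rw [show 2 ^ 36 * D = 2 ^ 36 * D - 3 + 3 by omega, pow_add]
    ring
  have b8 : u * h * 2 ^ D * 2 ^ (4 * D) ≤ 4 * (1 / 2) ^ (2 ^ 36 * D) := by
    rw [one_div, inv_pow, ← div_eq_mul_inv, le_div_iff₀ (by positivity)]
    rw [← b1] at a1
    linarith
  linarith

/-- **STEP.** -/
theorem step_ok (hM : MARG) : STEP := by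
  intro P n a b m π j x i1 tb c h hP hj hx i0 i2 hc H
  obtain ⟨m1, m2, m3⟩ := hM P n a b m π j x i1 tb c h hP hj hx i0 i2 hc H
  have R := h.room hP
  have l1 : (sfx x (i1 - 1)).length + 1 = i1 := by rw [length_sfx (by omega)]; omega
  obtain ⟨D, hD⟩ : ∃ D, D = π.D j := ⟨_, rfl⟩
  obtain ⟨L, hL⟩ : ∃ L, L = min (π.W j) (n - i1) := ⟨_, rfl⟩
  obtain ⟨L', hL'⟩ : ∃ L', L' = min (π.W (j + 1)) (n - i1) := ⟨_, rfl⟩
  obtain ⟨s, hs⟩ : ∃ s, s = Nat.size n := ⟨_, rfl⟩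
  have ns : n < 2 ^ s := hs ▸ Nat.lt_size_self n
  have D0 : 4096 * (s + 1) ≤ D := hs ▸ hD ▸ h.D_ge' hj.le
  have D1 : π.D (j + 1) = 2 ^ 40 * D := hD ▸ h.D_succ j hj
  have D2 : π.D (j + 1) ≤ π.D π.J := h.D_mono hj le_rfl
  have hN : π.N j = 2 ^ 19 * D := hD ▸ h.N_eq j hj
  have WW := h.WW j hj
  have nD : n < 2 ^ D := ns.trans_le (Nat.pow_le_pow_right (by norm_num) (by omega))
  have r1 : π.r (j + 1) ≤ π.1 := by have := h.r_T (show j + 1 ≤ π.J from hj); omega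
  have r0 := h.r_T hj.le
  have uX := h.uX_le hj
  have Na := h.Na_le hj
  have T0 : (0 : ℝ) < π.1 := by exact_mod_cast (by have := h.T_two; omega : 0 < π.1)
  have a1 := ang_le π.1
  have a2 := Top.le_ang (T := π.1) (by have := h.T_two; omega)
  have a0 : 0 < ang π.1 := lt_of_lt_of_le (by positivity) a2
  have k0 := kap_nonneg h.T_two
  have k1 := Top.kap_le h.T_two
  have a1' := (le_div_iff₀ T0).1 a1
  have a2' := (div_le_iff₀ T0).1 a2
  have k1' := (le_div_iff₀ T0).1 k1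
  obtain ⟨f, hf⟩ : ∃ f : ℕ → ℂ, ∀ l, f l = sev π.1 c.1 (sfx x (i1 + l)) := ⟨_, fun _ => rfl⟩
  have LR : ((L' + 1 : ℕ) : ℝ) ≤ 2 ^ D := by exact_mod_cast (show L' + 1 ≤ 2 ^ D by omega)
  have e4 : (2 : ℝ) ^ D * (2 ^ D) ^ 2 ≤ 4 ^ (2 * D) := by
    rw [show (4 : ℝ) = 2 ^ 2 by norm_num, ← pow_mul, ← pow_mul, ← pow_add]
    exact pow_le_pow_right₀ one_le_two (by omega)
  have sq : ∀ g : ℕ → ℂ, (∀ l < L' + 1, ‖g l‖ ≤ 2 ^ D) →
      ∑ l ∈ range (L' + 1), ‖g l‖ ^ 2 ≤ 4 ^ (2 * D) := by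
    intro g hg
    refine (sum_le_card_nsmul _ _ (((2 : ℝ) ^ D) ^ 2) fun l hl => ?_).trans ?_
    · exact pow_le_pow_left₀ (norm_nonneg _) (hg l (mem_range.1 hl)) 2
    · rw [card_range, nsmul_eq_mul]
      exact (mul_le_mul_of_nonneg_right LR (by positivity)).trans e4
  have f2 := sq f fun l _ => by
    rw [hf, hD]
    exact h.sev_le0 hj.le hc ((length_sfx_le _ _).trans hx.le)
  have rW : (4 * π.r (j + 1) * π.W (j + 1) : ℝ) ≤ π.1 * D := by
    exact_mod_cast hD ▸ h.rW j hj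
  have rW0 : (4 * π.r j * π.W j : ℝ) ≤ π.1 * D := by
    have : 4 * π.r j * π.W j ≤ π.1 * D := by
      rcases j with _ | j
      · rw [h.r_zero]; simp
      · exact (h.rW j (by omega)).trans
          (Nat.mul_le_mul_left _ (hD ▸ h.D_mono (by omega) hj.le))
    exact_mod_cast this
  have ex : ∀ l < L' + 1, Real.exp (kap π.1 * π.r (j + 1) * l) ≤ 2 ^ D := fun l hl =>
    step_exp k0 k1' (Nat.cast_nonneg _) rW (by exact_mod_cast (show l ≤ π.W (j + 1) by omega))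
  have wf : ∀ (e : ℤ) (l : ℕ), wgt π.1 (angs P π (j + 1)) (-(π.r (j + 1) : ℤ)) e l =
      ((Gw π.1 (angs P π (j + 1)) l * Real.exp (kap π.1 * π.r (j + 1) * l) : ℝ) : ℂ) *
        cexp (I * (ang π.1 * e * l)) := by
    intro e l
    rw [wgt, wv, ofReal_mul, ofReal_exp, mul_assoc, ← Complex.exp_add]
    congr 2
    push_cast
    ring
  have wn : ∀ l < L' + 1,
      |Gw π.1 (angs P π (j + 1)) l * Real.exp (kap π.1 * π.r (j + 1) * l)| ≤ 2 ^ D := by
    intro l hl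
    rw [abs_of_nonneg (mul_nonneg (Top.Gw_nonneg _ _ _) (Real.exp_pos _).le)]
    exact (mul_le_of_le_one_left (Real.exp_pos _).le (Top.Gw_le _ _ _)).trans (ex l hl)
  have ue : ∀ e ∈ marchG P π j n (sfx x (i1 - 1)) tb c.1,
      (((π.u j * e.1 : ℕ) : ℤ)).natAbs ≤ π.1 := fun e he => by
    have := Nat.mul_le_mul_left (π.u j) (m3 e he).1
    rw [Int.natAbs_natCast]
    omega
  have row := fun e he => h.row_spec hP (show j + 1 ≤ π.J from hj)
    (mm := -(π.r (j + 1) : ℤ)) (by simpa using r1) (ue e he) (π.W (j + 1)) l1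
  rw [← hL'] at row
  have c1 : (L' + 1) * (40 * (π.D (j + 1) + 2 * D + 10)) ≤ P := by
    have k1 : π.D π.J < 2 ^ π.D π.J := Nat.lt_two_pow_self
    have k2 : 2 ^ 7 ≤ 2 ^ π.D π.J := Nat.pow_le_pow_right two_pos (by omega)
    refine le_trans ?_ (R.pow_le (k := π.D π.J + (π.D π.J + π.D π.J)) (by omega))
    rw [pow_add, pow_add]
    refine Nat.mul_le_mul (by have := R.n_lt; omega) (le_trans ?_ (Nat.mul_le_mul k2 k1.le))
    omega
  obtain ⟨k1, k2, k3⟩ := kacz_ok P (2 ^ 36 * D) (2 * D) (π.D (j + 1)) (L' + 1) s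
    ((marchG P π j n (sfx x (i1 - 1)) tb c.1).map fun e =>
      (rowG P π.1 (angs P π (j + 1)) (-(π.r (j + 1) : ℤ)) ((π.u j * e.1 : ℕ) : ℤ)
        (π.W (j + 1)) n (sfx x (i1 - 1)),
       G.sub e.2 (pastG P π.1 (angs P π (j + 1)) (-(π.r (j + 1) : ℤ)) (sfx x (i1 - 1))
        (c.1, ((π.u j * e.1 : ℕ) : ℤ))))) f (by omega) (by omega)
    (R.pow_le (by omega)) c1 f2 fun e he => by
      obtain ⟨d, hd, rfl⟩ := List.mem_map.1 he
      obtain ⟨q1, q2⟩ := row d hd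
      refine ⟨q1, sq (ent _) fun l hl => ?_, ?_⟩
      · rw [q2 l hl, wf, norm_mul, Complex.norm_real, Real.norm_eq_abs]
        have : ‖cexp (I * (ang π.1 * ((π.u j * d.1 : ℕ) : ℤ) * (l : ℕ)))‖ = 1 := by
          rw [Complex.norm_exp]
          simp
        rw [this, mul_one]
        exact wn l hl
      · have q3 := (m3 d hd).2
        rw [UU_split, hx, ← hL', ← hD, norm_sub_rev] at q3
        rw [G.val_sub, past_ok P π.1 n b _ _ _ _ _ j _ (-(π.r (j + 1) : ℤ)) x i1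
          (c.1, ((π.u j * d.1 : ℕ) : ℤ)) R hj.le h.mm_le hc.1
          (h.angs_mem hP (show j + 1 ≤ π.J from hj)) (by simpa using r1) (ue d hd) hx i0 i2]
        refine le_of_eq_of_le ?_ q3
        congr 1
        rw [sum_congr rfl fun l hl => by
          rw [show G.val (List.getD _ l (G.int 0)) = _ from q2 l (mem_range.1 hl), hf]]
        ring
  rw [stepG, l1, ← hL', ← hD]
  generalize kacz P (2 ^ 36 * D) (2 * D) (π.D (j + 1)) (L' + 1) _ = F at k1 k2 k3 ⊢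
  have uR : (0 : ℝ) < π.u j := by exact_mod_cast h.u_pos hj
  have aR : (0 : ℝ) < π.a j := by exact_mod_cast h.a_pos' hj
  have WR : (0 : ℝ) < π.W j := by exact_mod_cast h.W_pos hj
  have DR : (4096 : ℝ) ≤ D := by exact_mod_cast (show 4096 ≤ D by omega)
  have NR : (π.N j : ℝ) = 2 ^ 19 * D := by exact_mod_cast hN
  have hb1 : |(c.2 : ℝ)| ≤ 7 * π.N j * π.a j := by
    have b2 : ((c.2.natAbs : ℕ) : ℝ) ≤ ((7 * π.N j * π.a j : ℕ) : ℝ) := by
      exact_mod_cast hc.2.1 hj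
    rw [Nat.cast_natAbs] at b2
    push_cast at b2
    exact b2
  obtain ⟨z1, z2, z3, z4, z5, b1, b2⟩ := step_real (X := π.X j) (u := π.u j) a1' a2' a0 k0 k1' aR WR
    (show (π.W j : ℝ) ≤ π.W (j + 1) by exact_mod_cast WW) (Nat.cast_nonneg _) (Nat.cast_nonneg _)
    DR NR (by exact_mod_cast h.uX j hj) (by exact_mod_cast h.aW j hj) (by exact_mod_cast Na)
    rW rW0 hb1
  have key := transfer
    (a := fun l => ((Gw π.1 (angs P π (j + 1)) l * Real.exp (kap π.1 * π.r (j + 1) * l) : ℝ) : ℂ) *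
      (f l - ent F l)) (M := 2 ^ (4 * D)) (η := 4 * (1 / 2) ^ (2 ^ 36 * D))
    (η' := (1 / 2) ^ (2 ^ 36 * D - 3)) (φ := π.u j * ang π.1) (h0 := ang π.1 * π.a j)
    (α := (4 * π.r j - π.r (j + 1)) * kap π.1) (θ := ang π.1 * c.2) (L := L) (L' := L')
    (W := π.W j) (N := π.N j) (K := 3 * (2 ^ 19 * D)) (X := π.X j)
    (E := ((marchG P π j n (sfx x (i1 - 1)) tb c.1).map Prod.fst).toFinset) ?_
    (one_le_pow₀ one_le_two) (by positivity) (by have := h.X_pos j hj; omega) z1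
    (fun y hy => ?_) (fun y hy => ?_) (by positivity)
    (step_eta (by omega) a1' (by positivity) (by exact_mod_cast hD ▸ h.uT j hj)
      (by push_cast at LR; linarith))
    (pow_le_one₀ (by norm_num) (by norm_num))
    (by rw [List.toFinset_card_of_nodup m1, List.length_map]; exact m2)
    (by omega) (by omega) (by omega) (by positivity) z2 z3 (by push_cast; linarith) z5
  · have b3 := step_num (show 4096 ≤ D by omega) b1 b2
    rw [← neg_div, ← neg_div] at b3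
    have b4 := key.trans b3
    have hb : c.2.natAbs ≤ π.1 := by
      have := hc.2.1 hj
      rw [mul_assoc] at this
      omega
    obtain ⟨q1, q2⟩ := h.row_spec hP hj.le (mm := -(4 * (π.r j : ℤ)))
      (by rw [Int.natAbs_neg]; exact_mod_cast r0) hb (π.W j) l1
    rw [← hL] at q1 q2
    have b5 : TT P π j x i1 c - G.val (dotG (rowG P π.1 (angs P π j) (-(4 * (π.r j : ℤ))) c.2
        (π.W j) n (sfx x (i1 - 1))) F) = ∑ l ∈ range (L + 1),
        ((Gw π.1 (angs P π (j + 1)) l * Real.exp (kap π.1 * π.r (j + 1) * l) : ℝ) : ℂ) *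
          (f l - ent F l) * (Real.exp ((4 * π.r j - π.r (j + 1)) * kap π.1 * l) *
            Real.cos (ang π.1 * π.a j * l / 2) ^ (2 * π.N j) : ℝ) *
          cexp (I * ((ang π.1 * c.2 : ℝ) * l)) := by
      rw [val_dotG _ _ (n := L + 1) (by omega), TT, Tf, hx, ← hL, ← sum_sub_distrib]
      refine sum_congr rfl fun l hl => ?_
      rw [q2 l (mem_range.1 hl), ← hf, wgt, h.angs_succ hP hj.le, Gw_append, Gw_replicate, wv]
      have e1 : cexp (-((kap π.1 : ℂ) * ((-(4 * (π.r j : ℤ)) * (l : ℤ) : ℤ) : ℂ)) +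
          I * ((ang π.1 : ℂ) * ((c.2 * (l : ℤ) : ℤ) : ℂ))) =
          (Real.exp (kap π.1 * π.r (j + 1) * l) : ℂ) *
            (Real.exp ((4 * π.r j - π.r (j + 1)) * kap π.1 * l) : ℂ) *
            cexp (I * ((ang π.1 * c.2 : ℝ) * l)) := by
        rw [ofReal_exp, ofReal_exp, ← Complex.exp_add, ← Complex.exp_add]
        congr 1
        push_cast
        ring
      simp only
      rw [e1]
      simp only [ofReal_mul, Int.cast_natCast]
      ring
    rw [← b5] at b4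
    have pe : p2 P (π.D (j + 1)) = 2 ^ π.D (j + 1) :=
      p2_eq (Nat.lt_two_pow_self.le.trans (R.pow_le (by omega)))
    have b6 := G.rnd_err (R := p2 P (π.D (j + 1))) (by rw [pe]; exact Nat.one_le_two_pow)
      (dotG (rowG P π.1 (angs P π j) (-(4 * (π.r j : ℤ))) c.2 (π.W j) n (sfx x (i1 - 1))) F)
    have b7 : (2 : ℝ) / (p2 P (π.D (j + 1)) : ℕ) ≤ (1 / 2) ^ (D + 1) := by
      rw [pe, one_div, inv_pow, ← one_div, div_le_div_iff₀ (by positivity) (by positivity)]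
      push_cast
      rw [one_mul, ← pow_succ']
      exact pow_le_pow_right₀ one_le_two (by omega)
    rw [norm_sub_rev] at b4
    have b8 := norm_sub_le_norm_sub_add_norm_sub (G.val (G.rnd (p2 P (π.D (j + 1)))
      (dotG (rowG P π.1 (angs P π j) (-(4 * (π.r j : ℤ))) c.2 (π.W j) n (sfx x (i1 - 1))) F)))
      (G.val (dotG (rowG P π.1 (angs P π j) (-(4 * (π.r j : ℤ))) c.2 (π.W j) n
        (sfx x (i1 - 1))) F)) (TT P π j x i1 c)
    rw [pow_succ] at b4 b7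
    linarith
  · have b1 : ∀ l < L' + 1, ‖ent F l - f l‖ ≤ 2 ^ (2 * D) := fun l hl =>
      le_of_sum_sq (x := fun l => ent F l - f l) (by positivity) hl (by
        refine (k2.trans f2).trans_eq ?_
        rw [show (4 : ℝ) = 2 ^ 2 by norm_num, ← pow_mul, ← pow_mul]
        congr 1
        ring)
    refine (sum_le_card_nsmul _ _ ((2 : ℝ) ^ D * 2 ^ (2 * D)) fun l hl => ?_).trans ?_
    · rw [norm_mul, Complex.norm_real, Real.norm_eq_abs, norm_sub_rev]
      exact mul_le_mul (wn l (mem_range.1 hl)) (b1 l (mem_range.1 hl)) (norm_nonneg _)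
        (by positivity)
    · rw [card_range, nsmul_eq_mul]
      refine (mul_le_mul_of_nonneg_right LR (by positivity)).trans_eq ?_
      rw [← pow_add, ← pow_add]
      congr 1
      omega
  · obtain ⟨d, hd, rfl⟩ := List.mem_map.1 (List.mem_toFinset.1 hy)
    exact (m3 d hd).1
  · obtain ⟨d, hd, rfl⟩ := List.mem_map.1 (List.mem_toFinset.1 hy)
    refine le_of_eq_of_le ?_ (k3 _ (List.mem_map_of_mem hd))
    refine congrArg _ (sum_congr rfl fun l hl => ?_)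
    rw [show G.val (List.getD _ l (G.int 0)) = _ from (row d hd).2 l (mem_range.1 hl), wf, ent]
    have : cexp (I * (((π.u j * ang π.1 : ℝ) : ℂ) * (d.1 : ℕ) * (l : ℕ))) =
        cexp (I * (ang π.1 * ((π.u j * d.1 : ℕ) : ℤ) * (l : ℕ))) := by
      congr 1
      push_cast
      ring
    rw [this]
    ring

end Vale.Agent.P321D
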