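import Vale.Agent.P321.Defs
import Mathlib.Computability.TuringMachine.Computable
import Mathlib.Analysis.SpecialFunctions.Exp

/-!
Algorithms for trace reconstruction: polynomial time on binary words, the input of a decoder, and
its success probability.
-/

namespace Vale.Agent.P321D

open Vale.Agent.P321
open scoped unitInterval

/-- A function on binary words is computed in polynomial time by a Turing machine (the multi-stack
machines of Mathlib, with finite alphabets). -/
def PolyTime (D : List Bool → List Bool) : Prop :=
  ∃ M : Turing.TM2ComputableInPolyTime (fun w : List Bool => w) (fun w : List Bool => w) D,
    ∀ k, Finite (M.tm.Γ k)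

/-- The word `x` in self-delimiting form (each bit is preceded by `true`, the end is marked by
`false`), followed by the word `y`. -/
def pairW : List Bool → List Bool → List Bool
  | [], y => false :: y
  | c :: x, y => true :: c :: pairW x y

/-- A list of words, each of them in self-delimiting form. -/
def listW : List (List Bool) → List Bool
  | [] => []
  | x :: l => pairW x (listW l)

/-- The input of a decoder: the numbers `a`, `b` (the deletion probability is `a / b`) and `n` in
binary, then the traces. -/
def input (a b n : ℕ) (ts : List (List Bool)) : List Bool :=
  listW (a.bits :: b.bits :: n.bits :: ts)

/-- Given `a`, `b`, `n` and `m` independent traces with deletion probability `q`, the function `D`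
outputs the unknown string with probability at least `1 - exp (-n)`, for every string of
length `n`. -/
def Decodes (D : List Bool → List Bool) (q : I) (a b n m : ℕ) : Prop :=
  ∀ x : Fin n → Bool, ENNReal.ofReal (1 - Real.exp (-n)) ≤
    ((tracesLaw q (List.ofFn x) m).map fun ts => D (input a b n ts)) (List.ofFn x)

end Vale.Agent.P321D
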