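import Vale.Agent.P321D.Core
import Vale.Agent.P321D.Num3
import Vale.Agent.P321D.PtcB
import Vale.Agent.P321D.Prod
import Vale.Agent.P321D.Child
import Vale.Agent.P321D.Eval
import Vale.Agent.P321D.March
import Vale.Agent.P321D.Marg
import Vale.Agent.P321D.Step
import Vale.Agent.P321D.Base
import Vale.Agent.P321D.StatX
import Vale.Agent.P321D.Stmt
import Vale.Agent.Lib.PolyTime.TypedTM2
import Vale.Agent.Lib.PolyTime.Bitwise

/-!
# P321 decoder: the final assembly
-/

namespace Vale.Agent.P321D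

open Vale.Agent.P321 Vale.Agent.Lib.PolyTime
open scoped unitInterval

theorem pairW_eq (x y : List Bool) : pairW x y = pr x y := by
  induction x with
  | nil => rfl
  | cons c x ih => rw [pairW, pr, ih]

theorem listW_eq (l : List (List Bool)) : listW l = enc (l.map Raw.mk) := by
  induction l with
  | nil => rfl
  | cons x l ih => rw [listW, pairW_eq, ih, List.map_cons, enc_cons, enc_raw]

/-- A typed program as a function on words. -/
theorem exists_word {f : ℕ × ℕ × ℕ × List (List Bool) → List Bool} (hf : PT ∅ f) :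
    ∃ D, PolyTime D ∧ ∀ a b n ts, D (input a b n ts) = f (a, b, n, ts) := by
  have k : ∀ i, PT ∅ fun l : List Raw => val (l.getD i ⟨[]⟩).w := fun i =>
    PT.rawVal (PT.getD PT.id (PT.const i) (PT.const _))
  have t : PT ∅ fun l : List Raw => (l.drop 3).map fun r : Raw => (r.w : List Bool) :=
    PT.map (f := fun _ (r : Raw) => (r.w : List Bool)) (PT.drop PT.id (PT.const 3)) (PT.listOfRaw PT.snd')
  obtain ⟨g, hg, h⟩ := PT.rawOfList (hf.comp ((k 0).pair ((k 1).pair ((k 2).pair t))))
  refine ⟨g, exists_tm2_of_polyTimeFun _ _ g g (polyTimeFun_iff.2 hg) fun _ => rfl,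
    fun a b n ts => ?_⟩
  rw [input, listW_eq, h, enc_raw]
  simp [val_bits, Function.comp_def]

theorem core_all : CORE :=
  core_ok (qs_ok child_ok win_ok)
    (step_ok (Mg.marg_ok win_ok past_ok (prod_ok win_ok past_ok child_ok) march_ok))
    (Top.top_ok eval_ok win_ok past_ok) (Top.base_ok win_ok)

/-- **The decoder.** -/
theorem dec : ∃ D, PolyTime D ∧
    (∃ C : ℝ, 0 < C ∧ ∀ (a b n m : ℕ) (q : I), 0 < a → a < b → (q : ℝ) = a / b → 2 ≤ n →
      Real.exp (C * Real.log n ^ 84 / (1 - q)) ≤ m → Decodes D q a b n m) ∧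
    ∀ δ : ℝ, 0 < δ → ∃ C : ℝ, 0 < C ∧ ∀ (a b n m : ℕ) (q : I), 0 < a → a < b → (q : ℝ) = a / b →
      2 ≤ n → (q : ℝ) ≤ (n : ℝ) ^ (-δ) → (n : ℝ) ^ C ≤ m → Decodes D q a b n m := by
  obtain ⟨sel, s1, ⟨C, C0, s2⟩, s3, s4⟩ := num
  obtain ⟨D, D1, D2⟩ := exists_word (PT.comp ptc_ok (s1.pair PT.id))
  have key : ∀ (a b n m : ℕ) (q : I), (q : ℝ) = a / b →
      Good n a b m (sel (a, b, n, List.replicate m [])) → Decodes D q a b n m := by
    intro a b n m q hq h x
    have hP : m * (Nat.size b + 1) ≤ (m + 1) * (Nat.size b + 1) := Nat.mul_le_mul_right _ m.le_succ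
    refine (Top.statx_ok (qs_ok child_ok win_ok) norm_ok _ n a b m _ q (List.ofFn x) h hP hq
      (by simp)).trans ?_
    rw [← PMF.toOuterMeasure_apply_singleton, PMF.toOuterMeasure_map_apply]
    refine MeasureTheory.measure_mono fun ts hts => ?_
    obtain ⟨l1, l2, l3⟩ := hts
    have m0 : 0 < m := lt_of_lt_of_le (by positivity) h.budget
    rw [Set.mem_preimage, Set.mem_singleton_iff, D2]
    simp only [pad, l1, s4 a b n ts (List.replicate m []) (by simp [l1])]
    exact core_all _ n a b m _ _ ts h hP (by simp) (by rintro rfl; simp at l1; omega) l2 l3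
  refine ⟨D, D1, ⟨C, C0, fun a b n m q ha hb hq hn hm => key a b n m q hq ?_⟩, fun δ hδ => ?_⟩
  · simpa using s2 a b n (List.replicate m []) ha hb hn (by simpa [hq] using hm)
  · obtain ⟨C', C1, s5⟩ := s3 δ hδ
    refine ⟨C', C1, fun a b n m q ha hb hq hn h1 hm => key a b n m q hq ?_⟩
    simpa using s5 a b n (List.replicate m []) ha hb hn (hq ▸ h1) (by simpa using hm)

end Vale.Agent.P321D
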