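import Mathlib
import Vale.Agent.P315.H155.Auto
import Vale.Agent.P338.R3.H900.EncInt

/-!
# P321 decoder: Gaussian rationals as unreduced triples

`(x, y, d)` stands for `(x + y i) / (d + 1)`.
-/

namespace Vale.Agent.P321D

open Complex

/-- Gaussian rationals: `(x, y, d)` is `(x + y i) / (d + 1)`. -/
abbrev G : Type := ℤ × ℤ × ℕ

namespace G

/-- The complex number coded by a triple. -/
noncomputable def val (z : G) : ℂ := ((z.1 : ℂ) + (z.2.1 : ℂ) * I) / ((z.2.2 : ℂ) + 1)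

/-- The integer `k`. -/
def int (k : ℤ) : G := (k, 0, 0)

/-- The fraction `k / d` (for `1 ≤ d`). -/
def frac (k : ℤ) (d : ℕ) : G := (k, 0, d - 1)

/-- Sum. -/
def add (z w : G) : G :=
  (z.1 * ((w.2.2 : ℤ) + 1) + w.1 * ((z.2.2 : ℤ) + 1),
    z.2.1 * ((w.2.2 : ℤ) + 1) + w.2.1 * ((z.2.2 : ℤ) + 1), z.2.2 * w.2.2 + z.2.2 + w.2.2)

/-- Product. -/
def mul (z w : G) : G :=
  (z.1 * w.1 - z.2.1 * w.2.1, z.1 * w.2.1 + z.2.1 * w.1, z.2.2 * w.2.2 + z.2.2 + w.2.2)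

/-- Opposite. -/
def neg (z : G) : G := (-z.1, -z.2.1, z.2.2)

/-- Difference. -/
def sub (z w : G) : G := add z (neg w)

/-- Conjugate. -/
def conj (z : G) : G := (z.1, -z.2.1, z.2.2)

/-- Inverse (`0` for `0`). -/
def inv (z : G) : G :=
  (((z.2.2 : ℤ) + 1) * z.1, -(((z.2.2 : ℤ) + 1) * z.2.1), (z.1 * z.1 + z.2.1 * z.2.1).toNat - 1)

/-- Quotient. -/
def div (z w : G) : G := mul z (inv w)

/-- The test `‖z‖ ≤ ‖w‖`. -/
def nle (z w : G) : Bool :=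
  decide ((z.1 * z.1 + z.2.1 * z.2.1) * (((w.2.2 : ℤ) + 1) * ((w.2.2 : ℤ) + 1)) ≤
    (w.1 * w.1 + w.2.1 * w.2.1) * (((z.2.2 : ℤ) + 1) * ((z.2.2 : ℤ) + 1)))

/-- Rounding to the grid of mesh `1 / R` (for `1 ≤ R`). -/
def rnd (R : ℕ) (z : G) : G :=
  (z.1 * (R : ℤ) / ((z.2.2 : ℤ) + 1), z.2.1 * (R : ℤ) / ((z.2.2 : ℤ) + 1), R - 1)

/-- Sum of a list. -/
def sum (l : List G) : G := l.foldl add (int 0)

/-- Product of a list. -/
def prod (l : List G) : G := l.foldl mul (int 1)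

/-- Power; the exponent is cut at `P`. -/
def pow (P : ℕ) (z : G) (k : ℕ) : G := prod (List.replicate (min k P) z)

/-- Integer power; the exponent is cut at `P`. -/
def zpow (P : ℕ) (z : G) (e : ℤ) : G :=
  if e < 0 then pow P (inv z) e.natAbs else pow P z e.natAbs

/-- All three numbers have at most `k` binary digits. -/
def Ht (k : ℕ) (z : G) : Prop :=
  z.1.natAbs < 2 ^ k ∧ z.2.1.natAbs < 2 ^ k ∧ z.2.2 < 2 ^ k

end G

/-- The unit `ζ = (1 - t² + 2 t i) / (1 + t²)`, `t = 1 / T`. -/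
def zeta (T : ℕ) : G := ((T : ℤ) * T - 1, 2 * (T : ℤ), T * T)

/-- The damping `ρ = 1 - 1 / T`. -/
def rho (T : ℕ) : G := ((T : ℤ) - 1, 0, T - 1)

/-- The angle of `ζ`. -/
noncomputable def ang (T : ℕ) : ℝ := 2 * Real.arctan (1 / (T : ℝ))

/-- The logarithmic damping. -/
noncomputable def kap (T : ℕ) : ℝ := -Real.log (1 - 1 / (T : ℝ))

/-- Symbolic weights: `(m, e)` stands for `ρ ^ m ζ ^ e`. -/
abbrev Wt : Type := ℤ × ℤ

/-- The value of a symbolic weight. -/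
noncomputable def wv (T : ℕ) (w : Wt) : ℂ :=
  cexp (-((kap T : ℂ) * (w.1 : ℂ)) + I * ((ang T : ℂ) * (w.2 : ℂ)))

/-- The program for the value of a symbolic weight. -/
def pw (P T : ℕ) (w : Wt) : G := G.mul (G.zpow P (rho T) w.1) (G.zpow P (zeta T) w.2)

/-- `range`, cut at `P`. -/
def rng (P X : ℕ) : List ℕ := List.range (min X P)

end Vale.Agent.P321D
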