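import Vale.Agent.P321D.Par

/-!
# P321 decoder: the parameters from five exponents
-/

namespace Vale.Agent.P321D

open Vale.Agent.Lib.PolyTime Vale.Agent.P315.H155

/-- The exponents of the cutoffs. -/
def wN (l w0 zp zm : ℕ) : ℕ → ℕ
  | 0 => w0
  | j + 1 => max (wN l w0 zp zm j + 41) (min (2 * wN l w0 zp zm j + zp - zm) l)

/-- The program for `wN`. -/
def wC (P l w0 zp zm j : ℕ) : ℕ :=
  iterC P (min j P) (fun w => max (w + 41) (min (2 * w + zp - zm) l)) w0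

theorem wN_eq_iterate (l w0 zp zm j : ℕ) :
    wN l w0 zp zm j = (fun w => max (w + 41) (min (2 * w + zp - zm) l))^[j] w0 := by
  induction j with
  | zero => rfl
  | succ j ih => rw [Function.iterate_succ_apply', ← ih]; rfl

theorem wN_le (l w0 zp zm j : ℕ) : wN l w0 zp zm j ≤ w0 + l + 41 * j := by
  induction j with
  | zero => simp [wN]
  | succ j ih => simp only [wN]; omega

theorem wN_succ_ge (l w0 zp zm j : ℕ) : wN l w0 zp zm j + 41 ≤ wN l w0 zp zm (j + 1) := by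
  simp only [wN]; omega

theorem wN_ge (l w0 zp zm j : ℕ) : w0 + 41 * j ≤ wN l w0 zp zm j := by
  induction j with
  | zero => simp [wN]
  | succ j ih => have := wN_succ_ge l w0 zp zm j; omega

theorem wN_mono (l w0 zp zm : ℕ) {i j : ℕ} (h : i ≤ j) : wN l w0 zp zm i ≤ wN l w0 zp zm j := by
  induction j, h using Nat.le_induction with
  | base => exact le_rfl
  | succ j _ ih => have := wN_succ_ge l w0 zp zm j; omega

theorem wC_eq {P l w0 zp zm j : ℕ} (h : w0 + l + 41 * j ≤ P) :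
    wC P l w0 zp zm j = wN l w0 zp zm j := by
  unfold wC
  rw [min_eq_left (by omega), iterC_eq, wN_eq_iterate]
  intro i hi
  rw [← wN_eq_iterate]
  have := wN_le l w0 zp zm (i + 1)
  exact (esize_nat_le_self _).trans (by omega)

/-- The exponents `J, d0, w0, zp, zm`. -/
abbrev Ex5 : Type := ℕ × ℕ × ℕ × ℕ × ℕ

/-- The level `j`. -/
def mkLv (P l : ℕ) (e : Ex5) (j : ℕ) : Lv :=
  (p2 P (p2 P (37 + (e.2.1 + 40 * (e.1 - 1))) - wC P l e.2.2.1 e.2.2.2.1 e.2.2.2.2 j - 6),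
   if j < e.1 then p2 P (e.2.1 + 40 * j + 19) else 0,
   p2 P (wC P l e.2.2.1 e.2.2.2.1 e.2.2.2.2 j),
   if j = 0 then 0 else p2 P (p2 P (37 + (e.2.1 + 40 * (e.1 - 1))) + (e.2.1 + 40 * (j - 1)) -
     wC P l e.2.2.1 e.2.2.2.1 e.2.2.2.2 j - 2),
   p2 P (p2 P (37 + (e.2.1 + 40 * (e.1 - 1))) - p2 P (37 + (e.2.1 + 40 * j))),
   p2 P (e.2.1 + 40 * j + 16 + p2 P (37 + (e.2.1 + 40 * j)) -
     wC P l e.2.2.1 e.2.2.2.1 e.2.2.2.2 j),
   p2 P (e.2.1 + 40 * j))

/-- The parameters. -/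
def mkPar (P l : ℕ) (e : Ex5) : Par :=
  (p2 P (p2 P (37 + (e.2.1 + 40 * (e.1 - 1)))), (rng P (e.1 + 1)).map (mkLv P l e))

/-- The conditions on the exponents. -/
def OkE (a b n m : ℕ) (e : Ex5) : Prop :=
  (0 < a ∧ a < b ∧ 1 ≤ n ∧ 1 ≤ e.1) ∧ e.2.1 + 19 ≤ e.2.2.1 ∧
  Nat.size n ≤ wN (Nat.size n) e.2.2.1 e.2.2.2.1 e.2.2.2.2 e.1 ∧
  a * 2 ^ (40 + 2 * e.1 + (e.2.1 + 40 * e.1) + e.2.2.2.1) ≤ (b - a) * 2 ^ e.2.2.2.2 ∧
  41 + e.2.2.2.2 ≤ e.2.2.1 + e.2.2.2.1 ∧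
  b * 2 ^ (2 + 2 * e.1 + e.2.1) ≤ (b - a) * 2 ^ (e.2.2.1 + 41) ∧
  e.2.2.1 + Nat.size n + 41 * e.1 + 6 ≤ 2 ^ (37 + e.2.1) ∧
  2 ^ (4 * (e.1 + 2)) * (Nat.size n + 1) ≤ 2 ^ e.2.1 ∧
  b ≤ (b - a) * 2 ^ e.2.1 ∧
  112 * 2 ^ e.2.2.1 * (3 * Nat.size n + 2) ≤ (2 ^ e.2.1 - 3) * 2 ^ (e.2.1 + 19) ∧
  (e.1 + 10) * 2 ^ (e.2.1 + 40 * e.1) < Nat.size m

theorem pw_le {x y : ℕ} (h : x ≤ y) : 2 ^ x ≤ 2 ^ y := Nat.pow_le_pow_right (by norm_num) h

theorem good_of_okE {P a b n m : ℕ} {e : Ex5} (h : OkE a b n m e) (hP : m ≤ P) :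
    Good n a b m (mkPar P (Nat.size n) e) := by
  obtain ⟨J, d0, w0, zp, zm⟩ := e
  obtain ⟨⟨ha, hab, hn, hJ⟩, h2, h3, h4, h5, h6, h7, h8, h9, h10, h11⟩ := h
  dsimp only at hJ h2 h3 h4 h5 h6 h7 h8 h9 h10 h11
  set l := Nat.size n with hl
  have hsm : Nat.size m ≤ m := Nat.size_le.2 Nat.lt_two_pow_self
  have hE : 11 * 2 ^ (d0 + 40 * J) ≤ P :=
    le_trans (Nat.mul_le_mul_right _ (show 11 ≤ J + 10 by omega)) (by omega)
  have hlt : ∀ k : ℕ, k < 2 ^ k := fun k => Nat.lt_two_pow_self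
  have hdJ := hlt (d0 + 40 * J)
  set H := 2 ^ (37 + (d0 + 40 * (J - 1))) with hH
  have hH8 : 8 * H = 2 ^ (d0 + 40 * J) := by
    rw [hH, show (8 : ℕ) = 2 ^ 3 by norm_num, ← pow_add]
    congr 1
    omega
  have hv : ∀ j < J, 2 ^ (37 + (d0 + 40 * j)) ≤ H := fun j hj => pw_le (by omega)
  have hv0 : ∀ j, 2 ^ (37 + d0) ≤ 2 ^ (37 + (d0 + 40 * j)) := fun j => pw_le (by omega)
  have hH0 : 2 ^ (37 + d0) ≤ H := hv0 _
  have hw : ∀ j ≤ J, wC P l w0 zp zm j = wN l w0 zp zm j := fun j hj => wC_eq (by omega)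
  have hwle : ∀ j ≤ J, wN l w0 zp zm j + 6 ≤ 2 ^ (37 + d0) := fun j hj => by
    have := wN_le l w0 zp zm j
    omega
  set w := wN l w0 zp zm with hwd
  have hlen : (mkPar P l (J, d0, w0, zp, zm)).2.length = J + 1 := by
    simp only [mkPar, rng, List.length_map, List.length_range]
    omega
  have hJe : (mkPar P l (J, d0, w0, zp, zm)).J = J := by
    unfold Par.J
    rw [hlen]
    omega
  have hlv : ∀ j ≤ J, (mkPar P l (J, d0, w0, zp, zm)).lv j = mkLv P l (J, d0, w0, zp, zm) j := by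
    intro j hj
    unfold Par.lv
    rw [List.getD_eq_getElem _ _ (by rw [hlen]; omega)]
    simp [mkPar, rng]
  have eH : p2 P (37 + (d0 + 40 * (J - 1))) = H := p2_eq (by omega)
  have eT : (mkPar P l (J, d0, w0, zp, zm)).1 = 2 ^ H := by
    simp only [mkPar]
    rw [eH, p2_eq (by omega)]
  have ea : ∀ j ≤ J, (mkPar P l (J, d0, w0, zp, zm)).a j = 2 ^ (H - w j - 6) := by
    intro j hj
    unfold Par.a
    rw [hlv j hj]
    simp only [mkLv]
    rw [eH, hw j hj, p2_eq (by omega)]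
  have eN : ∀ j < J, (mkPar P l (J, d0, w0, zp, zm)).N j = 2 ^ (d0 + 40 * j + 19) := by
    intro j hj
    unfold Par.N
    rw [hlv j hj.le]
    simp only [mkLv]
    rw [if_pos hj, p2_eq (by omega)]
  have eNJ : (mkPar P l (J, d0, w0, zp, zm)).N J = 0 := by
    unfold Par.N
    rw [hlv J le_rfl]
    simp only [mkLv]
    rw [if_neg (lt_irrefl J)]
  have eW : ∀ j ≤ J, (mkPar P l (J, d0, w0, zp, zm)).W j = 2 ^ w j := by
    intro j hj
    unfold Par.W
    rw [hlv j hj]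
    simp only [mkLv]
    have := hwle j hj
    rw [hw j hj, p2_eq (by omega)]
  have er0 : (mkPar P l (J, d0, w0, zp, zm)).r 0 = 0 := by
    unfold Par.r
    rw [hlv 0 (by omega)]
    simp only [mkLv, if_true]
  have er : ∀ j < J, (mkPar P l (J, d0, w0, zp, zm)).r (j + 1) =
      2 ^ (H + (d0 + 40 * j) - w (j + 1) - 2) := by
    intro j hj
    unfold Par.r
    rw [hlv (j + 1) hj]
    simp only [mkLv]
    rw [if_neg (by omega), eH, hw (j + 1) hj, Nat.add_sub_cancel, p2_eq (by omega)]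
  have eu : ∀ j < J, (mkPar P l (J, d0, w0, zp, zm)).u j =
      2 ^ (H - 2 ^ (37 + (d0 + 40 * j))) := by
    intro j hj
    unfold Par.u
    rw [hlv j hj.le]
    simp only [mkLv]
    rw [eH, p2_eq (k := 37 + (d0 + 40 * j)) (by omega),
      p2_eq ((Nat.sub_le _ _).trans (by omega))]
  have eX : ∀ j < J, (mkPar P l (J, d0, w0, zp, zm)).X j =
      2 ^ (d0 + 40 * j + 16 + 2 ^ (37 + (d0 + 40 * j)) - w j) := by
    intro j hj
    unfold Par.X
    rw [hlv j hj.le]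
    simp only [mkLv]
    have := hv j hj
    rw [hw j hj.le, p2_eq (k := 37 + (d0 + 40 * j)) (by omega), p2_eq (by omega)]
  have eD : ∀ j ≤ J, (mkPar P l (J, d0, w0, zp, zm)).D j = 2 ^ (d0 + 40 * j) := by
    intro j hj
    unfold Par.D
    rw [hlv j hj]
    simp only [mkLv]
    rw [p2_eq (by omega)]
  have hws : ∀ j, w j + 41 ≤ w (j + 1) := wN_succ_ge l w0 zp zm
  have hwg : ∀ j, w0 + 41 * j ≤ w j := wN_ge l w0 zp zm
  have h4J : (4 : ℕ) ^ J = 2 ^ (2 * J) := by rw [pow_mul]; norm_num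
  refine ⟨ha, hab, hn, by rw [hJe]; exact hJ, er0, by rw [hJe]; exact eNJ, ?_, ?_, ?_, ?_, ?_, ?_,
    ?_, ?_, ?_, ?_, ?_, ?_, ?_, ?_, ?_, ?_, ?_, ?_, ?_, ?_, ?_⟩
  · rw [hJe, eW J le_rfl]
    exact (Nat.lt_size_self n).le.trans (pw_le h3)
  · rw [hJe]
    intro j hj
    rw [eD (j + 1) hj, eD j hj.le, ← pow_add]
    congr 1
    omega
  · rw [hJe]
    intro j hj
    rw [eN _ hj, eD _ hj.le, ← pow_add]
    congr 1
    omega
  · rw [hJe]
    intro j hj
    have := hwle j hj.le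
    rw [ea _ hj.le, eW _ hj.le, eT, show (64 : ℕ) = 2 ^ 6 by norm_num, ← pow_add, ← pow_add]
    congr 1
    omega
  · rw [hJe]
    intro j hj
    have := hwle j hj.le
    have := hv j hj
    have := hv0 j
    rw [eu _ hj, eX _ hj, eN _ hj, ea _ hj.le, show (8 : ℕ) = 2 ^ 3 by norm_num, ← pow_add,
      ← pow_add, ← pow_add]
    congr 1
    omega
  · rw [hJe]
    intro j hj
    have := hv j hj
    rw [eu _ hj, eD _ hj.le, eT, ← pow_add, ← pow_add]
    congr 1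
    omega
  · rw [hJe]
    intro j hj
    have := hwg j
    rw [eN _ hj, eW _ hj.le]
    exact pw_le (by omega)
  · rw [hJe]
    intro j hj
    have := hws j
    rw [eW (j + 1) hj, eW j hj.le]
    exact pw_le (by omega)
  · rw [hJe]
    intro j hj
    have := hwle (j + 1) hj
    rw [er _ hj, eW (j + 1) hj, eT, eD _ hj.le, show (4 : ℕ) = 2 ^ 2 by norm_num, ← pow_add, ← pow_add,
      ← pow_add]
    exact pw_le (by omega)
  · rw [hJe]
    intro j hj
    have g1 := hwle (j + 1) hj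
    have g2 := hwle j hj.le
    have g3 := hwg j
    have g4 : w (j + 1) + zm ≤ 2 * w j + zp := by
      have : w (j + 1) = max (w j + 41) (min (2 * w j + zp - zm) l) := rfl
      omega
    rw [er _ hj, eN _ hj, ea _ hj.le, eT]
    have e1 : 6 * a * 4 ^ J * (25 * 2 ^ (d0 + 40 * j + 19) * 2 ^ (H - w j - 6)) ^ 2 =
        3750 * (a * 2 ^ (2 * J + 2 * (d0 + 40 * j + 19) + 2 * (H - w j - 6))) := by
      rw [h4J]
      ring
    rw [e1, mul_assoc, ← pow_add]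
    apply Nat.le_of_mul_le_mul_right (c := 2 ^ zm) _ (by positivity)
    calc 3750 * (a * 2 ^ (2 * J + 2 * (d0 + 40 * j + 19) + 2 * (H - w j - 6))) * 2 ^ zm
        ≤ 2 ^ 12 * (a * 2 ^ (2 * J + 2 * (d0 + 40 * j + 19) + 2 * (H - w j - 6))) * 2 ^ zm := by
          gcongr
          norm_num
      _ = a * 2 ^ (12 + (2 * J + 2 * (d0 + 40 * j + 19) + 2 * (H - w j - 6)) + zm) := by ring
      _ ≤ a * 2 ^ ((40 + 2 * J + (d0 + 40 * J) + zp) +
            (H + (H + (d0 + 40 * j) - w (j + 1) - 2))) := by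
          apply Nat.mul_le_mul_left
          exact pw_le (by omega)
      _ = a * 2 ^ (40 + 2 * J + (d0 + 40 * J) + zp) *
            2 ^ (H + (H + (d0 + 40 * j) - w (j + 1) - 2)) := by rw [pow_add, mul_assoc]
      _ ≤ (b - a) * 2 ^ zm * 2 ^ (H + (H + (d0 + 40 * j) - w (j + 1) - 2)) :=
          Nat.mul_le_mul_right _ h4
      _ = _ := by ring
  · rw [hJe]
    intro j hj
    have g1 := hwle (j + 1) hj
    have g3 := hwg (j + 1)
    rw [er _ hj, eT]
    apply Nat.le_of_mul_le_mul_right (c := 2 ^ (w0 + 41)) _ (by positivity)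
    calc 16 * 4 ^ J * 2 ^ (H + (d0 + 40 * j) - w (j + 1) - 2) * b * 2 ^ (w0 + 41)
        = b * 2 ^ (4 + 2 * J + (H + (d0 + 40 * j) - w (j + 1) - 2) + (w0 + 41)) := by
          rw [h4J]
          ring
      _ ≤ b * 2 ^ ((2 + 2 * J + d0) + H) := by
          apply Nat.mul_le_mul_left
          exact pw_le (by omega)
      _ = b * 2 ^ (2 + 2 * J + d0) * 2 ^ H := by rw [pow_add, mul_assoc]
      _ ≤ (b - a) * 2 ^ (w0 + 41) * 2 ^ H := Nat.mul_le_mul_right _ h6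
      _ = _ := by ring
  · rw [hJe]
    intro j hj
    rcases (show j + 1 ≤ J from hj).eq_or_lt with e | e
    · rw [e, eNJ]
      simp
    · have g1 := hwle (j + 1) hj
      have g3 := hws j
      rw [eN _ hj, eN _ e, ea _ hj.le, ea _ e.le, ← pow_add, ← pow_add, ← pow_succ']
      exact pw_le (by omega)
  · rw [hJe]
    intro j hj
    have g1 := hwle (j + 1) hj.le
    have g2 := hv0 j
    have g3 := hv j (by omega)
    rw [eu _ (by omega), eN _ hj, ea _ hj.le, ← pow_add]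
    exact pw_le (by omega)
  · rw [hJe]
    intro j hj
    have g1 := hwle j hj.le
    have g2 := hv0 j
    rw [eX _ hj]
    exact (show 2 = 2 ^ 1 by norm_num).le.trans (pw_le (by omega))
  · have g1 := hwle 0 (by omega)
    have g2 := hv0 0
    rw [eX _ (by omega)]
    exact dvd_pow_self 2 (by omega)
  · rw [hJe, eD 0 (by omega), show (16 : ℕ) = 2 ^ 4 by norm_num, ← pow_mul]
    simpa using h8
  · rw [eD 0 (by omega)]
    simpa using h9
  · rw [eD 0 (by omega), eW 0 (by omega), eN 0 (by omega)]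
    simpa [hwd, wN] using h10
  · rw [eT]
    have : 1 ≤ H := Nat.one_le_two_pow
    exact (show 2 = 2 ^ 1 by norm_num).le.trans (pw_le this)
  · rw [hJe, eT, eD J le_rfl]
    exact pw_le (by omega)
  · rw [hJe, eD J le_rfl]
    exact Nat.lt_size.1 h11

end Vale.Agent.P321D
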