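import Vale.Agent.P321D.Num1
import Vale.Agent.P321D.Kacz

/-!
# P321 decoder: the search for the exponents
-/

namespace Vale.Agent.P321D

open Vale.Agent.Lib.PolyTime Vale.Agent.P315.H155

/-- The program for `OkE`. -/
def okB (P a b n m : ℕ) (e : Ex5) : Bool :=
  (decide (0 < a) && decide (a < b) && decide (1 ≤ n) && decide (1 ≤ e.1)) &&
  (decide (e.2.1 + 19 ≤ e.2.2.1) &&
  (decide (Nat.size n ≤ wC P (Nat.size n) e.2.2.1 e.2.2.2.1 e.2.2.2.2 e.1) &&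
  (decide (a * p2 P (40 + 2 * e.1 + (e.2.1 + 40 * e.1) + e.2.2.2.1) ≤
    (b - a) * p2 P e.2.2.2.2) &&
  (decide (41 + e.2.2.2.2 ≤ e.2.2.1 + e.2.2.2.1) &&
  (decide (b * p2 P (2 + 2 * e.1 + e.2.1) ≤ (b - a) * p2 P (e.2.2.1 + 41)) &&
  (decide (e.2.2.1 + Nat.size n + 41 * e.1 + 6 ≤ p2 P (37 + e.2.1)) &&
  (decide (p2 P (4 * (e.1 + 2)) * (Nat.size n + 1) ≤ p2 P e.2.1) &&
  (decide (b ≤ (b - a) * p2 P e.2.1) &&
  (decide (112 * p2 P e.2.2.1 * (3 * Nat.size n + 2) ≤ (p2 P e.2.1 - 3) * p2 P (e.2.1 + 19)) &&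
  decide ((e.1 + 10) * p2 P (e.2.1 + 40 * e.1) < Nat.size m))))))))))

theorem okB_iff {P a b n m : ℕ} {e : Ex5} (hP : 100 * (m + Nat.size n + 1) ≤ P) (h1 : e.1 ≤ m)
    (h2 : e.2.1 ≤ m) (h3 : e.2.2.1 ≤ m) (h4 : e.2.2.2.1 ≤ m) (h5 : e.2.2.2.2 ≤ m) :
    okB P a b n m e = true ↔ OkE a b n m e := by
  unfold okB OkE
  rw [wC_eq (by omega), p2_eq (k := 40 + 2 * e.1 + (e.2.1 + 40 * e.1) + e.2.2.2.1) (by omega),
    p2_eq (k := e.2.2.2.2) (by omega), p2_eq (k := 2 + 2 * e.1 + e.2.1) (by omega),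
    p2_eq (k := e.2.2.1 + 41) (by omega), p2_eq (k := 37 + e.2.1) (by omega),
    p2_eq (k := 4 * (e.1 + 2)) (by omega), p2_eq (k := e.2.1) (by omega),
    p2_eq (k := e.2.2.1) (by omega), p2_eq (k := e.2.1 + 19) (by omega),
    p2_eq (k := e.2.1 + 40 * e.1) (by omega)]
  simp only [Bool.and_eq_true, decide_eq_true_eq, and_assoc]

/-- All candidates. -/
def cands (P S : ℕ) : List Ex5 :=
  (rng P S).flatMap fun J => (rng P S).flatMap fun d0 => (rng P S).flatMap fun w0 =>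
    (rng P S).flatMap fun zp => (rng P S).map fun zm => (J, d0, w0, zp, zm)

theorem mem_cands {P S : ℕ} (h : S ≤ P) {e : Ex5} : e ∈ cands P S ↔
    e.1 < S ∧ e.2.1 < S ∧ e.2.2.1 < S ∧ e.2.2.2.1 < S ∧ e.2.2.2.2 < S := by
  obtain ⟨J, d0, w0, zp, zm⟩ := e
  simp only [cands, rng_eq h, List.mem_flatMap, List.mem_map, List.mem_range, Prod.mk.injEq]
  constructor
  · rintro ⟨a, ha, b, hb, c, hc, d, hd, f, hf, rfl, rfl, rfl, rfl, rfl⟩
    exact ⟨ha, hb, hc, hd, hf⟩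
  · rintro ⟨ha, hb, hc, hd, hf⟩
    exact ⟨J, ha, d0, hb, w0, hc, zp, hd, zm, hf, rfl, rfl, rfl, rfl, rfl⟩

/-- The selected parameters (`m` is the number of traces). -/
def selM (P a b n m : ℕ) : Par :=
  mkPar P (Nat.size n) (((cands P (Nat.size m)).find? (okB P a b n m)).getD (0, 0, 0, 0, 0))

/-- The selected parameters. -/
def sel (w : ℕ × ℕ × ℕ × List (List Bool)) : Par :=
  selM (100 * (w.2.2.2.length + Nat.size w.2.2.1 + 1)) w.1 w.2.1 w.2.2.1 w.2.2.2.length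

theorem good_sel {a b n : ℕ} {ts : List (List Bool)} {e : Ex5} (h : OkE a b n ts.length e)
    (h1 : e.1 < Nat.size ts.length) (h2 : e.2.1 < Nat.size ts.length)
    (h3 : e.2.2.1 < Nat.size ts.length) (h4 : e.2.2.2.1 < Nat.size ts.length)
    (h5 : e.2.2.2.2 < Nat.size ts.length) : Good n a b ts.length (sel (a, b, n, ts)) := by
  set m := ts.length with hm
  set P := 100 * (m + Nat.size n + 1) with hP
  have hsm : Nat.size m ≤ m := Nat.size_le.2 Nat.lt_two_pow_self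
  have hS : Nat.size m ≤ P := by omega
  have hex : ((cands P (Nat.size m)).find? (okB P a b n m)).isSome := by
    rw [List.find?_isSome]
    exact ⟨e, (mem_cands hS).2 ⟨h1, h2, h3, h4, h5⟩,
      (okB_iff le_rfl (by omega) (by omega) (by omega) (by omega) (by omega)).2 h⟩
  obtain ⟨e', he'⟩ := Option.isSome_iff_exists.1 hex
  have g1 := List.find?_some he'
  obtain ⟨k1, k2, k3, k4, k5⟩ := (mem_cands hS).1 (List.mem_of_find?_eq_some he')
  have g2 := (okB_iff le_rfl (by omega) (by omega) (by omega) (by omega) (by omega)).1 g1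
  have e1 : sel (a, b, n, ts) = mkPar P (Nat.size n) e' := by
    change selM P a b n m = _
    unfold selM
    rw [he']
    rfl
  rw [e1]
  exact good_of_okE g2 (by omega)

variable {α : Type*} [Enc α]

@[fun_prop] theorem PT_wC {P l w0 zp zm j : α → ℕ} (hP : PT ∅ P) (hb : PBd P) (hl : PT ∅ l)
    (hw : PT ∅ w0) (hzp : PT ∅ zp) (hzm : PT ∅ zm) (hj : PT ∅ j) :
    PT ∅ (fun a => wC (P a) (l a) (w0 a) (zp a) (zm a) (j a)) :=
  PT_iterC hP hb (PT.min hj hP) (PBd_min_right hb)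
    (PT.max (PT.add PT.snd' (PT.const 41))
      (PT.min (PT.sub (PT.add (PT.mul (PT.const 2) PT.snd') (hzp.comp PT.fst'))
        (hzm.comp PT.fst')) (hl.comp PT.fst'))) hw

@[fun_prop] theorem PT_mkLv {P l j : α → ℕ} {e : α → Ex5} (hP : PT ∅ P) (hb : PBd P) (hl : PT ∅ l)
    (he : PT ∅ e) (hj : PT ∅ j) : PT ∅ (fun a => mkLv (P a) (l a) (e a) (j a)) := by
  unfold mkLv
  fun_prop

@[fun_prop] theorem PT_mkPar {P l : α → ℕ} {e : α → Ex5} (hP : PT ∅ P) (hb : PBd P) (hl : PT ∅ l)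
    (he : PT ∅ e) : PT ∅ (fun a => mkPar (P a) (l a) (e a)) := by
  unfold mkPar
  fun_prop

@[fun_prop] theorem PT_okB {P a b n m : α → ℕ} {e : α → Ex5} (hP : PT ∅ P) (hb : PBd P)
    (ha : PT ∅ a) (hb' : PT ∅ b) (hn : PT ∅ n) (hm : PT ∅ m) (he : PT ∅ e) :
    PT ∅ (fun x => okB (P x) (a x) (b x) (n x) (m x) (e x)) := by
  unfold okB
  fun_prop

@[fun_prop] theorem PT_cands {P S : α → ℕ} (hP : PT ∅ P) (hb : PBd P) (hS : PT ∅ S) :
    PT ∅ (fun x => cands (P x) (S x)) := by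
  unfold cands
  fun_prop

theorem PT_selM {P a b n m : α → ℕ} (hP : PT ∅ P) (hb : PBd P)
    (ha : PT ∅ a) (hb' : PT ∅ b) (hn : PT ∅ n) (hm : PT ∅ m) :
    PT ∅ (fun x => selM (P x) (a x) (b x) (n x) (m x)) := by
  unfold selM
  fun_prop

theorem PBd_size {f : α → ℕ} (hf : PT ∅ f) : PBd (fun a => Nat.size (f a)) :=
  hf.pbd.mono fun a => (esize_nat (f a)).ge

theorem PT_sel : PT ∅ sel := by
  unfold sel
  refine PT_selM (by fun_prop) ?_ (by fun_prop) (by fun_prop) (by fun_prop) (by fun_prop)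
  exact (PBd.const 100).mul (((PBd_length (by fun_prop)).add (PBd_size (by fun_prop))).add
    (PBd.const 1))

end Vale.Agent.P321D
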