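import Vale.Agent.P321D.Kacz

/-!
# P321 decoder: running time, part A (tests, values, windows, products)
-/

namespace Vale.Agent.P321D

open Vale.Agent.Lib.PolyTime Vale.Agent.P315.H155

variable {α β : Type*} [Enc α] [Enc β]

attribute [fun_prop] PBd_min_right

@[fun_prop] theorem PT_decTrue {f : α → Bool} (hf : PT ∅ f) :
    PT ∅ (fun a => decide (f a = true)) := hf.congr fun a => by simp

@[fun_prop] theorem PT_wadd {w w' : α → Wt} (hw : PT ∅ w) (hw' : PT ∅ w') :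
    PT ∅ (fun a => wadd (w a) (w' a)) := by
  unfold wadd; fun_prop

@[fun_prop] theorem PT_wcj {w : α → Wt} (hw : PT ∅ w) : PT ∅ (fun a => wcj (w a)) := by
  unfold wcj; fun_prop

@[fun_prop] theorem PT_cj {L : α → SC} (hL : PT ∅ L) : PT ∅ (fun a => cj (L a)) := by
  unfold cj; fun_prop

@[fun_prop] theorem PT_sM {z : α → Wt} {L : α → SC} (hz : PT ∅ z) (hL : PT ∅ L) :
    PT ∅ (fun a => sM (z a) (L a)) := by
  unfold sM; fun_prop

@[fun_prop] theorem PT_sP {z : α → Wt} {L : α → SC} (hz : PT ∅ z) (hL : PT ∅ L) :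
    PT ∅ (fun a => sP (z a) (L a)) := by
  unfold sP; fun_prop

theorem PT_expand' : PT ∅ expand := by
  unfold expand; fun_prop

@[fun_prop] theorem PT_expand {e : α → Ent} (he : PT ∅ e) : PT ∅ (fun a => expand (e a)) :=
  PT_expand'.comp he

@[fun_prop] theorem PT_mulMon {P : α → ℕ} {c c' : α → SMon} (hP : PT ∅ P) (hb : PBd P)
    (hc : PT ∅ c) (hc' : PT ∅ c') : PT ∅ (fun a => mulMon (P a) (c a) (c' a)) := by
  unfold mulMon; fun_prop

@[fun_prop] theorem PT_mulC {P : α → ℕ} {L L' : α → SC} (hP : PT ∅ P) (hb : PBd P)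
    (hL : PT ∅ L) (hL' : PT ∅ L') : PT ∅ (fun a => mulC (P a) (L a) (L' a)) := by
  unfold mulC; fun_prop

@[fun_prop] theorem PT_mul4 {P : α → ℕ} {L1 L2 L3 L4 : α → SC} (hP : PT ∅ P) (hb : PBd P)
    (h1 : PT ∅ L1) (h2 : PT ∅ L2) (h3 : PT ∅ L3) (h4 : PT ∅ L4) :
    PT ∅ (fun a => mul4 (P a) (L1 a) (L2 a) (L3 a) (L4 a)) :=
  PT_mulC hP hb (PT_mulC hP hb h1 h2) (PT_mulC hP hb h3 h4)

@[fun_prop] theorem PT_ndG {P : α → ℕ} {w c : α → G} {r : α → Bool} {y : α → List Bool}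
    {v : α → List G} (hP : PT ∅ P) (hb : PBd P) (hw : PT ∅ w) (hc : PT ∅ c) (hr : PT ∅ r)
    (hy : PT ∅ y) (hv : PT ∅ v) : PT ∅ (fun a => ndG (P a) (w a) (c a) (r a) (y a) (v a)) := by
  have h : PT ∅ (fun a => (List.range ((y a).length + 1)).map fun i =>
      G.sum ((List.range (min i (y a).length)).map fun l =>
        if r a && !((y a).reverse.getD l false) then G.int 0 else
          G.mul (G.mul (G.pow (P a) (w a) (i - 1 - l)) (c a)) ((v a).getD l (G.int 0)))) := by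
    fun_prop
  refine h.congr fun a => List.map_congr_left fun i hi => ?_
  rw [min_eq_left (Nat.lt_succ_iff.1 (List.mem_range.1 hi))]

@[fun_prop] theorem PT_monG {P : α → ℕ} {c : α → G} {Z : α → List (G × Bool)}
    {y : α → List Bool} (hP : PT ∅ P) (hb : PBd P) (hc : PT ∅ c) (hZ : PT ∅ Z) (hy : PT ∅ y) :
    PT ∅ (fun a => monG (P a) (c a) (Z a) (y a)) := by
  unfold monG; fun_prop

@[fun_prop] theorem PT_evL {P T : α → ℕ} {L : α → SC} {y : α → List Bool} (hP : PT ∅ P)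
    (hb : PBd P) (hT : PT ∅ T) (hL : PT ∅ L) (hy : PT ∅ y) :
    PT ∅ (fun a => evL (P a) (T a) (L a) (y a)) := by
  unfold evL; fun_prop

@[fun_prop] theorem PT_estOne {P T c d : α → ℕ} {L : α → SC} {y : α → List Bool} (hP : PT ∅ P)
    (hb : PBd P) (hT : PT ∅ T) (hc : PT ∅ c) (hd : PT ∅ d) (hL : PT ∅ L) (hy : PT ∅ y) :
    PT ∅ (fun a => estOne (P a) (T a) (c a) (d a) (L a) (y a)) := by
  unfold estOne; fun_prop

@[fun_prop] theorem PT_est {P T c d : α → ℕ} {L : α → SC} {ts : α → List (List Bool)}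
    (hP : PT ∅ P) (hb : PBd P) (hT : PT ∅ T) (hc : PT ∅ c) (hd : PT ∅ d) (hL : PT ∅ L)
    (hts : PT ∅ ts) : PT ∅ (fun a => est (P a) (T a) (c a) (d a) (L a) (ts a)) := by
  unfold est; fun_prop

@[fun_prop] theorem PT_wgtG {P T : α → ℕ} {as : α → List ℤ} {m e l : α → ℤ} (hP : PT ∅ P)
    (hb : PBd P) (hT : PT ∅ T) (has : PT ∅ as) (hm : PT ∅ m) (he : PT ∅ e) (hl : PT ∅ l) :
    PT ∅ (fun a => wgtG (P a) (T a) (as a) (m a) (e a) (l a)) := by
  unfold wgtG; fun_prop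

@[fun_prop] theorem PT_exL {P : α → ℕ} {as : α → List ℤ} (hP : PT ∅ P) (hb : PBd P)
    (has : PT ∅ as) : PT ∅ (fun a => exL (P a) (as a)) := by
  unfold exL; fun_prop

@[fun_prop] theorem PT_pastG {P T : α → ℕ} {as : α → List ℤ} {m : α → ℤ} {y : α → List Bool}
    {c : α → Qy} (hP : PT ∅ P) (hb : PBd P) (hT : PT ∅ T) (has : PT ∅ as) (hm : PT ∅ m)
    (hy : PT ∅ y) (hc : PT ∅ c) : PT ∅ (fun a => pastG (P a) (T a) (as a) (m a) (y a) (c a)) := by
  unfold pastG; fun_prop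

@[fun_prop] theorem PT_nz {r : α → ℕ} {c : α → Qy} {e : α → ℤ} (hr : PT ∅ r) (hc : PT ∅ c)
    (he : PT ∅ e) : PT ∅ (fun a => nz (r a) (c a) (e a)) := by
  unfold nz; fun_prop

@[fun_prop] theorem PT_child {P r : α → ℕ} {p : α → Pat} {e e' e'' : α → ℤ} (hP : PT ∅ P)
    (hb : PBd P) (hr : PT ∅ r) (hp : PT ∅ p) (he : PT ∅ e) (he' : PT ∅ e') (he'' : PT ∅ e'') :
    PT ∅ (fun a => child (P a) (r a) (p a) (e a) (e' a) (e'' a)) := by
  unfold child; fun_prop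

@[fun_prop] theorem PT_kids {P r : α → ℕ} {as : α → List ℤ} {p : α → Pat} (hP : PT ∅ P)
    (hb : PBd P) (hr : PT ∅ r) (has : PT ∅ as) (hp : PT ∅ p) :
    PT ∅ (fun a => kids (P a) (r a) (as a) (p a)) := by
  unfold kids; fun_prop

end Vale.Agent.P321D
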