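import Vale.Agent.P321D.Par
import Vale.Agent.P321D.Comb

/-!
# P321 decoder: the queries
-/

namespace Vale.Agent.P321D

open Vale.Agent.Lib.PolyTime Vale.Agent.P315.H155

variable {P n a b m : ℕ} {π : Par}

theorem pats_facts {T c1 c2 mm j u X : ℕ} {L : SC} (hX : X + 1 ≤ P) (hL : CInv T c1 c2 mm j L)
    {p : Pat} (hp : p ∈ pats P u X L) : PInv T c1 c2 mm j p ∧
    (p.1.2.natAbs ≤ u * (2 * X + 1) ∧ p.2.1.2.natAbs ≤ u * (2 * X + 1) ∧
      p.2.2.1.2.natAbs ≤ u * (2 * X + 1) ∧ p.2.2.2.2.natAbs ≤ u * (2 * X + 1)) ∧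
    (p.1.2 + p.2.1.2 + p.2.2.1.2 + p.2.2.2.2).natAbs ≤ u := by
  simp only [pats, rng_eq hX, List.mem_append, List.mem_map, List.mem_flatMap,
    List.mem_range] at hp
  have hm : ∀ k, k ≤ 2 * X + 1 → u * k ≤ u * (2 * X + 1) := fun k hk => Nat.mul_le_mul_left _ hk
  rcases hp with ⟨x, hx, rfl⟩ | ⟨x', hx', x, hx, t, ht, rfl⟩ | ⟨x, hx, t, ht, rfl⟩
  · refine ⟨⟨hL, hL.cj, cinv_cone j, cinv_cone j⟩, ⟨?_, ?_, ?_, ?_⟩, ?_⟩
    all_goals simp only [patP, Int.natAbs_neg, Int.natAbs_natCast, Int.natAbs_zero]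
    · exact hm _ (by omega)
    · exact hm _ (by omega)
    · exact Nat.zero_le _
    · exact Nat.zero_le _
    · simp
  · refine ⟨⟨hL, hL.cj, hL.cj, hL⟩, ⟨?_, ?_, ?_, ?_⟩, ?_⟩
    all_goals simp only [patQ, Int.natAbs_neg, Int.natAbs_natCast]
    · exact hm _ (by omega)
    · exact hm _ (by omega)
    · exact hm _ (by omega)
    · exact hm _ (by omega)
    · have : ((u * (x' + t + 1) : ℕ) : ℤ) + -((u * x' : ℕ) : ℤ) + -((u * (x + t) : ℕ) : ℤ) +
          ((u * x : ℕ) : ℤ) = u := by push_cast; ring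
      rw [this, Int.natAbs_natCast]
  · refine ⟨⟨hL, hL.cj, hL.cj, cinv_cone j⟩, ⟨?_, ?_, ?_, ?_⟩, ?_⟩
    all_goals simp only [patT, Int.natAbs_neg, Int.natAbs_natCast, Int.natAbs_zero]
    · exact hm _ (by omega)
    · exact hm _ (by omega)
    · exact hm _ (by omega)
    · exact Nat.zero_le _
    · have : ((u * (x + t) : ℕ) : ℤ) + -((u * x : ℕ) : ℤ) + -((u * t : ℕ) : ℤ) + 0 = 0 := by
        push_cast; ring
      rw [this]
      exact Nat.zero_le _

theorem len_flatMap_le {α β : Type*} {l : List α} {f : α → List β} {B : ℕ}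
    (h : ∀ x ∈ l, (f x).length ≤ B) : (l.flatMap f).length ≤ l.length * B := by
  induction l with
  | nil => simp
  | cons x l ih =>
    rw [List.flatMap_cons, List.length_append, List.length_cons, Nat.succ_mul]
    have h1 := h x List.mem_cons_self
    have h2 := ih fun y hy => h y (List.mem_cons_of_mem _ hy)
    omega

theorem length_pats_le {u X : ℕ} (hX : X + 1 ≤ P) (L : SC) :
    (pats P u X L).length ≤ 3 * (X + 1) ^ 3 := by
  have h1 : (rng P (X + 1)).length = X + 1 := by rw [rng_eq hX, List.length_range]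
  have h2 : ((rng P (X + 1)).flatMap fun x => (rng P (X + 1)).map fun t =>
      patT u L x t).length ≤ (X + 1) * (X + 1) := by
    conv_rhs => rw [← h1]
    exact len_flatMap_le fun x _ => by rw [List.length_map]
  have h3 : ((rng P (X + 1)).flatMap fun x' => (rng P (X + 1)).flatMap fun x =>
      (rng P (X + 1)).map fun t => patQ u L x' x t).length ≤ (X + 1) * ((X + 1) * (X + 1)) := by
    conv_rhs => rw [← h1]
    exact len_flatMap_le fun x _ => len_flatMap_le fun y _ => by rw [List.length_map]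
  unfold pats
  rw [List.length_append, List.length_append, List.length_map, h1]
  have h4 : X + 1 ≤ (X + 1) * (X + 1) := Nat.le_mul_self _
  have h5 : (X + 1) * (X + 1) ≤ (X + 1) * ((X + 1) * (X + 1)) := Nat.mul_le_mul_left _ h4
  have h6 : (X + 1) ^ 3 = (X + 1) * ((X + 1) * (X + 1)) := by ring
  omega

theorem mem_kids {r : ℕ} {as : List ℤ} {p : Pat} {c : Qy} (h : c ∈ kids P r as p) :
    ∃ e ∈ exL P as, ∃ e' ∈ exL P as, ∃ e'' ∈ exL P as, c = child P r p e e' e'' := by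
  simp only [kids, List.mem_flatMap, List.mem_map] at h
  obtain ⟨e, he, e', he', e'', he'', rfl⟩ := h
  exact ⟨e, he, e', he', e'', he'', rfl⟩

theorem length_kids_le (r : ℕ) (as : List ℤ) (p : Pat) :
    (kids P r as p).length ≤ (exL P as).length ^ 3 := by
  have : (exL P as).length ^ 3 = (exL P as).length * ((exL P as).length * (exL P as).length) := by
    ring
  rw [this]
  exact len_flatMap_le fun x _ => len_flatMap_le fun y _ => by rw [List.length_map]

theorem Good.padm (h : Good n a b m π) {j : ℕ} (hj : j < π.J) {p : Pat}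
    (hp : p.1.2.natAbs ≤ π.u j * (2 * π.X j + 1) ∧ p.2.1.2.natAbs ≤ π.u j * (2 * π.X j + 1) ∧
      p.2.2.1.2.natAbs ≤ π.u j * (2 * π.X j + 1) ∧ p.2.2.2.2.natAbs ≤ π.u j * (2 * π.X j + 1))
    {e : ℤ} (he : e.natAbs ≤ π.N j * π.a j) :
    PAdm π.1 (π.c1 a) (π.c2 a b) (π.mm a b) (π.r (j + 1)) p e := by
  have h1 : π.u j * (2 * π.X j + 1) ≤ 24 * (π.N j * π.a j) := by
    have h2 := h.uX j hj
    have h3 := h.X_pos j hj
    calc π.u j * (2 * π.X j + 1) ≤ π.u j * (3 * π.X j) := Nat.mul_le_mul_left _ (by omega)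
      _ = 3 * (π.u j * π.X j) := by ring
      _ = _ := by rw [h2]; ring
  have key : ∀ c : Qy, c.2.natAbs ≤ π.u j * (2 * π.X j + 1) →
      Adm1 π.1 (π.c1 a) (π.c2 a b) (π.mm a b) (nz (π.r (j + 1)) c e) := by
    intro c hc
    refine h.adm hj le_rfl (by omega) ?_
    rw [Int.natAbs_neg]
    have := Int.natAbs_add_le e c.2
    omega
  exact ⟨key _ hp.1, key _ hp.2.1, key _ hp.2.2.1, key _ hp.2.2.2⟩

theorem Good.angs_len_D (h : Good n a b m π) (hP : m * (Nat.size b + 1) ≤ P) {j : ℕ}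
    (hj : j ≤ π.J) : (angs P π j).length ≤ π.D π.J := by
  have := h.angs_len' hP hj
  omega

theorem qinv_children (hC : CHILD) (hW : WIN) (h : Good n a b m π)
    (hP : m * (Nat.size b + 1) ≤ P) {j : ℕ} (hj : j < π.J) {c c' : Qy} (hc : QInv π a b j c)
    (hc' : c' ∈ children P π j c) : QInv π a b (j + 1) c' := by
  obtain ⟨p, hp, hk⟩ := List.mem_flatMap.1 hc'
  obtain ⟨e, he, e', he', e'', he'', rfl⟩ := mem_kids hk
  obtain ⟨h1, h2, h3⟩ := pats_facts (h.X_lt_P hP hj) hc.1 hp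
  obtain ⟨-, w2, -⟩ := hW.2 P π.1 n b (π.D π.J) π.J (angs P π (j + 1)) (h.room hP)
    (h.angs_len_D hP hj) (h.angs_sum_T hP hj)
  have s1 := h.angs_sum_succ hP hj
  have s2 := h.angs_sum hP (show j + 1 ≤ π.J from hj)
  have g := w2 e he
  have g' := w2 e' he'
  have g'' := w2 e'' he''
  have hb : (child P (π.r (j + 1)) p e e' e'').2.natAbs ≤
      π.u j + 3 * ((angs P π (j + 1)).map Int.natAbs).sum := by
    have k1 := Int.natAbs_add_le (p.1.2 + p.2.1.2 + p.2.2.1.2 + p.2.2.2.2) (e + e' + e'')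
    have k2 := Int.natAbs_add_le (e + e') e''
    have k3 := Int.natAbs_add_le e e'
    change (p.1.2 + p.2.1.2 + p.2.2.1.2 + p.2.2.2.2 + (e + e' + e'')).natAbs ≤ _
    omega
  refine ⟨(hC P π.1 n b (π.D π.J) π.J _ _ _ j _ p e e' e'' (h.room hP) hj h.mm_le h1
    (h.padm hj h2 (g.trans s1)) (h.padm hj h2 (g'.trans s1))
    (h.padm hj h2 (g''.trans s1))).1, fun hj' => ?_, fun hj' => ?_⟩
  · have := h.step j hj'
    rw [mul_assoc]
    omega
  · have e0 : angs P π (j + 1) = [] := by rw [hj', h.angs_top hP]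
    rw [e0] at hb
    simpa using hb

theorem length_children (hW : WIN) (h : Good n a b m π) (hP : m * (Nat.size b + 1) ≤ P) {j : ℕ}
    (hj : j < π.J) (c : Qy) : (children P π j c).length ≤ 2 ^ π.D π.J := by
  obtain ⟨w1, -, -⟩ := hW.2 P π.1 n b (π.D π.J) π.J (angs P π (j + 1)) (h.room hP)
    (h.angs_len_D hP hj) (h.angs_sum_T hP hj)
  have h1 := length_pats_le (u := π.u j) (h.X_lt_P hP hj) c.1
  have h2 := h.X_le hj
  have h3 := h.X_pos j hj
  have h4 := h.v_le hj
  have h5 := h.angs_len' hP (show j + 1 ≤ π.J from hj)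
  set v := 2 ^ 37 * π.D j
  have h6 : 3 * (π.X j + 1) ^ 3 ≤ 2 ^ (3 * v) := by
    calc 3 * (π.X j + 1) ^ 3 ≤ (2 * (π.X j + 1)) ^ 3 := by rw [mul_pow]; omega
      _ ≤ (2 ^ v) ^ 3 := Nat.pow_le_pow_left (by omega) _
      _ = _ := by rw [← pow_mul, mul_comm]
  calc (children P π j c).length ≤ (pats P (π.u j) (π.X j) c.1).length *
        (exL P (angs P π (j + 1))).length ^ 3 :=
        len_flatMap_le fun p _ => length_kids_le _ _ _
    _ ≤ 2 ^ (3 * v) * 2 ^ (6 * (angs P π (j + 1)).length) := by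
        apply Nat.mul_le_mul (h1.trans h6)
        rw [w1, show (4 : ℕ) = 2 ^ 2 by norm_num, ← pow_mul, ← pow_mul]
        exact Nat.pow_le_pow_right (by norm_num) (by omega)
    _ ≤ _ := by
        rw [← pow_add]
        exact Nat.pow_le_pow_right (by norm_num) (by omega)

theorem Good.qinv_zero (h : Good n a b m π) (hP : m * (Nat.size b + 1) ≤ P) :
    (qs0 P π).length ≤ 2 ^ π.D π.J ∧ ∀ c ∈ qs0 P π, QInv π a b 0 c := by
  have hJ := h.J_pos
  have h1 := h.X_lt_P hP hJ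
  have h2 := h.X_le hJ
  have h3 := h.v_le hJ
  have h4 := h.X_pos 0 hJ
  have h5 : 2 ^ (2 ^ 37 * π.D 0) ≤ 2 ^ π.D π.J := Nat.pow_le_pow_right (by norm_num) (by omega)
  unfold qs0
  rw [rng_eq (by omega)]
  refine ⟨by rw [List.length_map, List.length_range]; omega, fun c hc => ?_⟩
  obtain ⟨x, hx, rfl⟩ := List.mem_map.1 hc
  rw [List.mem_range] at hx
  refine ⟨cinv_tau0 0, fun _ => ?_, fun e => by omega⟩
  rw [Int.natAbs_natCast]
  have h6 := h.uX 0 hJ
  have h7 : π.u 0 * (2 * x) ≤ π.u 0 * π.X 0 := Nat.mul_le_mul_left _ (by omega)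
  have h8 : π.u 0 * (2 * x) = 2 * (π.u 0 * x) := by ring
  rw [mul_assoc] at h6 ⊢
  omega

theorem Good.qinv_freq (h : Good n a b m π) {j : ℕ} (hj : j ≤ π.J) {c : Qy}
    (hc : QInv π a b j c) : c.2.natAbs ≤ π.1 := by
  have hJ := h.J_pos
  rcases hj.eq_or_lt with e | e
  · have h1 := hc.2.2 e
    have h2 := h.u_le (show j - 1 < π.J by omega)
    have h3 := h.Na_le (show j - 1 < π.J by omega)
    omega
  · have h1 := hc.2.1 e
    have h3 := h.Na_le e
    rw [mul_assoc] at h1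
    omega

theorem Good.esize_query (h : Good n a b m π) {j : ℕ} (hj : j ≤ π.J) {c : Qy}
    (hc : QInv π a b j c) : 2 * esize c + 1 ≤ 2 ^ (4 * π.D π.J) := by
  have h1 := Inv.esize_le hc.1 h.mm_le
  have h2 := h.qinv_freq hj hc
  have h3 := h.D_ge (le_refl π.J)
  have h4 := h.T_le
  set D := π.D π.J with hD
  have hlt : ∀ k : ℕ, k < 2 ^ k := fun k => Nat.lt_two_pow_self
  have g1 : 16 ^ (j + 1) ≤ 16 ^ (π.J + 1) := Nat.pow_le_pow_right (by norm_num) (by omega)
  have g2 : 16 ^ (π.J + 2) = 16 * 16 ^ (π.J + 1) := by ring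
  have g3 : 16 ^ (π.J + 2) ≤ D := le_trans (Nat.le_mul_of_pos_right _ (by omega)) h3
  have g4 : 4 ^ j ≤ 16 ^ j := Nat.pow_le_pow_left (by norm_num) _
  have g5 : 16 ^ (j + 1) = 16 * 16 ^ j := by ring
  have g6 : 1 ≤ 16 ^ j := Nat.one_le_pow _ _ (by norm_num)
  have g7 : Nat.size ((16 ^ (j + 1) + 4 ^ j) * π.1) ≤ 2 * D := by
    rw [Nat.size_le]
    calc (16 ^ (j + 1) + 4 ^ j) * π.1 ≤ D * 2 ^ D := Nat.mul_le_mul (by omega) h4
      _ < 2 ^ D * 2 ^ D := Nat.mul_lt_mul_of_pos_right (hlt D) (by positivity)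
      _ = 2 ^ (2 * D) := by rw [← pow_add, two_mul]
  have g8 : Nat.size c.2.natAbs ≤ D + 1 := by
    rw [Nat.size_le, pow_succ]
    have := hlt D
    omega
  have g9 : esize c.1 ≤ 2 ^ D * (D * (100 * D)) := by
    refine h1.trans ?_
    rw [mul_assoc]
    apply Nat.mul_le_mul (Nat.pow_le_pow_right (by norm_num) (by omega))
    exact Nat.mul_le_mul (by omega) (by omega)
  have g10 : D * (100 * D) ≤ 2 ^ D * (100 * 2 ^ D) :=
    Nat.mul_le_mul (hlt D).le (Nat.mul_le_mul_left _ (hlt D).le)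
  have g11 : 2 ^ (4 * D) = 2 ^ D * (2 ^ D * (2 ^ D * 2 ^ D)) := by
    rw [← pow_add, ← pow_add, ← pow_add]; congr 1; omega
  have g12 : 1000 ≤ 2 ^ D := by
    have := hlt D
    have := h.D_ge' (le_refl π.J)
    omega
  have g13 : esize c = 2 * esize c.1 + esize c.2 + 1 := esize_pair c.1 c.2
  rw [esize_int] at g13
  set Z := 2 ^ D with hZ
  have g14 : esize c.1 ≤ 100 * (Z * (Z * Z)) := by
    calc esize c.1 ≤ Z * (Z * (100 * Z)) := g9.trans (Nat.mul_le_mul_left _ g10)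
      _ = _ := by ring
  have g15 : 1000 * (Z * (Z * Z)) ≤ Z * (Z * (Z * Z)) := Nat.mul_le_mul_right _ g12
  have g16 : Z ≤ Z * (Z * Z) := Nat.le_mul_of_pos_right _ (by positivity)
  have g17 := hlt D
  omega

theorem qs_ok (hC : CHILD) (hW : WIN) : QS := by
  intro P n a b m π h hP
  set R : ℕ → List Qy := fun j =>
    Nat.rec (motive := fun _ => List Qy) (qs0 P π) (fun i Q => Q.flatMap (children P π i)) j with hR
  have hs : ∀ j, R (j + 1) = (R j).flatMap (children P π j) := fun j => rfl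
  have hinv : ∀ j ≤ π.J, (R j).length ≤ 2 ^ ((j + 1) * π.D π.J) ∧ ∀ c ∈ R j, QInv π a b j c := by
    intro j
    induction j with
    | zero =>
      intro _
      rw [zero_add, one_mul]
      exact h.qinv_zero hP
    | succ j ih =>
      intro hj
      obtain ⟨i1, i2⟩ := ih (by omega)
      rw [hs]
      refine ⟨?_, fun c hc => ?_⟩
      · calc _ ≤ (R j).length * 2 ^ π.D π.J :=
              len_flatMap_le fun c _ => length_children hW h hP hj c
          _ ≤ 2 ^ ((j + 1) * π.D π.J) * 2 ^ π.D π.J := Nat.mul_le_mul_right _ i1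
          _ = _ := by rw [← pow_add]; congr 1; ring
      · obtain ⟨c0, h0, h1⟩ := List.mem_flatMap.1 hc
        exact qinv_children hC hW h hP hj (i2 c0 h0) h1
  have hD : 1 ≤ π.D π.J := by have := h.D_ge' (le_refl π.J); omega
  have heq : ∀ j ≤ π.J, qs P π j = R j := by
    intro j hj
    have hjP : j ≤ P := h.le_P hP (le_trans (by omega) (Nat.le_mul_of_pos_right (π.J + 10) hD))
    unfold qs
    rw [min_eq_left hjP]
    refine natRecC_eq fun i hi => ?_
    obtain ⟨i1, i2⟩ := hinv (i + 1) (by omega)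
    change esize (R (i + 1)) ≤ P
    rw [esize_list]
    calc _ ≤ ((R (i + 1)).map fun x => 2 * esize x + 1).length • 2 ^ (4 * π.D π.J) := by
          apply List.sum_le_card_nsmul
          intro x hx
          obtain ⟨c, hc, rfl⟩ := List.mem_map.1 hx
          exact h.esize_query (by omega) (i2 c hc)
      _ ≤ 2 ^ ((i + 1 + 1) * π.D π.J) * 2 ^ (4 * π.D π.J) := by
          rw [List.length_map, smul_eq_mul]
          exact Nat.mul_le_mul_right _ i1
      _ ≤ P := by
          rw [← pow_add, ← add_mul]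
          exact h.pow_le hP (Nat.mul_le_mul_right _ (by omega))
  refine ⟨heq 0 (Nat.zero_le _), fun j hj => ?_, fun j hj => ?_⟩
  · rw [heq (j + 1) hj, heq j hj.le, hs]
  · rw [heq j hj]
    exact hinv j hj

end Vale.Agent.P321D
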