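import Vale.Agent.P321D.Defs

/-!
# P321 decoder: the statements of the blocks
-/

namespace Vale.Agent.P321D

open Complex Finset Vale.Agent.Lib.PolyTime Vale.Agent.P315.H155
open scoped unitInterval

/-- There is room for all computations up to the level `J`. -/
def Room (P T n b Dm J : ℕ) : Prop :=
  2 ≤ T ∧ T ≤ 2 ^ Dm ∧ 16 ^ (J + 2) * (Nat.size n + 1) ≤ Dm ∧ 2 ^ (8 * Dm) * (Nat.size b + 1) ≤ P

/-- The constant `c1` of the invariant. -/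
def Par.c1 (π : Par) (a : ℕ) : ℕ := 6 * a * 4 ^ π.J
/-- The constant `c2` of the invariant. -/
def Par.c2 (π : Par) (a b : ℕ) : ℕ := (b - a) * π.1
/-- The constant `mm` of the invariant. -/
def Par.mm (π : Par) (a b : ℕ) : ℕ := (b - a) * π.1 / (4 * 4 ^ π.J * b)

/-- The queries of level `j`: invariant of the test and range of the frequency. -/
def QInv (π : Par) (a b j : ℕ) (c : Qy) : Prop :=
  CInv π.1 (π.c1 a) (π.c2 a b) (π.mm a b) j c.1 ∧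
    (j < π.J → c.2.natAbs ≤ 7 * π.N j * π.a j) ∧
    (j = π.J → c.2.natAbs ≤ π.u (j - 1))

/-- The functional of level `j`. -/
noncomputable def TT (P : ℕ) (π : Par) (j : ℕ) (x : List Bool) (i1 : ℕ) (c : Qy) : ℂ :=
  Tf π.1 (angs P π j) (π.r j) (π.W j) x i1 c

/-- All four tests of a pattern satisfy the invariant of level `j`. -/
def PInv (T c1 c2 mm j : ℕ) (p : Pat) : Prop :=
  CInv T c1 c2 mm j p.1.1 ∧ CInv T c1 c2 mm j p.2.1.1 ∧ CInv T c1 c2 mm j p.2.2.1.1 ∧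
    CInv T c1 c2 mm j p.2.2.2.1

/-- All nodes created from the pattern are admissible. -/
def PAdm (T c1 c2 mm r : ℕ) (p : Pat) (a : ℤ) : Prop :=
  Adm1 T c1 c2 mm (nz r p.1 a) ∧ Adm1 T c1 c2 mm (nz r p.2.1 a) ∧
    Adm1 T c1 c2 mm (nz r p.2.2.1 a) ∧ Adm1 T c1 c2 mm (nz r p.2.2.2 a)

/-- Derived tests: invariant and value. -/
def CHILD : Prop :=
  ∀ (P T n b Dm J c1 c2 mm j r : ℕ) (p : Pat) (a a' a'' : ℤ), Room P T n b Dm J → j < J → mm ≤ T →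
    PInv T c1 c2 mm j p → PAdm T c1 c2 mm r p a → PAdm T c1 c2 mm r p a' →
    PAdm T c1 c2 mm r p a'' →
    CInv T c1 c2 mm (j + 1) (child P r p a a' a'').1 ∧ ∀ y : List Bool,
      sev T (child P r p a a' a'').1 y =
        sev T p.1.1 y * sev T (sM (nz r p.2.1 a) p.2.1.1) y *
          sev T (sM (nz r p.2.2.1 a') p.2.2.1.1) y * sev T (sM (nz r p.2.2.2 a'') p.2.2.2.1) y +
        sev T (sP (nz r p.1 a) p.1.1) y * sev T p.2.1.1 y *
          sev T (sM (nz r p.2.2.1 a') p.2.2.1.1) y * sev T (sM (nz r p.2.2.2 a'') p.2.2.2.1) y +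
        sev T (sP (nz r p.1 a) p.1.1) y * sev T (sP (nz r p.2.1 a') p.2.1.1) y *
          sev T p.2.2.1.1 y * sev T (sM (nz r p.2.2.2 a'') p.2.2.2.1) y +
        sev T (sP (nz r p.1 a) p.1.1) y * sev T (sP (nz r p.2.1 a') p.2.1.1) y *
          sev T (sP (nz r p.2.2.1 a'') p.2.2.1.1) y * sev T p.2.2.2.1 y

/-- Sizes of tests, of their values and of their estimators. -/
def NORM : Prop :=
  ∀ (T c1 c2 mm s k u len n : ℕ) (L : SC), 2 ≤ T → mm ≤ T → Inv T c1 c2 mm s k u len L →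
    esize L ≤ len * (k + 1) * (40 * (Nat.size ((u + s) * T) + 4)) ∧
    (∀ y : List Bool, y.length ≤ n → ‖sev T L y‖ ≤ len * ((n : ℝ) + 1) ^ k) ∧
    ∀ a b S : ℕ, a < b → s ≤ S → c1 = 6 * a * S → c2 = (b - a) * T →
      4 * S * mm * b ≤ (b - a) * T → ∀ y : List Bool, y.length ≤ n →
      ‖sevP T (1 - (a : ℝ) / b) L y‖ ≤ len * (((n : ℝ) + 1) * b / ((b : ℝ) - a)) ^ k

/-- The programs for values of tests and for estimators. -/
def EVAL : Prop :=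
  ∀ (P T n b Dm J c1 c2 mm s k u len : ℕ) (L : SC), Room P T n b Dm J → mm ≤ T →
    Inv T c1 c2 mm s k u len L → s ≤ 4 ^ J → k ≤ 3 * 4 ^ J → u ≤ 16 ^ (J + 2) →
    (∀ y : List Bool, y.length ≤ n → ∀ i ≤ y.length,
      G.val ((evL P T L y).getD i (G.int 0)) = sev T L (sfx y i)) ∧
    ∀ a : ℕ, a < b → ∀ ts : List (List Bool), ts ≠ [] → (∀ t ∈ ts, t.length ≤ n) →
      G.val (est P T a b L ts) = (ts.map fun t => sevP T (1 - (a : ℝ) / b) L t).sum / ts.length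

/-- The programs for the windows. -/
def WIN : Prop :=
  (∀ (P T : ℕ) (as : List ℤ) (m e l : ℤ), 2 ≤ T → (∀ a ∈ as, (a * l).natAbs ≤ P) →
    (m * l).natAbs ≤ P → (e * l).natAbs ≤ P → G.val (wgtG P T as m e l) = wgt T as m e l) ∧
  ∀ (P T n b Dm J : ℕ) (as : List ℤ), Room P T n b Dm J → as.length ≤ Dm →
    (as.map Int.natAbs).sum ≤ T →
    (exL P as).length = 4 ^ as.length ∧ (∀ e ∈ exL P as, e.natAbs ≤ (as.map Int.natAbs).sum) ∧
    ∀ l : ℤ, (Gw T as l : ℂ) = ((exL P as).map fun e => wv T (0, e * l)).sum / 4 ^ as.length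

/-- The program for the past. -/
def PAST : Prop :=
  ∀ (P T n b Dm J c1 c2 mm j : ℕ) (as : List ℤ) (m : ℤ) (x : List Bool) (i1 : ℕ) (c : Qy),
    Room P T n b Dm J → j ≤ J → mm ≤ T → CInv T c1 c2 mm j c.1 → (∀ a ∈ as, a.natAbs ≤ T) →
    m.natAbs ≤ T → c.2.natAbs ≤ T → x.length = n → 1 ≤ i1 → i1 ≤ n →
    G.val (pastG P T as m (sfx x (i1 - 1)) c) = Past T as m x i1 c

/-- The product step. -/
def PROD : Prop :=
  ∀ (P T n b Dm J c1 c2 mm j r W : ℕ) (as : List ℤ) (x : List Bool) (i1 : ℕ) (tb : List (Qy × G))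
    (p : Pat) (ε : ℝ), Room P T n b Dm J → j < J → mm ≤ T → as.length ≤ Dm →
    (as.map Int.natAbs).sum ≤ T → r ≤ T → PInv T c1 c2 mm j p →
    p.1.2.natAbs ≤ T → p.2.1.2.natAbs ≤ T → p.2.2.1.2.natAbs ≤ T → p.2.2.2.2.natAbs ≤ T →
    (∀ a : ℤ, a.natAbs ≤ (as.map Int.natAbs).sum → PAdm T c1 c2 mm r p a) →
    x.length = n → 1 ≤ i1 → i1 ≤ n →
    (∀ c ∈ kids P r as p, ‖G.val (look tb c) - Tf T as r W x i1 c‖ ≤ ε) →
    ‖G.val (prodG P T r as (sfx x (i1 - 1)) tb p) -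
      UU T as r W x i1 p.1 * UU T as r W x i1 p.2.1 * UU T as r W x i1 p.2.2.1 *
        UU T as r W x i1 p.2.2.2‖ ≤ ε

/-- Phase retrieval. -/
def MARCH : Prop :=
  ∀ (P X d v mu D : ℕ) (V : ℕ → ℂ) (p : ℕ → G) (q : ℕ → ℕ → ℕ → G) (tr : ℕ → ℕ → G),
    X ≤ 2 ^ v → X + 1 ≤ P → 5 * d + v + mu + 14 ≤ D → 40 * (D + mu + 10) ≤ P →
    (∀ x ≤ X, ‖V x‖ ≤ 2 ^ mu) →
    (∀ x ≤ X, ‖G.val (p x) - V x * (starRingEnd ℂ) (V x)‖ ≤ (1 / 2) ^ D) →
    (∀ x' x t, x' + t + 1 ≤ X → x + t ≤ X → ‖G.val (q x' x t) - V (x' + t + 1) *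
      (starRingEnd ℂ) (V x') * (starRingEnd ℂ) (V (x + t)) * V x‖ ≤ (1 / 2) ^ D) →
    (∀ x t, x + t ≤ X → ‖G.val (tr x t) - V (x + t) * (starRingEnd ℂ) (V x) *
      (starRingEnd ℂ) (V t)‖ ≤ (1 / 2) ^ D) →
    ((march P (p2 P D) X (G.frac 2 (p2 P (2 * (d + 1)))) p q tr).map Prod.fst).Nodup ∧
    X ≤ 10 * (march P (p2 P D) X (G.frac 2 (p2 P (2 * (d + 1)))) p q tr).length ∧
    ∀ e ∈ march P (p2 P D) X (G.frac 2 (p2 P (2 * (d + 1)))) p q tr,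
      e.1 ≤ X ∧ ‖G.val e.2 - V e.1‖ ≤ (1 / 2) ^ d

/-- The Kaczmarz iteration. -/
def KACZ : Prop :=
  ∀ (P d mu ro n1 l : ℕ) (rows : List (List G × G)) (f : ℕ → ℂ), n1 ≤ 2 ^ l →
    4 * mu + 2 * d + l + 4 ≤ ro → 2 ^ ro ≤ P → n1 * (40 * (ro + mu + 10)) ≤ P →
    ∑ i ∈ range n1, ‖f i‖ ^ 2 ≤ 4 ^ mu →
    (∀ e ∈ rows, e.1.length = n1 ∧ ∑ i ∈ range n1, ‖G.val (e.1.getD i (G.int 0))‖ ^ 2 ≤ 4 ^ mu ∧
      ‖∑ i ∈ range n1, G.val (e.1.getD i (G.int 0)) * f i - G.val e.2‖ ≤ (1 / 2) ^ d) →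
    (kacz P d mu ro n1 rows).length = n1 ∧
    ∑ i ∈ range n1, ‖G.val ((kacz P d mu ro n1 rows).getD i (G.int 0)) - f i‖ ^ 2 ≤
      ∑ i ∈ range n1, ‖f i‖ ^ 2 ∧
    ∀ e ∈ rows, ‖∑ i ∈ range n1, G.val (e.1.getD i (G.int 0)) *
      (f i - G.val ((kacz P d mu ro n1 rows).getD i (G.int 0)))‖ ≤ 4 * (1 / 2) ^ d

/-- The queries: invariant, number, recursion. -/
def QS : Prop :=
  ∀ (P n a b m : ℕ) (π : Par), Good n a b m π → m * (Nat.size b + 1) ≤ P →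
    qs P π 0 = qs0 P π ∧
    (∀ j < π.J, qs P π (j + 1) = (qs P π j).flatMap (children P π j)) ∧
    ∀ j ≤ π.J, (qs P π j).length ≤ 2 ^ ((j + 1) * π.D π.J) ∧ ∀ c ∈ qs P π j, QInv π a b j c

/-- The values of the windowed sums. -/
def MARG : Prop :=
  ∀ (P n a b m : ℕ) (π : Par) (j : ℕ) (x : List Bool) (i1 : ℕ) (tb : List (Qy × G)) (c : Qy),
    Good n a b m π → m * (Nat.size b + 1) ≤ P → j < π.J → x.length = n → 1 ≤ i1 → i1 ≤ n →
    QInv π a b j c →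
    (∀ c' ∈ children P π j c, ‖G.val (look tb c') - TT P π (j + 1) x i1 c'‖ ≤
      (1 / 2) ^ π.D (j + 1)) →
    ((marchG P π j n (sfx x (i1 - 1)) tb c.1).map Prod.fst).Nodup ∧
    π.X j ≤ 10 * (marchG P π j n (sfx x (i1 - 1)) tb c.1).length ∧
    ∀ e ∈ marchG P π j n (sfx x (i1 - 1)) tb c.1, e.1 ≤ π.X j ∧
      ‖G.val e.2 - UU π.1 (angs P π (j + 1)) (π.r (j + 1)) (π.W (j + 1)) x i1
        (c.1, ((π.u j * e.1 : ℕ) : ℤ))‖ ≤ (1 / 2) ^ (2 ^ 36 * π.D j)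

/-- One level. -/
def STEP : Prop :=
  ∀ (P n a b m : ℕ) (π : Par) (j : ℕ) (x : List Bool) (i1 : ℕ) (tb : List (Qy × G)) (c : Qy),
    Good n a b m π → m * (Nat.size b + 1) ≤ P → j < π.J → x.length = n → 1 ≤ i1 → i1 ≤ n →
    QInv π a b j c →
    (∀ c' ∈ children P π j c, ‖G.val (look tb c') - TT P π (j + 1) x i1 c'‖ ≤
      (1 / 2) ^ π.D (j + 1)) →
    ‖G.val (stepG P π j n (sfx x (i1 - 1)) tb c) - TT P π j x i1 c‖ ≤ (1 / 2) ^ π.D j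

/-- The top level. -/
def TOP : Prop :=
  ∀ (P n a b m : ℕ) (π : Par) (x : List Bool) (i1 : ℕ) (ts : List (List Bool)) (c : Qy),
    Good n a b m π → m * (Nat.size b + 1) ≤ P → x.length = n → 1 ≤ i1 → i1 ≤ n → ts ≠ [] →
    (∀ t ∈ ts, t.length ≤ n) → QInv π a b π.J c →
    ‖(ts.map fun u => sevP π.1 (1 - (a : ℝ) / b) (topC π c) u).sum / ts.length -
      sev π.1 (topC π c) x‖ ≤ (1 / 2) ^ (2 * π.D π.J + 1) →
    ‖G.val (topG P π a b n ts (sfx x (i1 - 1)) c) - TT P π π.J x i1 c‖ ≤ (1 / 2) ^ π.D π.J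

/-- Reading the bit. -/
def BASE : Prop :=
  ∀ (P n a b m : ℕ) (π : Par) (x : List Bool) (i1 : ℕ) (V : List G),
    Good n a b m π → m * (Nat.size b + 1) ≤ P → x.length = n → 1 ≤ i1 → i1 ≤ n →
    V.length = (qs0 P π).length →
    (∀ e ∈ (qs0 P π).zip V, ‖G.val e.2 - TT P π 0 x i1 e.1‖ ≤ (1 / 2) ^ π.D 0) →
    bitOf P π n (sfx x (i1 - 1)) V :: sfx x (i1 - 1) = sfx x i1

/-- The decoder is correct when the statistics are close to their means. -/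
def CORE : Prop :=
  ∀ (P n a b m : ℕ) (π : Par) (x : List Bool) (ts : List (List Bool)),
    Good n a b m π → m * (Nat.size b + 1) ≤ P → x.length = n → ts ≠ [] →
    (∀ t ∈ ts, t.length ≤ n) → Close P π a b x ts → core P π a b n ts = x

/-- The statistics are close to their means with probability at least `2/3`. -/
def STAT : Prop :=
  ∀ (P n a b m : ℕ) (π : Par) (q : I) (x : List Bool), Good n a b m π →
    m * (Nat.size b + 1) ≤ P → (q : ℝ) = (a : ℝ) / b → x.length = n →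
    (2 / 3 : ENNReal) ≤ (P321.tracesLaw q x m).toOuterMeasure
      {ts | ts.length = m ∧ (∀ t ∈ ts, t.length ≤ n) ∧ Close P π a b x ts}

/-- The decoder runs in polynomial time. -/
def PTC : Prop :=
  PT ∅ (fun w : Par × ℕ × ℕ × ℕ × List (List Bool) =>
    core (pad w.2.2.1 w.2.2.2.2) w.1 w.2.1 w.2.2.1 w.2.2.2.1 w.2.2.2.2)

/-- The choice of the parameters. -/
def NUM : Prop :=
  ∃ sel : ℕ × ℕ × ℕ × List (List Bool) → Par, PT ∅ sel ∧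
    (∃ C : ℝ, 0 < C ∧ ∀ (a b n : ℕ) (ts : List (List Bool)), 0 < a → a < b → 2 ≤ n →
      Real.exp (C * (Real.log n) ^ 84 / (1 - (a : ℝ) / b)) ≤ ts.length →
      Good n a b ts.length (sel (a, b, n, ts))) ∧
    (∀ δ : ℝ, 0 < δ → ∃ C : ℝ, 0 < C ∧ ∀ (a b n : ℕ) (ts : List (List Bool)), 0 < a → a < b →
      2 ≤ n → (a : ℝ) / b ≤ (n : ℝ) ^ (-δ) → (n : ℝ) ^ C ≤ ts.length →
      Good n a b ts.length (sel (a, b, n, ts))) ∧
    ∀ (a b n : ℕ) (ts ts' : List (List Bool)), ts.length = ts'.length →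
      sel (a, b, n, ts) = sel (a, b, n, ts')

end Vale.Agent.P321D
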