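import Vale.Agent.P321D.Comb

/-!
# P321 decoder: the programs for the windows
-/

namespace Vale.Agent.P321D

open Complex Finset Vale.Agent.Lib.PolyTime Vale.Agent.P315.H155

theorem sum_map_flatMap {α β : Type*} (l : List α) (f : α → List β) (g : β → ℂ) :
    ((l.flatMap f).map g).sum = (l.map fun a => ((f a).map g).sum).sum := by
  induction l with
  | nil => simp
  | cons a l ih => rw [List.flatMap_cons, List.map_append, List.sum_append, ih]; simp

theorem cos_sq_wv (T : ℕ) (a l : ℤ) : ((Real.cos (ang T * a * l / 2) ^ 2 : ℝ) : ℂ) =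
    (wv T (0, a * l) + wv T (0, -(a * l)) + 2) * (1 / 4) := by
  have e1 : wv T (0, a * l) = cexp (((ang T * a * l : ℝ) : ℂ) * I) := by
    rw [wv]; congr 1; push_cast; ring
  have e2 : wv T (0, -(a * l)) = cexp (-((ang T * a * l : ℝ) : ℂ) * I) := by
    rw [wv]; congr 1; push_cast; ring
  rw [e1, e2, ← Complex.two_cos, Real.cos_sq, mul_div_cancel₀ _ (two_ne_zero), ← ofReal_cos]
  push_cast
  ring

theorem Gw_nil (T : ℕ) (l : ℤ) : Gw T [] l = 1 := by simp [Gw]

theorem Gw_cons (T : ℕ) (a : ℤ) (as : List ℤ) (l : ℤ) :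
    Gw T (a :: as) l = Real.cos (ang T * a * l / 2) ^ 2 * Gw T as l := by simp [Gw]

theorem Gw_append (T : ℕ) (as bs : List ℤ) (l : ℤ) :
    Gw T (as ++ bs) l = Gw T as l * Gw T bs l := by simp [Gw]

theorem val_wgtG {P T : ℕ} {as : List ℤ} {m e l : ℤ} (hT : 2 ≤ T)
    (ha : ∀ a ∈ as, (a * l).natAbs ≤ P) (hm : (m * l).natAbs ≤ P) (he : (e * l).natAbs ≤ P) :
    G.val (wgtG P T as m e l) = wgt T as m e l := by
  rw [wgtG, G.val_mul, val_pw hT hm he, wgt, G.val_prod]
  congr 1
  induction as with
  | nil => simp [Gw_nil]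
  | cons a as ih =>
    have h := ha a List.mem_cons_self
    rw [Gw_cons, ofReal_mul, cos_sq_wv, ← ih fun c hc => ha c (List.mem_cons_of_mem _ hc)]
    simp only [List.map_cons, List.prod_cons, G.val_mul, G.val_add, G.val_int]
    rw [val_pw hT (by simp) h, val_pw hT (by simp) (by simpa using h), G.val_frac _ (by norm_num)]
    norm_num

theorem exL_key (T : ℕ) (as : List ℤ) :
    ∀ E, E = as.foldl (fun (E : List ℤ) a => E.flatMap fun e => [e + a, e, e, e - a]) [0] →
      E.length = 4 ^ as.length ∧ (∀ e ∈ E, e.natAbs ≤ (as.map Int.natAbs).sum) ∧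
      ∀ l : ℤ, (Gw T as l : ℂ) = (E.map fun e => wv T (0, e * l)).sum / 4 ^ as.length := by
  induction as using List.reverseRecOn with
  | nil =>
    rintro E rfl
    simp [Gw_nil]
  | append_singleton as a ih =>
    rintro E rfl
    obtain ⟨h1, h2, h3⟩ := ih _ rfl
    rw [List.foldl_append, List.foldl_cons, List.foldl_nil]
    generalize as.foldl (fun (E : List ℤ) a => E.flatMap fun e => [e + a, e, e, e - a]) [0] = E
      at h1 h2 h3
    refine ⟨?_, fun e he => ?_, fun l => ?_⟩
    · rw [List.length_flatMap]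
      simp [h1, pow_succ]
    · obtain ⟨e0, h0, he⟩ := List.mem_flatMap.1 he
      have := h2 e0 h0
      simp only [List.mem_cons, List.not_mem_nil, or_false] at he
      simp only [List.map_append, List.map_cons, List.map_nil, List.sum_append, List.sum_cons,
        List.sum_nil]
      omega
    · have e : ∀ e : ℤ, ([e + a, e, e, e - a].map fun e => wv T (0, e * l)).sum =
          wv T (0, e * l) * (wv T (0, a * l) + wv T (0, -(a * l)) + 2) := fun e => by
        have e1 := wv_add T 0 (e * l) 0 (a * l)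
        have e2 := wv_add T 0 (e * l) 0 (-(a * l))
        simp only [List.map_cons, List.map_nil, List.sum_cons, List.sum_nil, add_mul, sub_mul]
        rw [add_zero] at e1 e2
        rw [sub_eq_add_neg, e1, e2]
        ring
      rw [sum_map_flatMap]
      simp only [e]
      rw [List.sum_map_mul_right, Gw_append, Gw_cons, Gw_nil, mul_one, ofReal_mul, cos_sq_wv, h3,
        List.length_append, List.length_singleton, pow_succ]
      field_simp

theorem Room.big {P T n b Dm J : ℕ} (h : Room P T n b Dm J) : 256 ≤ Dm := by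
  have h1 : 16 ^ 2 ≤ 16 ^ (J + 2) := Nat.pow_le_pow_right (by norm_num) (by omega)
  have h2 := h.2.2.1
  nlinarith

theorem win_ok : WIN := by
  refine ⟨fun P T as m e l hT ha hm he => val_wgtG hT ha hm he,
    fun P T n b Dm J as h hl hs => exL_key T as _ (foldlC_eq fun i hi => ?_)⟩
  obtain ⟨h1, h2, -⟩ := exL_key T (as.take (i + 1)) _ rfl
  have h3 : ((as.take (i + 1)).map Int.natAbs).sum ≤ (as.map Int.natAbs).sum :=
    ((List.take_sublist _ _).map _).sum_le_sum fun _ _ => Nat.zero_le _
  have h0 := h.big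
  refine (esize_list_le (B := Dm + 4) fun e he => ?_).trans ?_
  · have : Nat.size e.natAbs ≤ Dm + 1 := by
      rw [Nat.size_le, pow_succ]
      have := (((h2 e he).trans h3).trans hs).trans h.2.1
      have : 1 ≤ 2 ^ Dm := Nat.one_le_two_pow
      omega
    rw [esize_int]
    omega
  · refine le_trans ?_ (h.pow_le (k := 2 * Dm + (Dm + 2)) (by omega))
    rw [h1, pow_add, pow_mul, pow_add]
    refine Nat.mul_le_mul (Nat.pow_le_pow_right (by norm_num) ?_) ?_
    · rw [List.length_take]; omega
    · have := Nat.lt_two_pow_self (n := Dm)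
      omega

end Vale.Agent.P321D
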